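import Mathlib

/-!
Formal functions on a superspace, given by their Taylor coefficients, and the numbers
`[x]^k_i`.

A formal function `F` in (super)variables `t^x`, `x : X`, is encoded by the function
`List X → ℂ` whose value at `[x₁, …, xₙ]` is `∂_{x₁} ⋯ ∂_{xₙ} F` at `0`.
-/

namespace Vale.Agent.P269.H598

variable {X : Type}

/-- Koszul sign of two insertions: `-1` if both are odd, `1` otherwise. -/
def ks (par : X → Bool) (x y : X) : ℂ := if par x && par y then -1 else 1

/-- Koszul sign of an insertion and a list of insertions. -/
def kl (par : X → Bool) (x : X) : List X → ℂ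
  | [] => 1
  | y :: l => ks par x y * kl par x l

/-- Supersymmetry of a function of a list of insertions. -/
def SS (par : X → Bool) (F : List X → ℂ) : Prop :=
  ∀ (l : List X) (x y : X) (l' : List X),
    F (l ++ x :: y :: l') = ks par x y * F (l ++ y :: x :: l')

/-- `dr A l G`: the sum over the positions of the list `l` of the values of `G` on the list
obtained by applying `A` in this position (the Leibniz rule). -/
def dr (A : (X → ℂ) → (X → ℂ)) : List X → (List X → ℂ) → ℂ
  | [], _ => 0
  | x :: l, G => A (fun y => G (y :: l)) x + dr A l (fun s => G (x :: s))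

/-- `shuf par l Φ`: the sum of `± Φ I J` over all ways to split the list `l` into two
complementary sublists `I`, `J`, where `±` is the Koszul sign of the permutation
which takes `l` to `I ++ J`. -/
def shuf (par : X → Bool) : List X → (List X → List X → ℂ) → ℂ
  | [], Φ => Φ [] []
  | x :: l, Φ => shuf par l (fun I J => Φ (x :: I) J) +
      shuf par l (fun I J => kl par x I * Φ I (x :: J))

/-- `br K i x` is the number `[x]^{K-1}_i` of Eguchi-Hori-Xiong: the coefficient of `s^i` in
`(s + x)(s + x + 1) ⋯ (s + x + K - 1)`. -/
noncomputable def br (K i : ℕ) (x : ℂ) : ℂ :=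
  (∏ j ∈ Finset.range K,
    ((Polynomial.X : Polynomial ℂ) + Polynomial.C (x + (j : ℂ)))).coeff i

end Vale.Agent.P269.H598
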