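import Vale.Agent.P269.H598.Base

/-!
Lemmas on the numbers `[x]^k_i`.
-/

namespace Vale.Agent.P269.H598

open Polynomial Finset

lemma br_diff (K i : ℕ) (x : ℂ) :
    br (K + 1) i x - br (K + 1) i (x - 1) = ((K : ℂ) + 1) * br K i x := by
  unfold br
  rw [← coeff_sub, ← coeff_C_mul]
  congr 1
  rw [Finset.prod_range_succ, Finset.prod_range_succ' (fun j : ℕ => (X : ℂ[X]) + C (x - 1 + (j : ℂ)))]
  have h : ∀ j ∈ Finset.range K, (X : ℂ[X]) + C (x - 1 + ((j + 1 : ℕ) : ℂ)) = X + C (x + (j : ℂ)) := by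
    intro j _
    congr 2; push_cast; ring
  rw [Finset.prod_congr rfl h, ← mul_sub]
  rw [mul_comm]
  congr 1
  rw [add_sub_add_left_eq_sub, ← C_sub]
  congr 1
  push_cast; ring

lemma br_monic (K : ℕ) (x : ℂ) :
    (∏ j ∈ Finset.range K, ((X : ℂ[X]) + C (x + (j : ℂ)))).Monic :=
  monic_prod_of_monic _ _ fun _ _ => monic_X_add_C _

lemma br_natDegree (K : ℕ) (x : ℂ) :
    (∏ j ∈ Finset.range K, ((X : ℂ[X]) + C (x + (j : ℂ)))).natDegree = K := by
  rw [natDegree_prod_of_monic _ _ fun _ _ => monic_X_add_C _]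
  simp only [natDegree_X_add_C, Finset.sum_const, Finset.card_range, smul_eq_mul, mul_one]

lemma br_self (K : ℕ) (x : ℂ) : br K K x = 1 := by
  have h := (br_monic K x).coeff_natDegree
  rwa [br_natDegree] at h

lemma br_gt {K i : ℕ} (h : K < i) (x : ℂ) : br K i x = 0 := by
  unfold br
  apply coeff_eq_zero_of_natDegree_lt
  rwa [br_natDegree]

lemma br_succ (K i : ℕ) (x : ℂ) :
    br (K + 1) (i + 1) x = br K i x + (x + K) * br K (i + 1) x := by
  unfold br
  rw [Finset.prod_range_succ, mul_add, coeff_add, coeff_mul_X, coeff_mul_C]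
  ring

lemma br_succ_zero (K : ℕ) (x : ℂ) :
    br (K + 1) 0 x = (x + K) * br K 0 x := by
  unfold br
  rw [Finset.prod_range_succ, mul_add, coeff_add, coeff_mul_X_zero, coeff_mul_C]
  ring

lemma br_zero (x : ℂ) : br 0 0 x = 1 := br_self 0 x

lemma br_pred (K : ℕ) (x : ℂ) :
    br (K + 1) K x = ((K : ℂ) + 1) * x + (K : ℂ) * (K + 1) / 2 := by
  induction K with
  | zero => rw [br_succ_zero, br_zero]; simp
  | succ K ih =>
    rw [br_succ, ih, br_self]
    push_cast; ring

lemma br_one_zero (x : ℂ) : br 1 0 x = x := by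
  have := br_pred 0 x
  simpa using this

lemma br_two_zero (x : ℂ) : br 2 0 x = x * (x + 1) := by
  rw [br_succ_zero, br_one_zero]; push_cast; ring

/-- `br K i (1 - K - x) = (-1)^(K+i) br K i x` -/
lemma br_reflect (K i : ℕ) (x : ℂ) :
    br K i (1 - K - x) = (-1) ^ (K + i) * br K i x := by
  unfold br
  have h1 : (∏ j ∈ Finset.range K, ((X : ℂ[X]) + C (1 - K - x + (j : ℂ)))) =
      ∏ j ∈ Finset.range K, ((X : ℂ[X]) + C (-(x + (j : ℂ)))) := by
    rw [← Finset.prod_range_reflect]
    apply Finset.prod_congr rfl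
    intro j hj
    congr 2
    have hj' : j + 1 ≤ K := Finset.mem_range.mp hj
    have : ((K - 1 - j : ℕ) : ℂ) = (K : ℂ) - 1 - j := by
      rw [Nat.sub_sub, Nat.cast_sub (by omega)]; push_cast; ring
    rw [this]; ring
  rw [h1]
  have h2 : (∏ j ∈ Finset.range K, ((X : ℂ[X]) + C (-(x + (j : ℂ))))) =
      C ((-1) ^ K) * (∏ j ∈ Finset.range K, ((X : ℂ[X]) + C (x + (j : ℂ)))).comp (C (-1) * X) := by
    rw [Polynomial.prod_comp]
    have : C ((-1 : ℂ) ^ K) = ∏ _j ∈ Finset.range K, (C (-1 : ℂ)) := by simp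
    rw [this, ← Finset.prod_mul_distrib]
    apply Finset.prod_congr rfl
    intro j _
    simp only [add_comp, X_comp, C_comp, C_neg, C_1]
    ring
  rw [h2, coeff_C_mul, comp_C_mul_X_coeff]
  rw [pow_add]; ring

/-- `br K i x` is a polynomial of degree at most `K - i` in `x`. -/
lemma br_poly (K i : ℕ) : ∃ q : ℂ[X], (∀ x, q.eval x = br K i x) ∧ (q.natDegree + i ≤ K ∨ q = 0) := by
  induction K generalizing i with
  | zero =>
    rcases Nat.eq_zero_or_pos i with h | h
    · subst h
      exact ⟨1, fun x => by simp [br_zero], Or.inl (by simp)⟩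
    · exact ⟨0, fun x => by simp [br_gt h], Or.inr rfl⟩
  | succ K ih =>
    rcases i with _ | i
    · obtain ⟨q, hq, hd⟩ := ih 0
      refine ⟨(X + C (K : ℂ)) * q, fun x => by rw [br_succ_zero, ← hq]; simp, ?_⟩
      rcases hd with hd | hd
      · left
        have := natDegree_mul_le (p := (X + C (K : ℂ) : ℂ[X])) (q := q)
        rw [natDegree_X_add_C] at this
        omega
      · right; simp [hd]
    · obtain ⟨q, hq, hd⟩ := ih i
      obtain ⟨q', hq', hd'⟩ := ih (i + 1)
      refine ⟨q + (X + C (K : ℂ)) * q', fun x => by rw [br_succ, ← hq, ← hq']; simp, ?_⟩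
      have h1 := natDegree_add_le q ((X + C (K : ℂ)) * q')
      have h2 := natDegree_mul_le (p := (X + C (K : ℂ) : ℂ[X])) (q := q')
      rw [natDegree_X_add_C] at h2
      rcases hd with hd | hd
      · left
        rcases hd' with hd' | hd'
        · have : max q.natDegree ((X + C (K : ℂ)) * q').natDegree ≤ K - i := by
            apply max_le <;> omega
          omega
        · subst hd'; simp only [mul_zero, add_zero]; omega
      · rcases hd' with hd' | hd'
        · subst hd; left; simp only [zero_add]; omega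
        · right; simp [hd, hd']

end Vale.Agent.P269.H598
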