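import Vale.Agent.P269.H598.Genus0N

/-!
The genus zero, degree zero Virasoro constraints.
-/

set_option linter.unusedSectionVars false

namespace Vale.Agent.P269.H598

open Finset

lemma der_opsum {X α : Type} (s : Finset α) (A : α → ((X → ℂ) →ₗ[ℂ] (X → ℂ))) (l : List X)
    (F : List X → ℂ) : der (∑ a ∈ s, A a) l F = ∑ a ∈ s, der (A a) l F := by
  classical
  induction s using Finset.induction_on with
  | empty =>
    simp only [Finset.sum_empty]
    induction l generalizing F with
    | nil => rfl
    | cons x l ih => simp only [der, ih]; simp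
  | insert a s ha ih => rw [Finset.sum_insert ha, Finset.sum_insert ha, der_opadd, ih]

namespace Coh

variable {ι : Type} [Fintype ι] [DecidableEq ι] {D : Coh ι}

/-- Properties of the intersection numbers. -/
structure IntGood (D : Coh ι) : Prop where
  int_SS : SS D.par D.int
  int_type : ∀ L, D.int L ≠ 0 → (L.map D.p).sum = D.dim ∧ (L.map D.q).sum = D.dim
  int_one : ∀ L, D.int (D.one :: L) = D.int L
  int_two : ∀ a c, D.int [a, c] = D.η a c
  int_H : ∀ a L, ∑ c, D.H a c * D.int (c :: L) = D.int (D.h :: a :: L)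
  split : ∀ P Q, ∑ a, ∑ c, D.η⁻¹ a c * (kl D.par c P * (D.int (a :: P) * D.int (c :: Q))) =
    D.int (P ++ Q)

variable (D) in
/-- `J i [a₁, …]` is the integral of `c₁^i ∪ φ_{a₁} ∪ ⋯` -/
noncomputable def J (i : ℕ) (L : List ι) : ℂ :=
  (D.κ : ℂ) ^ i * D.int (List.replicate i D.h ++ L)

lemma Good.par_h (hD : D.Good) : D.par D.h = false := hD.pr_h 0
lemma Good.par_one (hD : D.Good) : D.par D.one = false := hD.pr_one 0

lemma kl_replicate_h (hD : D.Good) (a : ι) (i : ℕ) : kl D.par a (List.replicate i D.h) = 1 := by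
  induction i with
  | zero => rfl
  | succ i ih => rw [List.replicate_succ]; simp only [kl]; rw [ih, ks_even' hD.par_h, one_mul]

lemma J_SS (hI : D.IntGood) (i : ℕ) : SS D.par (D.J i) := by
  intro l x y l'
  unfold J
  rw [← List.append_assoc, hI.int_SS, List.append_assoc]; ring

/-- moving one hyperplane class to the front -/
lemma int_h_front (hD : D.Good) (hI : D.IntGood) (P L : List ι) :
    D.int (P ++ D.h :: L) = D.int (D.h :: (P ++ L)) := by
  rw [hI.int_SS.front, kl_even hD.par_h, one_mul]

lemma int_hrep_front (hD : D.Good) (hI : D.IntGood) (i : ℕ) (P L : List ι) :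
    D.int (P ++ (List.replicate i D.h ++ L)) = D.int (List.replicate i D.h ++ (P ++ L)) := by
  induction i generalizing P with
  | zero => rfl
  | succ i ih =>
    rw [List.replicate_succ]
    simp only [List.cons_append]
    rw [int_h_front hD hI]
    have := ih (D.h :: P)
    simp only [List.cons_append] at this
    rw [this, int_h_front hD hI]

lemma J_R0 (hD : D.Good) (hI : D.IntGood) (i : ℕ) (a : ι) (L : List ι) :
    ∑ c, (D.R ^ i) a c * D.int (c :: L) = D.J i (a :: L) := by
  induction i generalizing L with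
  | zero =>
    simp [J, Matrix.one_apply]
  | succ i ih =>
    have e1 : ∀ c, (D.R ^ (i + 1)) a c * D.int (c :: L) =
        ∑ e, (D.R ^ i) a e * (D.κ * (D.H e c * D.int (c :: L))) := by
      intro c
      rw [pow_succ, Matrix.mul_apply, Finset.sum_mul]
      apply Finset.sum_congr rfl; intro e _
      simp only [R, Matrix.smul_apply, smul_eq_mul]; ring
    rw [Finset.sum_congr rfl (fun c _ => e1 c), Finset.sum_comm]
    have e2 : ∀ e, ∑ c, (D.R ^ i) a e * (D.κ * (D.H e c * D.int (c :: L))) =
        D.κ * ((D.R ^ i) a e * D.int (e :: D.h :: L)) := by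
      intro e
      rw [← Finset.mul_sum, ← Finset.mul_sum, hI.int_H]
      have := hI.int_SS.swap D.h e L
      rw [ks_even hD.par_h, one_mul] at this
      rw [this]; ring
    rw [Finset.sum_congr rfl (fun e _ => e2 e), ← Finset.mul_sum, ih]
    unfold J
    have e3 : D.int (List.replicate i D.h ++ a :: D.h :: L) =
        D.int (List.replicate (i + 1) D.h ++ a :: L) := by
      have := int_h_front hD hI (List.replicate i D.h ++ [a]) L
      simp only [List.append_assoc, List.cons_append, List.nil_append] at this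
      rw [this, List.replicate_succ]; rfl
    rw [e3, pow_succ]; ring

lemma J_R (hD : D.Good) (hI : D.IntGood) (i : ℕ) (a : ι) (P L : List ι) :
    ∑ c, (D.R ^ i) a c * D.int (P ++ c :: L) = D.J i (P ++ a :: L) := by
  rw [(J_SS hI i).front P a L, ← J_R0 hD hI, Finset.mul_sum]
  apply Finset.sum_congr rfl
  intro c _
  by_cases h : (D.R ^ i) a c = 0
  · rw [h]; ring
  · rw [hI.int_SS.front P c L, kl_congr (hD.Rpow_par i h)]; ring

lemma J_type (hD : D.Good) (hI : D.IntGood) (i : ℕ) {L : List ι} (h : D.J i L ≠ 0) :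
    i + (L.map D.p).sum = D.dim ∧ i + (L.map D.q).sum = D.dim := by
  have h1 := hI.int_type _ (right_ne_zero_of_mul h)
  obtain ⟨h2, h3⟩ := hD.h_type
  simp only [List.map_append, List.map_replicate, List.sum_append, List.sum_replicate, h2, h3,
    smul_eq_mul, mul_one] at h1
  exact h1

lemma J_one (hD : D.Good) (hI : D.IntGood) (i : ℕ) (L : List ι) :
    D.J i (D.one :: L) = D.J i L := by
  unfold J
  rw [hI.int_SS.front, kl_even hD.par_one, one_mul, hI.int_one]

lemma J_two (hD : D.Good) (hI : D.IntGood) (i : ℕ) (a c : ι) :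
    (D.R ^ i * D.η) a c = D.J i [a, c] := by
  rw [← J_R0 hD hI, Matrix.mul_apply]
  apply Finset.sum_congr rfl
  intro e _
  rw [hI.int_two]

lemma J_split (hD : D.Good) (hI : D.IntGood) (i : ℕ) (P Q : List ι) :
    ∑ a, ∑ c, (D.η⁻¹ * D.R ^ i) a c * (kl D.par c P * (D.int (a :: P) * D.int (c :: Q))) =
      D.J i (P ++ Q) := by
  have e1 : ∀ a, ∑ c, (D.η⁻¹ * D.R ^ i) a c *
        (kl D.par c P * (D.int (a :: P) * D.int (c :: Q))) =
      ∑ e, D.η⁻¹ a e * (kl D.par e P * (D.int (a :: P) * D.J i (e :: Q))) := by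
    intro a
    have e2 : ∀ c, (D.η⁻¹ * D.R ^ i) a c *
        (kl D.par c P * (D.int (a :: P) * D.int (c :: Q))) =
        ∑ e, D.η⁻¹ a e * (kl D.par e P * (D.int (a :: P) * ((D.R ^ i) e c * D.int (c :: Q)))) := by
      intro c
      rw [Matrix.mul_apply, Finset.sum_mul]
      apply Finset.sum_congr rfl; intro e _
      by_cases h : (D.R ^ i) e c = 0
      · rw [h]; ring
      · rw [kl_congr (hD.Rpow_par i h)]; ring
    rw [Finset.sum_congr rfl (fun c _ => e2 c), Finset.sum_comm]
    apply Finset.sum_congr rfl; intro e _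
    rw [← Finset.mul_sum, ← Finset.mul_sum, ← Finset.mul_sum, J_R0 hD hI]
  rw [Finset.sum_congr rfl (fun a _ => e1 a)]
  have e3 : ∀ a e, D.η⁻¹ a e * (kl D.par e P * (D.int (a :: P) * D.J i (e :: Q))) =
      (D.κ : ℂ) ^ i * (D.η⁻¹ a e * (kl D.par e P * (D.int (a :: P) *
        D.int (e :: (List.replicate i D.h ++ Q))))) := by
    intro a e
    have : D.J i (e :: Q) = (D.κ : ℂ) ^ i * D.int (e :: (List.replicate i D.h ++ Q)) := by
      unfold J
      rw [hI.int_SS.front, kl_replicate_h hD, one_mul]
    rw [this]; ring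
  have e4 : ∀ a, ∑ e, D.η⁻¹ a e * (kl D.par e P * (D.int (a :: P) * D.J i (e :: Q))) =
      (D.κ : ℂ) ^ i * ∑ e, (D.η⁻¹ a e * (kl D.par e P * (D.int (a :: P) *
        D.int (e :: (List.replicate i D.h ++ Q))))) := by
    intro a
    rw [Finset.mul_sum]
    exact Finset.sum_congr rfl (fun e _ => e3 a e)
  rw [Finset.sum_congr rfl (fun a _ => e4 a), ← Finset.mul_sum, hI.split, int_hrep_front hD hI]
  rfl

variable (D) in
/-- one summand of `opA` -/
noncomputable def opAi (K i : ℕ) : ((ι × ℕ) → ℂ) →ₗ[ℂ] ((ι × ℕ) → ℂ) where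
  toFun g x := if i + 1 ≤ x.2 + K then
    br K i (D.b x.1 + x.2) * ∑ c, (D.R ^ i) x.1 c * g (c, x.2 + K - 1 - i) else 0
  map_add' g g' := by
    funext x
    simp only [Pi.add_apply]
    split_ifs
    · rw [← mul_add, ← Finset.sum_add_distrib]
      congr 1
      apply Finset.sum_congr rfl
      intro c _; ring
    · ring
  map_smul' r g := by
    funext x
    simp only [Pi.smul_apply, smul_eq_mul, RingHom.id_apply]
    split_ifs
    · rw [mul_left_comm r]
      congr 1
      rw [Finset.mul_sum]
      apply Finset.sum_congr rfl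
      intro c _; ring
    · ring

lemma opAi_apply (K i : ℕ) (g : (ι × ℕ) → ℂ) (x : ι × ℕ) : D.opAi K i g x =
    if i + 1 ≤ x.2 + K then
    br K i (D.b x.1 + x.2) * ∑ c, (D.R ^ i) x.1 c * g (c, x.2 + K - 1 - i) else 0 := rfl

lemma opA_sum (K : ℕ) : D.opA K = ∑ i ∈ range (K + 1), D.opAi K i := by
  apply LinearMap.ext; intro g; funext x
  rw [LinearMap.sum_apply, Finset.sum_apply, opA_apply]
  rfl

variable (D) in
/-- numerical data of a list of insertions -/
noncomputable def num (S : List (ι × ℕ)) : List (ℂ × ℕ) := S.map fun x => ((D.p x.1 : ℂ), x.2)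

lemma num_cons (x : ι × ℕ) (S : List (ι × ℕ)) :
    D.num (x :: S) = ((D.p x.1 : ℂ), x.2) :: D.num S := rfl

lemma num_snd (S : List (ι × ℕ)) : (D.num S).map Prod.snd = S.map Prod.snd := by
  unfold num; rw [List.map_map]; rfl

lemma num_sp (S : List (ι × ℕ)) : sp (D.num S) = (((S.map Prod.fst).map D.p).sum : ℕ) := by
  induction S with
  | nil => simp [num, sp_nil]
  | cons x l ih => rw [num_cons, sp_cons, ih]; simp

lemma der_opAi (hD : D.Good) (hI : D.IntGood) (K i : ℕ) (S : List (ι × ℕ))
    (F : List ℕ → ℂ) (P : List ι) :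
    der (D.opAi K i) S (fun s => F (s.map Prod.snd) * D.int (P ++ s.map Prod.fst)) =
      D.J i (P ++ S.map Prod.fst) *
        der (opB (D.dim : ℂ) K i) (D.num S) (fun s => F (s.map Prod.snd)) := by
  induction S generalizing F P with
  | nil => simp [der, num]
  | cons x l ih =>
    simp only [der, num_cons]
    have e1 : (fun s => F ((x :: s).map Prod.snd) * D.int (P ++ (x :: s).map Prod.fst)) =
        fun s : List (ι × ℕ) => (fun m => F (x.2 :: m)) (s.map Prod.snd) *
          D.int ((P ++ [x.1]) ++ s.map Prod.fst) := by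
      funext s; simp
    rw [e1, ih (fun m => F (x.2 :: m)) (P ++ [x.1]), opAi_apply, opB_apply]
    have e2 : P ++ [x.1] ++ l.map Prod.fst = P ++ (x :: l).map Prod.fst := by simp
    rw [e2, mul_add]
    have e3 : (fun s : List (ℂ × ℕ) => F (((D.p x.1 : ℂ), x.2) :: s |>.map Prod.snd)) =
        fun s => F (x.2 :: s.map Prod.snd) := by
      funext s; simp
    rw [e3]
    congr 1
    simp only [List.map_cons, num_snd]
    split_ifs with hc
    · have e4 : D.b x.1 + x.2 = (D.p x.1 : ℂ) + (1 - (D.dim : ℂ)) / 2 + x.2 := by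
        rw [b_def]; ring
      rw [e4, ← J_R hD hI, Finset.mul_sum, Finset.sum_mul]
      apply Finset.sum_congr rfl
      intro c _; ring
    · ring

lemma shuf_num (S : List (ι × ℕ)) (Φ : List (ℂ × ℕ) → List (ℂ × ℕ) → ℂ) :
    shuf (fun _ => false) S (fun I J => Φ (D.num I) (D.num J)) = ush (D.num S) Φ := by
  induction S generalizing Φ with
  | nil => rfl
  | cons x l ih =>
    rw [num_cons, ush_cons, ← ih, ← ih]
    simp only [shuf, num_cons]
    congr 1; congr 1; funext I J
    rw [kl_even rfl, one_mul]

/-- The genus zero, degree zero part of all Virasoro constraints. -/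
theorem vir_genus0 (hD : D.Good) (hI : D.IntGood) {inv : ℕ → ℕ → List (ι × ℕ) → ℂ}
    (h0 : ∀ S : List (ι × ℕ), inv 0 0 S = psi0 (S.map Prod.snd) * D.int (S.map Prod.fst))
    (K : ℕ) (S : List (ι × ℕ)) : D.vir inv K 0 0 S = 0 := by
  have hG : inv 0 0 = fun S => psi0 (S.map Prod.snd) * D.int (S.map Prod.fst) := by
    funext S; exact h0 S
  have key : D.vir inv K 0 0 S = ∑ i ∈ range (K + 1),
      D.J i (S.map Prod.fst) * NN (D.dim : ℂ) K i (D.num S) := by
    unfold vir
    rw [if_pos rfl, if_pos ⟨rfl, rfl⟩]
    simp only [Finset.Nat.antidiagonal_zero, Finset.sum_singleton]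
    have e1 : D.scal K 0 0 S = 0 := by simp [scal]
    rw [e1, hG]
    -- linear part
    have e2 : D.lin K (fun S => psi0 (S.map Prod.snd) * D.int (S.map Prod.fst)) S =
        ∑ i ∈ range (K + 1), D.J i (S.map Prod.fst) *
          (der (opB (D.dim : ℂ) K i) (D.num S) (fun s => psi0 (s.map Prod.snd)) -
            br K i ((3 - (D.dim : ℂ)) / 2) * psi0 ((K - i) :: (D.num S).map Prod.snd)) := by
      rw [lin_der, opA_sum, der_opsum]
      rw [LinearMap.sum_apply, Finset.sum_apply, ← Finset.sum_sub_distrib]
      apply Finset.sum_congr rfl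
      intro i hi
      have hi' := Finset.mem_range.mp hi
      rw [mul_sub]
      congr 1
      · have := der_opAi hD hI K i S psi0 []
        simpa using this
      · rw [opAi_apply, if_pos (by simp only; omega)]
        simp only [List.map_cons, num_snd]
        have e3 : D.b D.one + ((1 : ℕ) : ℂ) = (3 - (D.dim : ℂ)) / 2 := by
          rw [b_def, hD.one_type.1]; push_cast; ring
        rw [e3, ← J_one hD hI, ← J_R0 hD hI, show 1 + K - 1 - i = K - i by omega,
          Finset.mul_sum, Finset.sum_mul]
        apply Finset.sum_congr rfl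
        intro c _; ring
    -- quadratic part
    have e3 : D.quad2 K (fun S => psi0 (S.map Prod.snd) * D.int (S.map Prod.fst))
          (fun S => psi0 (S.map Prod.snd) * D.int (S.map Prod.fst)) S =
        ∑ i ∈ range (K + 1), D.J i (S.map Prod.fst) *
          (1 / 2 * ush (D.num S) (P2 (D.dim : ℂ) K i)) := by
      unfold quad2 BS
      have e4 : ∑ i ∈ range (K + 1), D.J i (S.map Prod.fst) *
          (1 / 2 * ush (D.num S) (P2 (D.dim : ℂ) K i)) =
          ∑ i ∈ range (K - 1), D.J i (S.map Prod.fst) *
          (1 / 2 * ush (D.num S) (P2 (D.dim : ℂ) K i)) := by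
        symm
        apply Finset.sum_subset
        · intro i hi
          rw [Finset.mem_range] at hi ⊢; omega
        · intro i _ hi
          rw [Finset.mem_range] at hi
          have : P2 (D.dim : ℂ) K i = fun _ _ => 0 := by
            funext I J; unfold P2; rw [if_neg hi]
          rw [this]
          have : ush (D.num S) (fun _ _ => 0) = 0 := shuf_zero _
          rw [this]; ring
      rw [e4, Finset.mul_sum]
      apply Finset.sum_congr rfl
      intro i hi
      have hi' := Finset.mem_range.mp hi
      have e5 : ush (D.num S) (P2 (D.dim : ℂ) K i) =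
          ∑ mn ∈ antidiagonal (K - 2 - i), (-1) ^ (mn.1 + 1) *
            ush (D.num S) (fun I J => br K i (sp I - (1 + (D.dim : ℂ)) / 2 - mn.1) *
              (psi0 (mn.1 :: I.map Prod.snd) * psi0 (mn.2 :: J.map Prod.snd))) := by
        have : P2 (D.dim : ℂ) K i = fun I J => ∑ mn ∈ antidiagonal (K - 2 - i),
            (-1) ^ (mn.1 + 1) * (br K i (sp I - (1 + (D.dim : ℂ)) / 2 - mn.1) *
              (psi0 (mn.1 :: I.map Prod.snd) * psi0 (mn.2 :: J.map Prod.snd))) := by
          funext I J; unfold P2; rw [if_pos hi']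
        rw [this]
        unfold ush
        rw [shuf_sum]
        apply Finset.sum_congr rfl
        intro mn _
        rw [shuf_smul]
      rw [e5, mul_left_comm (D.J i _), Finset.mul_sum (a := D.J i _)]
      congr 1
      apply Finset.sum_congr rfl
      intro mn _
      rw [mul_left_comm]
      congr 1
      -- move the sum over classes inside
      have e6 : ∀ a c, br K i (-D.b a - mn.1) * (D.η⁻¹ * D.R ^ i) a c *
          shuf D.pr S (fun I J => kl D.pr (c, mn.2) I *
            (psi0 (((a, mn.1) :: I).map Prod.snd) * D.int (((a, mn.1) :: I).map Prod.fst) *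
            (psi0 (((c, mn.2) :: J).map Prod.snd) * D.int (((c, mn.2) :: J).map Prod.fst)))) =
          shuf D.pr S (fun I J => br K i (-D.b a - mn.1) * (D.η⁻¹ * D.R ^ i) a c *
            (kl D.pr (c, mn.2) I *
            (psi0 (((a, mn.1) :: I).map Prod.snd) * D.int (((a, mn.1) :: I).map Prod.fst) *
            (psi0 (((c, mn.2) :: J).map Prod.snd) * D.int (((c, mn.2) :: J).map Prod.fst))))) := by
        intro a c; rw [shuf_smul]
      have e7 : (∑ a, ∑ c, br K i (-D.b a - mn.1) * (D.η⁻¹ * D.R ^ i) a c *
          shuf D.pr S (fun I J => kl D.pr (c, mn.2) I *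
            (psi0 (((a, mn.1) :: I).map Prod.snd) * D.int (((a, mn.1) :: I).map Prod.fst) *
            (psi0 (((c, mn.2) :: J).map Prod.snd) * D.int (((c, mn.2) :: J).map Prod.fst))))) =
          shuf D.pr S (fun I J => ∑ a, ∑ c, br K i (-D.b a - mn.1) * (D.η⁻¹ * D.R ^ i) a c *
            (kl D.pr (c, mn.2) I *
            (psi0 (((a, mn.1) :: I).map Prod.snd) * D.int (((a, mn.1) :: I).map Prod.fst) *
            (psi0 (((c, mn.2) :: J).map Prod.snd) *
              D.int (((c, mn.2) :: J).map Prod.fst))))) := by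
        rw [shuf_sum]
        apply Finset.sum_congr rfl; intro a _
        rw [shuf_sum]
        apply Finset.sum_congr rfl; intro c _
        exact e6 a c
      rw [e7]
      -- pointwise evaluation
      have hklm : ∀ (c : ι) (n : ℕ) (I : List (ι × ℕ)),
          kl D.pr (c, n) I = kl D.par c (I.map Prod.fst) := by
        intro c n I
        induction I with
        | nil => rfl
        | cons y I ih => simp only [kl, List.map_cons, ih]; rfl
      have e8 : (fun I J : List (ι × ℕ) => ∑ a, ∑ c, br K i (-D.b a - mn.1) *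
            (D.η⁻¹ * D.R ^ i) a c * (kl D.pr (c, mn.2) I *
            (psi0 (((a, mn.1) :: I).map Prod.snd) * D.int (((a, mn.1) :: I).map Prod.fst) *
            (psi0 (((c, mn.2) :: J).map Prod.snd) *
              D.int (((c, mn.2) :: J).map Prod.fst))))) =
          fun I J => (br K i (sp (D.num I) - (1 + (D.dim : ℂ)) / 2 - mn.1) *
            (psi0 (mn.1 :: (D.num I).map Prod.snd) * psi0 (mn.2 :: (D.num J).map Prod.snd))) *
            D.J i ((I ++ J).map Prod.fst) := by
        funext I J
        rw [List.map_append, ← J_split hD hI, Finset.mul_sum]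
        apply Finset.sum_congr rfl; intro a _
        rw [Finset.mul_sum]
        apply Finset.sum_congr rfl; intro c _
        simp only [List.map_cons, num_snd, hklm]
        by_cases h1 : D.int (a :: I.map Prod.fst) = 0
        · rw [h1]; ring
        · have h2 := (hI.int_type _ h1).1
          simp only [List.map_cons, List.sum_cons] at h2
          have h3 : -D.b a - (mn.1 : ℂ) = sp (D.num I) - (1 + (D.dim : ℂ)) / 2 - mn.1 := by
            rw [b_def, num_sp]
            have h4 : (D.p a : ℂ) + (((I.map Prod.fst).map D.p).sum : ℕ) = D.dim := by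
              exact_mod_cast h2
            linear_combination -h4
          rw [h3]; ring
      rw [e8]
      have hJS : SS D.pr (fun S : List (ι × ℕ) => D.J i (S.map Prod.fst)) := by
        intro l x y l'
        simp only [List.map_append, List.map_cons]
        exact J_SS hI i _ _ _ _
      have e9 := shuf_append hJS S (fun I J => (br K i (sp (D.num I) - (1 + (D.dim : ℂ)) / 2 - mn.1) *
            (psi0 (mn.1 :: (D.num I).map Prod.snd) * psi0 (mn.2 :: (D.num J).map Prod.snd))))
      rw [e9, shuf_num S (fun I J => (br K i (sp I - (1 + (D.dim : ℂ)) / 2 - mn.1) *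
            (psi0 (mn.1 :: I.map Prod.snd) * psi0 (mn.2 :: J.map Prod.snd))))]
      ring
    -- quadratic term
    have e4 : pairing (D.R ^ K * D.η) S = ∑ i ∈ range (K + 1), D.J i (S.map Prod.fst) *
        (if K = i ∧ (D.num S).map Prod.snd = [0, 0] then 1 else 0) := by
      rw [Finset.sum_eq_single_of_mem K (by simp)]
      · rw [num_snd]
        rcases S with _ | ⟨x, _ | ⟨y, _ | ⟨z, l⟩⟩⟩
        · simp [pairing]
        · simp [pairing]
        · simp only [pairing, List.map_cons, List.map_nil, true_and, List.cons.injEq, and_true]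
          rw [J_two hD hI]
          split_ifs <;> ring
        · simp [pairing]
      · intro i _ hne
        rw [if_neg (fun h => hne h.1.symm), mul_zero]
    rw [e2, e3, e4]
    rw [add_zero, add_zero, ← Finset.sum_add_distrib, ← Finset.sum_add_distrib]
    apply Finset.sum_congr rfl
    intro i _
    unfold NN
    ring
  rw [key]
  apply Finset.sum_eq_zero
  intro i hi
  have hi' := Finset.mem_range.mp hi
  by_cases h1 : D.J i (S.map Prod.fst) = 0
  · rw [h1, zero_mul]
  · have h2 := (J_type hD hI i h1).1
    have h3 : (D.dim : ℂ) = i + sp (D.num S) := by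
      rw [num_sp]; exact_mod_cast h2.symm
    rw [h3, NN_eq_zero K i (by omega), mul_zero]

end Coh

end Vale.Agent.P269.H598
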