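import Vale.Agent.P269.H598.Hodge
import Vale.Agent.P269.H598.Genus0

/-!
Properties of the classical cohomological data of a smooth complete intersection.
-/

set_option linter.unusedSectionVars false

namespace Vale.Agent.P269.H598

open Finset

variable {P : Type} [Fintype P] [DecidableEq P]

variable {r : ℕ} {d : List ℕ} {hp : P → ℕ} {Q : Matrix P P ℂ}

lemma prims_inl (l : Fin (r + 1)) (L : List (Fin (r + 1) ⊕ P)) :
    prims (Sum.inl l :: L) = prims L := rfl

lemma prims_inr (a : P) (L : List (Fin (r + 1) ⊕ P)) :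
    prims (Sum.inr a :: L) = a :: prims L := rfl

lemma prims_append (L L' : List (Fin (r + 1) ⊕ P)) :
    prims (L ++ L') = prims L ++ prims L' := List.filterMap_append

lemma hdeg_inl (l : Fin (r + 1)) (L : List (Fin (r + 1) ⊕ P)) :
    hdeg (Sum.inl l :: L) = l + hdeg L := by simp [hdeg]

lemma hdeg_inr (a : P) (L : List (Fin (r + 1) ⊕ P)) :
    hdeg (Sum.inr a :: L) = hdeg L := by simp [hdeg]

lemma hdeg_append (L L' : List (Fin (r + 1) ⊕ P)) :
    hdeg (L ++ L') = hdeg L + hdeg L' := by simp [hdeg]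

lemma hdeg_swap (l : List (Fin (r + 1) ⊕ P)) (x y : Fin (r + 1) ⊕ P)
    (l' : List (Fin (r + 1) ⊕ P)) : hdeg (l ++ x :: y :: l') = hdeg (l ++ y :: x :: l') := by
  simp [hdeg]; ring

lemma CI_par_inl (l : Fin (r + 1)) : (CI r d hp Q).par (Sum.inl l) = false := by
  show decide (((l : ℕ) + (l : ℕ)) % 2 = 1) = false
  rw [decide_eq_false_iff_not]; omega

lemma CI_par_inr (hP : IsPrim r d hp Q) (a : P) :
    (CI r d hp Q).par (Sum.inr a) = decide (r % 2 = 1) := by
  have := hP.le a
  simp only [Coh.par, CI, Sum.elim_inr]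
  congr 2; omega

lemma CI_ks (hP : IsPrim r d hp Q) (a b : P) :
    ks (CI r d hp Q).par (Sum.inr a) (Sum.inr b) = (-1) ^ r := by
  unfold ks
  rw [CI_par_inr hP, CI_par_inr hP, Bool.and_self]
  rcases Nat.even_or_odd r with h | h
  · rw [h.neg_one_pow, if_neg]; simp [Nat.even_iff.mp h]
  · rw [h.neg_one_pow, if_pos]; simp [Nat.odd_iff.mp h]

lemma intF_swap (hP : IsPrim r d hp Q) (l l' : List P) (a b : P) (n : ℕ) :
    intF r d Q (l ++ a :: b :: l') n = (-1) ^ r * intF r d Q (l ++ b :: a :: l') n := by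
  rcases l with _ | ⟨x, l⟩
  · rcases l' with _ | ⟨y, l'⟩
    · simp only [List.nil_append, intF]
      split_ifs
      · exact hP.symm a b
      · ring
    · simp [intF]
  · rcases l with _ | ⟨z, l⟩
    · simp [intF]
    · simp [intF]

lemma CI_int_SS (hP : IsPrim r d hp Q) : SS (CI r d hp Q).par (CI r d hp Q).int := by
  intro l x y l'
  show intF r d Q (prims (l ++ x :: y :: l')) (hdeg (l ++ x :: y :: l')) =
    _ * intF r d Q (prims (l ++ y :: x :: l')) (hdeg (l ++ y :: x :: l'))
  rw [hdeg_swap, prims_append, prims_append]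
  rcases x with i | a
  · rw [ks_even (CI_par_inl i), one_mul]
    rcases y with j | b
    · rfl
    · rfl
  · rcases y with j | b
    · rw [ks_even' (CI_par_inl j), one_mul]; rfl
    · rw [CI_ks hP]
      exact intF_swap hP _ _ a b _

lemma CI_p_sum (L : List (Fin (r + 1) ⊕ P)) :
    (L.map (CI r d hp Q).p).sum = hdeg L + ((prims L).map hp).sum := by
  induction L with
  | nil => rfl
  | cons x L ih =>
    rcases x with i | a
    · rw [prims_inl, hdeg_inl, List.map_cons, List.sum_cons, ih]; simp [CI]; ring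
    · rw [prims_inr, hdeg_inr, List.map_cons, List.sum_cons, ih]; simp [CI]; ring

lemma CI_q_sum (L : List (Fin (r + 1) ⊕ P)) :
    (L.map (CI r d hp Q).q).sum = hdeg L + ((prims L).map fun a => r - hp a).sum := by
  induction L with
  | nil => rfl
  | cons x L ih =>
    rcases x with i | a
    · rw [prims_inl, hdeg_inl, List.map_cons, List.sum_cons, ih]; simp [CI]; ring
    · rw [prims_inr, hdeg_inr, List.map_cons, List.sum_cons, ih]; simp [CI]; ring

lemma CI_int_type (hP : IsPrim r d hp Q) (L : List (Fin (r + 1) ⊕ P))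
    (h : (CI r d hp Q).int L ≠ 0) : (L.map (CI r d hp Q).p).sum = (CI r d hp Q).dim ∧
      (L.map (CI r d hp Q).q).sum = (CI r d hp Q).dim := by
  rw [CI_p_sum, CI_q_sum]
  show _ = r ∧ _ = r
  have h' : intF r d Q (prims L) (hdeg L) ≠ 0 := h
  revert h'
  generalize hdeg L = n
  generalize prims L = ps
  intro h'
  unfold intF at h'
  split at h'
  · split_ifs at h' with h1
    · simp [h1]
    · exact absurd rfl h'
  · rename_i a b
    split_ifs at h' with h1
    · have h2 := hP.type a b h'
      have h3 := hP.le a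
      have h4 := hP.le b
      simp only [List.map_cons, List.map_nil, List.sum_cons, List.sum_nil]
      omega
    · exact absurd rfl h'
  · exact absurd rfl h'


lemma CI_int (L : List (Fin (r + 1) ⊕ P)) :
    (CI r d hp Q).int L = intF r d Q (prims L) (hdeg L) := rfl

lemma CI_int_inl (l : Fin (r + 1)) (L : List (Fin (r + 1) ⊕ P)) :
    (CI r d hp Q).int (Sum.inl l :: L) = intF r d Q (prims L) (l + hdeg L) := by
  rw [CI_int, prims_inl, hdeg_inl]

lemma CI_int_inr (a : P) (L : List (Fin (r + 1) ⊕ P)) :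
    (CI r d hp Q).int (Sum.inr a :: L) = intF r d Q (a :: prims L) (hdeg L) := by
  rw [CI_int, prims_inr, hdeg_inr]

lemma CI_int_one (L : List (Fin (r + 1) ⊕ P)) :
    (CI r d hp Q).int ((CI r d hp Q).one :: L) = (CI r d hp Q).int L := by
  show (CI r d hp Q).int (Sum.inl 0 :: L) = _
  rw [CI_int_inl, CI_int]; simp

lemma CI_int_two (a c : Fin (r + 1) ⊕ P) : (CI r d hp Q).int [a, c] = (CI r d hp Q).η a c := by
  have h1 : ∀ j : Fin (r + 1), prims ([Sum.inl j] : List (Fin (r + 1) ⊕ P)) = [] := fun _ => rfl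
  have h2 : ∀ c : P, prims ([Sum.inr c] : List (Fin (r + 1) ⊕ P)) = [c] := fun _ => rfl
  have h3 : ∀ j : Fin (r + 1), hdeg ([Sum.inl j] : List (Fin (r + 1) ⊕ P)) = j := by
    intro j; simp [hdeg]
  have h4 : ∀ c : P, hdeg ([Sum.inr c] : List (Fin (r + 1) ⊕ P)) = 0 := by
    intro c; simp [hdeg]
  rcases a with i | a <;> rcases c with j | c
  · rw [CI_int_inl, h1, h3]; rfl
  · rw [CI_int_inl, h2, h4]; rfl
  · rw [CI_int_inr, h1, h3]; rfl
  · rw [CI_int_inr, h2, h4]; simp [intF, CI]

lemma CI_h_val (hr : 1 ≤ r) : (((1 : Fin (r + 1)) : ℕ)) = 1 := by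
  rw [Fin.val_one']; exact Nat.mod_eq_of_lt (by omega)

lemma intF_big (d : List ℕ) (Q : Matrix P P ℂ) (ps : List P) (n : ℕ) (h : r < n) :
    intF r d Q ps n = 0 := by
  unfold intF
  split
  · rw [if_neg (by omega)]
  · rw [if_neg (by omega)]
  · rfl

lemma intF_prim (d : List ℕ) (Q : Matrix P P ℂ) (a : P) (ps : List P) (n : ℕ)
    (h : 0 < n) : intF r d Q (a :: ps) n = 0 := by
  unfold intF
  split
  · rename_i h1; exact absurd h1 (by simp)
  · rw [if_neg (by omega)]
  · rfl

lemma CI_int_H (hr : 1 ≤ r) (a : Fin (r + 1) ⊕ P) (L : List (Fin (r + 1) ⊕ P)) :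
    ∑ c, (CI r d hp Q).H a c * (CI r d hp Q).int (c :: L) =
      (CI r d hp Q).int ((CI r d hp Q).h :: a :: L) := by
  show _ = (CI r d hp Q).int (Sum.inl 1 :: a :: L)
  rw [CI_int_inl, CI_h_val hr, Fintype.sum_sum_type]
  rcases a with i | a
  · have e2 : ∑ c : P, (CI r d hp Q).H (Sum.inl i) (Sum.inr c) *
        (CI r d hp Q).int (Sum.inr c :: L) = 0 := by
      apply Finset.sum_eq_zero; intro c _; simp [CI]
    have e1 : ∀ c : Fin (r + 1), (CI r d hp Q).H (Sum.inl i) (Sum.inl c) *
        (CI r d hp Q).int (Sum.inl c :: L) =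
        if (c : ℕ) = i + 1 then intF r d Q (prims L) (i + 1 + hdeg L) else 0 := by
      intro c
      rw [CI_int_inl]
      simp only [CI, Matrix.fromBlocks_apply₁₁, Matrix.of_apply]
      split_ifs with h
      · rw [h, one_mul]
      · rw [zero_mul]
    rw [e2, add_zero, Finset.sum_congr rfl (fun c _ => e1 c), prims_inl, hdeg_inl]
    by_cases hi : (i : ℕ) = r
    · rw [Finset.sum_eq_zero, intF_big _ _ _ _ (by omega)]
      intro c _
      rw [if_neg (by omega)]
    · rw [Finset.sum_eq_single (⟨i + 1, by omega⟩ : Fin (r + 1))]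
      · rw [if_pos rfl]; congr 1; ring
      · intro c _ hc
        rw [if_neg]; intro h; apply hc; ext; exact h
      · intro h; exact absurd (Finset.mem_univ _) h
  · rw [prims_inr, intF_prim _ _ _ _ _ (by omega)]
    have e1 : ∑ c : Fin (r + 1), (CI r d hp Q).H (Sum.inr a) (Sum.inl c) *
        (CI r d hp Q).int (Sum.inl c :: L) = 0 := by
      apply Finset.sum_eq_zero; intro c _; simp [CI]
    have e2 : ∑ c : P, (CI r d hp Q).H (Sum.inr a) (Sum.inr c) *
        (CI r d hp Q).int (Sum.inr c :: L) = 0 := by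
      apply Finset.sum_eq_zero; intro c _; simp [CI]
    rw [e1, e2, add_zero]

/-- the inverse of the Poincare pairing -/
noncomputable def invη (r : ℕ) (d : List ℕ) (Q : Matrix P P ℂ) :
    Matrix (Fin (r + 1) ⊕ P) (Fin (r + 1) ⊕ P) ℂ :=
  Matrix.fromBlocks
    (Matrix.of fun l l' => if (l : ℕ) + (l' : ℕ) = r then ((d.prod : ℂ))⁻¹ else 0) 0 0 Q⁻¹

lemma η_mul_invη (hP : IsPrim r d hp Q) (hd : d.prod ≠ 0) :
    (CI r d hp Q).η * invη r d Q = 1 := by
  have hd' : (d.prod : ℂ) ≠ 0 := by exact_mod_cast hd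
  simp only [CI, invη]
  rw [Matrix.fromBlocks_multiply]
  simp only [Matrix.zero_mul, Matrix.mul_zero, add_zero, zero_add]
  rw [Matrix.mul_nonsing_inv _ hP.unit, ← Matrix.fromBlocks_one]
  congr 1
  ext i j
  rw [Matrix.mul_apply]
  simp only [Matrix.of_apply]
  rw [Finset.sum_eq_single (⟨r - i, by omega⟩ : Fin (r + 1))]
  · rw [if_pos (by simp only; omega)]
    by_cases h : i = j
    · subst h
      rw [if_pos (by simp only; omega), Matrix.one_apply_eq, mul_inv_cancel₀ hd']
    · rw [if_neg, Matrix.one_apply_ne h, mul_zero]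
      intro h1; apply h; ext; simp only at h1; omega
  · intro c _ hc
    rw [if_neg, zero_mul]
    intro h; apply hc; ext; simp only; omega
  · intro h; exact absurd (Finset.mem_univ _) h

lemma CI_η_inv (hP : IsPrim r d hp Q) (hd : d.prod ≠ 0) :
    (CI r d hp Q).η⁻¹ = invη r d Q :=
  Matrix.inv_eq_right_inv (η_mul_invη hP hd)


lemma intF_nil (n : ℕ) : intF r d Q [] n = if n = r then (d.prod : ℂ) else 0 := rfl

lemma intF_one (a : P) (n : ℕ) : intF r d Q [a] n = 0 := rfl

lemma intF_two (a b : P) (n : ℕ) : intF r d Q [a, b] n = if n = 0 then Q a b else 0 := rfl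

lemma intF_three (a b c : P) (l : List P) (n : ℕ) : intF r d Q (a :: b :: c :: l) n = 0 := rfl

/-- the part of the splitting formula which comes from the powers of `h` -/
lemma split_h (ps qs : List P) (n m : ℕ) :
    ∑ i : Fin (r + 1), ∑ j : Fin (r + 1), (if (i : ℕ) + (j : ℕ) = r then ((d.prod : ℂ))⁻¹ else 0) *
      (intF r d Q ps (i + n) * intF r d Q qs (j + m)) =
      ((d.prod : ℂ))⁻¹ * ∑ i : Fin (r + 1), intF r d Q ps (i + n) *
        intF r d Q qs (r - i + m) := by
  rw [Finset.mul_sum]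
  apply Finset.sum_congr rfl; intro i _
  rw [Finset.sum_eq_single (⟨r - i, by omega⟩ : Fin (r + 1))]
  · rw [if_pos (by simp only; omega)]
  · intro c _ hc
    rw [if_neg, zero_mul]
    intro h; apply hc; ext; simp only; omega
  · intro h; exact absurd (Finset.mem_univ _) h

lemma CI_kl (hP : IsPrim r d hp Q) (c : P) (L : List (Fin (r + 1) ⊕ P)) :
    kl (CI r d hp Q).par (Sum.inr c) L = ((-1) ^ r) ^ (prims L).length := by
  induction L with
  | nil => rfl
  | cons x L ih =>
    rcases x with i | a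
    · simp only [kl]; rw [ih, ks_even' (CI_par_inl i), one_mul, prims_inl]
    · simp only [kl]; rw [ih, CI_ks hP, prims_inr, List.length_cons, pow_succ]; ring

/-- the splitting formula -/
lemma split_aux (hr : 1 ≤ r) (hd : d.prod ≠ 0) (hP : IsPrim r d hp Q) (ps qs : List P)
    (n m : ℕ) :
    ((d.prod : ℂ))⁻¹ * (∑ i : Fin (r + 1), intF r d Q ps (i + n) *
        intF r d Q qs (r - i + m)) +
      ∑ a, ∑ c, Q⁻¹ a c * (((-1) ^ r) ^ ps.length *
        (intF r d Q (a :: ps) n * intF r d Q (c :: qs) m)) =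
      intF r d Q (ps ++ qs) (n + m) := by
  have hd' : (d.prod : ℂ) ≠ 0 := by exact_mod_cast hd
  have hsq : ((-1 : ℂ) ^ r) * (-1) ^ r = 1 := by
    rw [← pow_add, ← two_mul, pow_mul]; simp
  -- the primitive part vanishes unless both lists have one element
  have hprim0 : ¬ (ps.length = 1 ∧ qs.length = 1) →
      ∑ a, ∑ c, Q⁻¹ a c * (((-1) ^ r) ^ ps.length *
        (intF r d Q (a :: ps) n * intF r d Q (c :: qs) m)) = 0 := by
    intro h
    apply Finset.sum_eq_zero; intro a _
    apply Finset.sum_eq_zero; intro c _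
    rcases ps with _ | ⟨a1, _ | ⟨a2, ps⟩⟩
    · rw [intF_one]; ring
    · rcases qs with _ | ⟨b1, _ | ⟨b2, qs⟩⟩
      · rw [intF_one c]; ring
      · exact absurd ⟨rfl, rfl⟩ h
      · rw [intF_three c]; ring
    · rw [intF_three a]; ring
  rcases ps with _ | ⟨a1, _ | ⟨a2, _ | ⟨a3, ps⟩⟩⟩
  · rw [hprim0 (by simp), add_zero, List.nil_append]
    rcases qs with _ | ⟨b1, _ | ⟨b2, _ | ⟨b3, qs⟩⟩⟩
    · by_cases hn : n ≤ r
      · rw [Finset.sum_eq_single (⟨r - n, by omega⟩ : Fin (r + 1))]
        · simp only [intF_nil]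
          rw [if_pos (by omega), show r - (r - n) + m = n + m by omega]
          split_ifs <;> field_simp
        · intro c _ hc
          rw [intF_nil, if_neg, zero_mul]
          intro h; apply hc; ext; simp only; omega
        · intro h; exact absurd (Finset.mem_univ _) h
      · rw [Finset.sum_eq_zero, mul_zero, intF_nil, if_neg (by omega)]
        intro i _
        rw [intF_big _ _ _ _ (by omega), zero_mul]
    · rw [intF_one, Finset.sum_eq_zero, mul_zero]
      intro i _; rw [intF_one]; ring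
    · rw [Finset.sum_eq_single (⟨r, by omega⟩ : Fin (r + 1))]
      · simp only [intF_nil, intF_two]
        by_cases h1 : n = 0 ∧ m = 0
        · obtain ⟨rfl, rfl⟩ := h1
          simp only [add_zero, if_true, Nat.sub_self]
          field_simp
        · by_cases h2 : n = 0
          · rw [if_neg (show ¬ (r - r + m = 0) by omega),
              if_neg (show ¬ (n + m = 0) by omega)]; ring
          · rw [if_neg (show ¬ (r + n = r) by omega),
              if_neg (show ¬ (n + m = 0) by omega)]; ring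
      · intro c _ hc
        rw [intF_two, if_neg, mul_zero]
        intro h; apply hc; ext; simp only; omega
      · intro h; exact absurd (Finset.mem_univ _) h
    · rw [intF_three, Finset.sum_eq_zero, mul_zero]
      intro i _; rw [intF_three]; ring
  · have z : ∑ i : Fin (r + 1), intF r d Q [a1] (i + n) * intF r d Q qs (r - i + m) = 0 := by
      apply Finset.sum_eq_zero; intro i _; rw [intF_one]; ring
    rw [z, mul_zero, zero_add]
    rcases qs with _ | ⟨b1, _ | ⟨b2, qs⟩⟩
    · rw [hprim0 (by simp)]; rfl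
    · simp only [List.length_singleton, pow_one, intF_two, List.cons_append, List.nil_append]
      by_cases h1 : n = 0 ∧ m = 0
      · obtain ⟨rfl, rfl⟩ := h1
        simp only [if_true]
        have e : ∀ a c, Q⁻¹ a c * ((-1) ^ r * (Q a a1 * Q c b1)) =
            Q a1 a * Q⁻¹ a c * Q c b1 := by
          intro a c; rw [hP.symm a a1]
          calc Q⁻¹ a c * ((-1) ^ r * ((-1) ^ r * Q a1 a * Q c b1))
              = ((-1) ^ r * (-1) ^ r) * (Q a1 a * Q⁻¹ a c * Q c b1) := by ring
            _ = _ := by rw [hsq, one_mul]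
        rw [Finset.sum_congr rfl (fun a _ => Finset.sum_congr rfl (fun c _ => e a c)),
          Finset.sum_comm]
        have e2 : ∀ c, ∑ a, Q a1 a * Q⁻¹ a c * Q c b1 = (1 : Matrix P P ℂ) a1 c * Q c b1 := by
          intro c
          rw [← Finset.sum_mul, ← Matrix.mul_apply, Matrix.mul_nonsing_inv _ hP.unit]
        rw [Finset.sum_congr rfl (fun c _ => e2 c), ← Matrix.mul_apply, Matrix.one_mul]
      · rw [if_neg (show ¬ (n + m = 0) by omega)]
        apply Finset.sum_eq_zero; intro a _
        apply Finset.sum_eq_zero; intro c _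
        by_cases h2 : n = 0
        · rw [if_neg (show ¬ (m = 0) by omega)]; ring
        · rw [if_neg (show ¬ (n = 0) by omega)]; ring
    · rw [hprim0 (by simp)]; rfl
  · rw [hprim0 (by simp), add_zero]
    rcases qs with _ | ⟨b1, _ | ⟨b2, _ | ⟨b3, qs⟩⟩⟩
    · rw [List.append_nil, Finset.sum_eq_single (⟨0, by omega⟩ : Fin (r + 1))]
      · simp only [intF_nil, intF_two, zero_add, Nat.sub_zero]
        by_cases h1 : n = 0 ∧ m = 0
        · obtain ⟨rfl, rfl⟩ := h1
          simp only [add_zero, if_true]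
          field_simp
        · by_cases h2 : n = 0
          · rw [if_neg (show ¬ (r + m = r) by omega), if_neg (show ¬ (n + m = 0) by omega)]; ring
          · rw [if_neg (show ¬ (n = 0) by omega), if_neg (show ¬ (n + m = 0) by omega)]; ring
      · intro c _ hc
        rw [intF_two, if_neg, zero_mul]
        intro h; apply hc; ext; simp only; omega
      · intro h; exact absurd (Finset.mem_univ _) h
    · rw [Finset.sum_eq_zero, mul_zero]
      · rfl
      · intro i _; rw [intF_one]; ring
    · rw [Finset.sum_eq_zero, mul_zero]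
      · rfl
      · intro i _
        rw [intF_two, intF_two]
        by_cases h2 : (i : ℕ) = 0
        · rw [if_neg (show ¬ (r - (i : ℕ) + m = 0) by omega)]; ring
        · rw [if_neg (show ¬ ((i : ℕ) + n = 0) by omega)]; ring
    · rw [Finset.sum_eq_zero, mul_zero]
      · rfl
      · intro i _; rw [intF_three]; ring
  · rw [hprim0 (by simp), add_zero, Finset.sum_eq_zero, mul_zero]
    · rfl
    · intro i _; rw [intF_three]; ring

lemma CI_split (hr : 1 ≤ r) (hd : d.prod ≠ 0) (hP : IsPrim r d hp Q)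
    (L M : List (Fin (r + 1) ⊕ P)) :
    ∑ a, ∑ c, (CI r d hp Q).η⁻¹ a c * (kl (CI r d hp Q).par c L *
      ((CI r d hp Q).int (a :: L) * (CI r d hp Q).int (c :: M))) =
      (CI r d hp Q).int (L ++ M) := by
  rw [CI_int, prims_append, hdeg_append, ← split_aux hr hd hP, ← split_h]
  rw [Fintype.sum_sum_type, CI_η_inv hP hd]
  congr 1
  · apply Finset.sum_congr rfl; intro i _
    rw [Fintype.sum_sum_type]
    have e2 : ∑ c : P, invη r d Q (Sum.inl i) (Sum.inr c) *
        (kl (CI r d hp Q).par (Sum.inr c) L * ((CI r d hp Q).int (Sum.inl i :: L) *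
        (CI r d hp Q).int (Sum.inr c :: M))) = 0 := by
      apply Finset.sum_eq_zero; intro c _; simp [invη]
    rw [e2, add_zero]
    apply Finset.sum_congr rfl; intro j _
    rw [kl_even (CI_par_inl j), one_mul, CI_int_inl, CI_int_inl]; rfl
  · apply Finset.sum_congr rfl; intro a _
    rw [Fintype.sum_sum_type]
    have e2 : ∑ c : Fin (r + 1), invη r d Q (Sum.inr a) (Sum.inl c) *
        (kl (CI r d hp Q).par (Sum.inl c) L * ((CI r d hp Q).int (Sum.inr a :: L) *
        (CI r d hp Q).int (Sum.inl c :: M))) = 0 := by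
      apply Finset.sum_eq_zero; intro c _; simp [invη]
    rw [e2, zero_add]
    apply Finset.sum_congr rfl; intro c _
    rw [CI_kl hP, CI_int_inr, CI_int_inr]; rfl

lemma CI_intGood (hr : 1 ≤ r) (hd : d.prod ≠ 0) (hP : IsPrim r d hp Q) :
    (CI r d hp Q).IntGood where
  int_SS := CI_int_SS hP
  int_type := CI_int_type hP
  int_one := CI_int_one
  int_two := CI_int_two
  int_H := CI_int_H hr
  split := CI_split hr hd hP


lemma CI_good (hr : 3 ≤ r) (hd : d.prod ≠ 0) (hP : IsPrim r d hp Q) :
    (CI r d hp Q).Good where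
  one_type := by constructor <;> simp [CI]
  h_type := by
    constructor
    · show (((1 : Fin (r + 1)) : ℕ)) = 1; exact CI_h_val (by omega)
    · show (((1 : Fin (r + 1)) : ℕ)) = 1; exact CI_h_val (by omega)
  type_one := by
    intro a ha
    rcases a with i | a
    · have h1 : (i : ℕ) + (i : ℕ) < 2 := ha
      show Sum.inl i = Sum.inl 0
      congr 1; ext; simp only [Fin.val_zero]; omega
    · have h1 : hp a + (r - hp a) < 2 := ha
      omega
  η_type := by
    intro a c h
    rcases a with i | a <;> rcases c with j | c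
    · have h1 : (if (i : ℕ) + (j : ℕ) = r then (d.prod : ℂ) else 0) ≠ 0 := h
      show (i : ℕ) + (j : ℕ) = r ∧ (i : ℕ) + (j : ℕ) = r
      split_ifs at h1 with h2
      · exact ⟨h2, h2⟩
      · exact absurd rfl h1
    · exact absurd rfl h
    · exact absurd rfl h
    · have h1 := hP.type a c h
      have h2 := hP.le a
      have h3 := hP.le c
      show hp a + hp c = r ∧ (r - hp a) + (r - hp c) = r
      omega
  η_symm := by
    intro a c
    rw [← CI_int_two, ← CI_int_two]
    exact (CI_int_SS hP).swap a c []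
  η_unit := by
    have h := η_mul_invη hP hd
    exact Matrix.isUnit_det_of_right_inverse h
  H_one := by
    intro a
    rcases a with i | a
    · show (if (i : ℕ) = ((0 : Fin (r + 1)) : ℕ) + 1 then (1 : ℂ) else 0) =
        if (Sum.inl i : Fin (r + 1) ⊕ P) = Sum.inl 1 then 1 else 0
      by_cases h : i = 1
      · subst h; rw [if_pos, if_pos rfl]; rw [CI_h_val (by omega)]; rfl
      · rw [if_neg, if_neg]
        · intro h1; exact h (Sum.inl_injective h1)
        · intro h1; apply h; ext; rw [CI_h_val (by omega), h1]; rfl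
    · show (0 : ℂ) = if (Sum.inr a : Fin (r + 1) ⊕ P) = Sum.inl 1 then 1 else 0
      rw [if_neg (by simp)]
  H_type := by
    intro a c h
    rcases a with i | a <;> rcases c with j | c
    · have h1 : (if (j : ℕ) = (i : ℕ) + 1 then (1 : ℂ) else 0) ≠ 0 := h
      show (j : ℕ) = (i : ℕ) + 1 ∧ (j : ℕ) = (i : ℕ) + 1
      split_ifs at h1 with h2
      · exact ⟨h2, h2⟩
      · exact absurd rfl h1
    · exact absurd rfl h
    · exact absurd rfl h
    · exact absurd rfl h
  H_symm := by
    intro a c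
    have e : ∀ x y, ((CI r d hp Q).H * (CI r d hp Q).η) x y =
        (CI r d hp Q).int [(CI r d hp Q).h, x, y] := by
      intro x y
      rw [Matrix.mul_apply, ← CI_int_H (by omega)]
      apply Finset.sum_congr rfl; intro z _
      rw [CI_int_two]
    rw [e, e]
    exact (CI_int_SS hP) [(CI r d hp Q).h] a c []

lemma hchern_eq (r : ℕ) (d : List ℕ) :
    PowerSeries.coeff (r + d.length) (Thh (r + d.length + 1) d * PowerSeries.X) =
      hchern r d := by
  have e : ∀ l : List ℕ, (l.map ww).prod = PowerSeries.C ((l.prod : ℕ) : ℚ) *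
      (PowerSeries.X ^ l.length * (l.map vv).prod) := by
    intro l
    induction l with
    | nil => simp
    | cons k l ih =>
      simp only [List.map_cons, List.prod_cons, List.length_cons]
      rw [ih, pow_succ]; push_cast; unfold ww
      rw [map_mul]; ring
  unfold Thh hchern
  rw [e]
  have e2 : (1 + PowerSeries.X) ^ (r + d.length + 1) * (PowerSeries.C ((d.prod : ℕ) : ℚ) *
      (PowerSeries.X ^ d.length * (d.map vv).prod)) * PowerSeries.X =
      PowerSeries.C ((d.prod : ℕ) : ℚ) * (PowerSeries.X ^ d.length * (PowerSeries.X *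
        ((1 + PowerSeries.X) ^ (r + d.length + 1) * (d.map vv).prod))) := by ring
  rw [e2, PowerSeries.coeff_C_mul, PowerSeries.coeff_X_pow_mul]
  rfl

lemma dd_eq (d : List ℕ) : dd d = (d.sum : ℚ) - d.length := by
  induction d with
  | nil => simp [dd]
  | cons k d ih =>
    have : dd (k :: d) = ((k : ℚ) - 1) + dd d := by simp [dd]
    rw [this, ih]; simp only [List.sum_cons, List.length_cons]; push_cast; ring

/-- supertraces of functions of `p` -/
lemma CI_str (hP : IsPrim r d hp Q) (f : ℕ → ℚ) :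
    (CI r d hp Q).str (fun a => (f ((CI r d hp Q).p a) : ℂ)) =
      ((∑ p ∈ range (r + 1), (-1) ^ p * (chiy r d).coeff p * f p : ℚ) : ℂ) := by
  unfold Coh.str
  rw [Fintype.sum_sum_type]
  have e1 : ∑ i : Fin (r + 1), (-1 : ℂ) ^ ((CI r d hp Q).p (Sum.inl i) +
      (CI r d hp Q).q (Sum.inl i)) * (f ((CI r d hp Q).p (Sum.inl i)) : ℂ) =
      ((∑ p ∈ range (r + 1), f p : ℚ) : ℂ) := by
    rw [Finset.sum_range]
    push_cast
    apply Finset.sum_congr rfl; intro i _
    have : (CI r d hp Q).p (Sum.inl i) + (CI r d hp Q).q (Sum.inl i) = 2 * (i : ℕ) := by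
      show (i : ℕ) + (i : ℕ) = _; ring
    rw [this, pow_mul]; simp [CI]
  have e2 : ∑ a : P, (-1 : ℂ) ^ ((CI r d hp Q).p (Sum.inr a) +
      (CI r d hp Q).q (Sum.inr a)) * (f ((CI r d hp Q).p (Sum.inr a)) : ℂ) =
      ((∑ p ∈ range (r + 1), ((-1) ^ p * (chiy r d).coeff p - 1) * f p : ℚ) : ℂ) := by
    have e3 : ∀ a : P, (-1 : ℂ) ^ ((CI r d hp Q).p (Sum.inr a) +
        (CI r d hp Q).q (Sum.inr a)) * (f ((CI r d hp Q).p (Sum.inr a)) : ℂ) =
        (((-1) ^ r * f (hp a) : ℚ) : ℂ) := by
      intro a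
      have : (CI r d hp Q).p (Sum.inr a) + (CI r d hp Q).q (Sum.inr a) = r := by
        show hp a + (r - hp a) = r
        have := hP.le a; omega
      rw [this]; push_cast; rfl
    rw [Finset.sum_congr rfl (fun a _ => e3 a), ← Rat.cast_sum]
    congr 1
    rw [← Finset.mul_sum]
    have e4 : ∑ a : P, f (hp a) = ∑ p ∈ range (r + 1), hprim r d p * f p := by
      rw [← Finset.sum_fiberwise_of_maps_to (g := hp) (t := range (r + 1))
        (fun a _ => Finset.mem_range.mpr (Nat.lt_succ_of_le (hP.le a)))]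
      apply Finset.sum_congr rfl; intro p hpr
      rw [← hP.card p (Nat.lt_succ_iff.mp (Finset.mem_range.mp hpr)), ← nsmul_eq_mul,
        ← Finset.sum_const]
      apply Finset.sum_congr rfl; intro a ha
      rw [(Finset.mem_filter.mp ha).2]
    rw [e4, Finset.mul_sum]
    apply Finset.sum_congr rfl; intro p _
    unfold hprim
    have h1 : ((-1 : ℚ) ^ r) * (-1) ^ r = 1 := by rw [← pow_add, ← two_mul, pow_mul]; simp
    rw [pow_add]
    linear_combination ((-1) ^ p * (chiy r d).coeff p * f p - f p) * h1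
  rw [e1, e2, ← Rat.cast_add, ← Finset.sum_add_distrib]
  congr 1
  apply Finset.sum_congr rfl; intro p _; ring

/-- The identity of Libgober and Wood. -/
theorem CI_LW (hP : IsPrim r d hp Q) :
    (CI r d hp Q).chi / 16 - (CI r d hp Q).str (fun a => (CI r d hp Q).μ a ^ 2) / 4 =
      ((3 - ((CI r d hp Q).dim : ℂ)) * (CI r d hp Q).chi -
        2 * (CI r d hp Q).κ * (CI r d hp Q).hc) / 48 := by
  obtain ⟨s0, s1, s2⟩ := chiy_sums r d
  obtain ⟨c1, c2⟩ := coeff_identities r d
  rw [hchern_eq, dd_eq] at c2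
  have f0 := CI_str hP (fun _ => 1)
  have f2 := CI_str hP (fun p => ((p : ℚ) - r / 2) ^ 2)
  have g0 : (CI r d hp Q).chi = ((∑ p ∈ range (r + 1), (-1) ^ p * (chiy r d).coeff p : ℚ) : ℂ) := by
    have : (CI r d hp Q).chi = (CI r d hp Q).str (fun a => (((1 : ℚ)) : ℂ)) := by
      unfold Coh.chi; congr 1; funext a; simp
    rw [this, f0]; simp
  have g2 : (CI r d hp Q).str (fun a => (CI r d hp Q).μ a ^ 2) =
      ((∑ p ∈ range (r + 1), (-1) ^ p * (chiy r d).coeff p * ((p : ℚ) - r / 2) ^ 2 : ℚ) : ℂ) := by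
    rw [← f2]; congr 1; funext a
    show (((CI r d hp Q).p a : ℂ) - (r : ℂ) / 2) ^ 2 = _
    push_cast; rfl
  have g3 : ∑ p ∈ range (r + 1), (-1) ^ p * (chiy r d).coeff p * ((p : ℚ) - r / 2) ^ 2 =
      ∑ p ∈ range (r + 1), (-1) ^ p * (chiy r d).coeff p * (p * (p - 1)) +
      (1 - r) * ∑ p ∈ range (r + 1), (-1) ^ p * (chiy r d).coeff p * p +
      (r : ℚ) ^ 2 / 4 * ∑ p ∈ range (r + 1), (-1) ^ p * (chiy r d).coeff p := by
    rw [Finset.mul_sum, Finset.mul_sum, ← Finset.sum_add_distrib, ← Finset.sum_add_distrib]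
    apply Finset.sum_congr rfl; intro p _; ring
  rw [g0, g2, g3, s0, s1, s2]
  have hκ : ((CI r d hp Q).κ : ℂ) = (((r : ℚ) + d.length + 1 - d.sum : ℚ) : ℂ) := by
    show (((r : ℤ) + d.length + 1 - d.sum : ℤ) : ℂ) = _
    generalize d.sum = S
    push_cast; ring
  rw [hκ, show (CI r d hp Q).hc = ((hchern r d : ℚ) : ℂ) from rfl,
    show ((CI r d hp Q).dim : ℂ) = ((r : ℚ) : ℂ) by push_cast; rfl]
  rw [c1, c2]
  generalize (PowerSeries.coeff (r + d.length) (hirz (r + d.length) d)).coeff 0 = A
  generalize hchern r d = B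
  push_cast
  ring

end Vale.Agent.P269.H598
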