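import Vale.Agent.P269.H598.Defs

/-!
The classical cohomological data of smooth complete intersections. The Hodge numbers are given
by the formula of Hirzebruch.
-/

namespace Vale.Agent.P269.H598

open Finset

/-- `((1 + ε s)^k - 1) / ε = ∑_{j ≥ 1} (k choose j) ε^{j-1} s^j`, a power series in `s` over
polynomials in `ε` -/
noncomputable def PP (k : ℕ) : PowerSeries (Polynomial ℚ) :=
  PowerSeries.mk fun j => if j = 0 then 0 else Polynomial.C (k.choose j : ℚ) *
    Polynomial.X ^ (j - 1)

/-- the inverse of a power series with constant term `1` -/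
noncomputable def recip (f : PowerSeries (Polynomial ℚ)) : PowerSeries (Polynomial ℚ) :=
  PowerSeries.invOfUnit f 1

/-- The generating series of Hirzebruch for the `χ_y`-genus: with `N = r + c`,
`P_k = ((1 + ε s)^k - 1) / ε` and `ε = 1 + y`, the `χ_y`-genus of a smooth complete intersection
of dimension `r` and multidegree `d` is the coefficient of `s^N` in
`(1 + s)^{N+1} / (1 + ε s) * ∏_k P_k / (1 + P_k)`.  (The substitution `z = s / (1 + s)` gives the
usual form `[z^N] (1 / ((1 - z) (1 + z y))) * ∏_k ((1 + z y)^k - (1 - z)^k) /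
((1 + z y)^k + y (1 - z)^k)`.) -/
noncomputable def hirz (N : ℕ) (d : List ℕ) : PowerSeries (Polynomial ℚ) :=
  (1 + PowerSeries.X) ^ (N + 1) *
    recip (1 + PowerSeries.C (Polynomial.X : Polynomial ℚ) * PowerSeries.X) *
    (d.map fun k : ℕ => PP k * recip (1 + PP k)).prod

/-- the `χ_y`-genus `∑_p χ^p y^p`, `χ^p = ∑_q (-1)^q h^{p,q}`, of a smooth complete intersection
of dimension `r` and multidegree `d` -/
noncomputable def chiy (r : ℕ) (d : List ℕ) : Polynomial ℚ :=
  (PowerSeries.coeff (r + d.length) (hirz (r + d.length) d)).comp (1 + Polynomial.X)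

/-- the dimension `(-1)^{r-p} χ^p - (-1)^r` of the primitive part of `H^{p,r-p}` -/
noncomputable def hprim (r : ℕ) (d : List ℕ) (p : ℕ) : ℚ :=
  (-1) ^ (r + p) * (chiy r d).coeff p - (-1) ^ r

/-- `∫ h ∪ c_{r-1}(X)`: the coefficient of `s^{r-1}` in
`∏_i d_i (1 + s)^{r+c+1} / ∏_i (1 + d_i s)` -/
noncomputable def hchern (r : ℕ) (d : List ℕ) : ℚ :=
  (d.prod : ℚ) * PowerSeries.coeff r (PowerSeries.X * ((1 + PowerSeries.X) ^ (r + d.length + 1) *
    (d.map fun k : ℕ => (1 + PowerSeries.C (k : ℚ) * PowerSeries.X)⁻¹).prod))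

variable {P : Type} [Fintype P] [DecidableEq P]

/-- the sequence of the primitive classes in a list of classes -/
def prims {r : ℕ} (L : List (Fin (r + 1) ⊕ P)) : List P := L.filterMap Sum.getRight?

/-- the total exponent of `h` in a list of classes -/
def hdeg {r : ℕ} (L : List (Fin (r + 1) ⊕ P)) : ℕ :=
  (L.map (Sum.elim (fun l : Fin (r + 1) => (l : ℕ)) (fun _ : P => 0))).sum

/-- The integral over `X` of the product of the primitive classes in the list `ps` and of `h^n`:
`∫ h^r = d_1 ⋯ d_c`, `h ∪ (primitive) = 0`, the pairing of two primitive classes is `Q`, and a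
product of three primitive classes, or of one primitive class and powers of `h`, integrates to
zero (for degree reasons, since primitive classes have degree `r`). -/
def intF (r : ℕ) (d : List ℕ) (Q : Matrix P P ℂ) (ps : List P) (n : ℕ) : ℂ :=
  match ps with
  | [] => if n = r then (d.prod : ℂ) else 0
  | [a, b] => if n = 0 then Q a b else 0
  | _ => 0

/-- The data of a smooth complete intersection of dimension `r` and multidegree `d` in
`ℙ^{r+c}`, `c = d.length`: the basis of the cohomology consists of `h^l`, `0 ≤ l ≤ r`, and a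
basis `φ_a`, `a : P`, of the primitive cohomology, with `φ_a` of Hodge type
`(hp a, r - hp a)` and with Poincare pairing `Q`. -/
noncomputable def CI (r : ℕ) (d : List ℕ) (hp : P → ℕ) (Q : Matrix P P ℂ) :
    Coh (Fin (r + 1) ⊕ P) where
  dim := r
  p := Sum.elim (fun l : Fin (r + 1) => (l : ℕ)) hp
  q := Sum.elim (fun l : Fin (r + 1) => (l : ℕ)) (fun a : P => r - hp a)
  one := Sum.inl 0
  h := Sum.inl 1
  η := Matrix.fromBlocks (Matrix.of fun l l' => if (l : ℕ) + (l' : ℕ) = r then (d.prod : ℂ) else 0)
    0 0 Q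
  H := Matrix.fromBlocks (Matrix.of fun l l' => if (l' : ℕ) = (l : ℕ) + 1 then 1 else 0) 0 0 0
  κ := (r : ℤ) + d.length + 1 - d.sum
  hc := (hchern r d : ℚ)
  int := fun L => intF r d Q (prims L) (hdeg L)

/-- The conditions on the primitive cohomology: the Hodge numbers are those of Hirzebruch's
formula, and the Poincare pairing is compatible with the Hodge types, `(-1)^r`-symmetric and
nondegenerate. -/
structure IsPrim (r : ℕ) (d : List ℕ) (hp : P → ℕ) (Q : Matrix P P ℂ) : Prop where
  le : ∀ a, hp a ≤ r
  card : ∀ p ≤ r, ((univ.filter fun a => hp a = p).card : ℚ) = hprim r d p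
  type : ∀ a b, Q a b ≠ 0 → hp a + hp b = r
  symm : ∀ a b, Q a b = (-1) ^ r * Q b a
  unit : IsUnit Q.det

end Vale.Agent.P269.H598
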