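import Vale.Agent.P269.H598.Ops

/-!
The commutation relation `[L_{-1}, L_k] = -(k+1) L_{k-1}` in terms of correlators.
-/

set_option linter.unusedSectionVars false

namespace Vale.Agent.P269.H598

open Finset

namespace Coh

variable {ι : Type} [Fintype ι] [DecidableEq ι] {D : Coh ι}

section BSlemmas

lemma BS_add (K : ℕ) (f g : (ι × ℕ) → (ι × ℕ) → ℂ) :
    D.BS K (fun x y => f x y + g x y) = D.BS K f + D.BS K g := by
  unfold BS
  simp only [← Finset.sum_add_distrib]
  apply Finset.sum_congr rfl; intro i _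
  apply Finset.sum_congr rfl; intro mn _
  rw [← mul_add]
  congr 1
  simp only [← Finset.sum_add_distrib]
  apply Finset.sum_congr rfl; intro a _
  apply Finset.sum_congr rfl; intro c _
  ring

lemma BS_smul (K : ℕ) (r : ℂ) (f : (ι × ℕ) → (ι × ℕ) → ℂ) :
    D.BS K (fun x y => r * f x y) = r * D.BS K f := by
  unfold BS
  simp only [Finset.mul_sum]
  apply Finset.sum_congr rfl; intro i _
  apply Finset.sum_congr rfl; intro mn _
  apply Finset.sum_congr rfl; intro a _
  apply Finset.sum_congr rfl; intro c _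
  ring

lemma BS_sub (K : ℕ) (f g : (ι × ℕ) → (ι × ℕ) → ℂ) :
    D.BS K (fun x y => f x y - g x y) = D.BS K f - D.BS K g := by
  have : (fun x y => f x y - g x y) = fun x y => f x y + (-1) * g x y := by
    funext x y; ring
  rw [this, BS_add, BS_smul]; ring

lemma BS_zero (K : ℕ) : D.BS K (fun _ _ => 0) = 0 := by
  unfold BS; simp

lemma BS_sum {α : Type} (s : Finset α) (K : ℕ) (f : α → (ι × ℕ) → (ι × ℕ) → ℂ) :
    D.BS K (fun x y => ∑ t ∈ s, f t x y) = ∑ t ∈ s, D.BS K (f t) := by
  classical
  induction s using Finset.induction_on with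
  | empty => simp [BS_zero]
  | insert a s ha ih => simp only [Finset.sum_insert ha]; rw [BS_add, ih]

/-- Only pairs of classes of the same parity (and of the right types) enter. -/
lemma Good.BS_congr (hD : D.Good) (K : ℕ) {f g : (ι × ℕ) → (ι × ℕ) → ℂ}
    (h : ∀ i, ∀ x y : ι × ℕ, i + x.2 + y.2 + 2 = K → D.pr x = D.pr y →
      D.p x.1 + D.p y.1 = D.dim + i ∧ D.q x.1 + D.q y.1 = D.dim + i → f x y = g x y) :
    D.BS K f = D.BS K g := by
  unfold BS
  apply Finset.sum_congr rfl; intro i hi
  apply Finset.sum_congr rfl; intro mn hmn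
  congr 1
  apply Finset.sum_congr rfl; intro a _
  apply Finset.sum_congr rfl; intro c _
  by_cases h0 : (D.η⁻¹ * D.R ^ i) a c = 0
  · simp [h0]
  · have h1 := Finset.HasAntidiagonal.mem_antidiagonal.mp hmn
    have h2 := Finset.mem_range.mp hi
    rw [h i (a, mn.1) (c, mn.2) (by simp only; omega) (hD.B_par i h0) (hD.B_type i h0)]

lemma BS_shift (K : ℕ) (f : (ι × ℕ) → (ι × ℕ) → ℂ) :
    D.BS (K + 1) (fun x y => opT (fun x' => f x' y) x + opT (fun y' => f x y') y) =
      ((K : ℂ) + 1) * D.BS K f := by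
  unfold BS
  rcases K with _ | K
  · simp [opT_apply]
  · rw [show K + 1 + 1 - 1 = K + 1 by omega, show K + 1 - 1 = K by omega,
      Finset.sum_range_succ]
    have e0 : (∑ mn ∈ antidiagonal (K + 1 + 1 - 2 - K), (-1 : ℂ) ^ (mn.1 + 1) *
        ∑ a, ∑ c, br (K + 1 + 1) K (-D.b a - mn.1) * (D.η⁻¹ * D.R ^ K) a c *
          (opT (fun x' => f x' (c, mn.2)) (a, mn.1) + opT (fun y' => f (a, mn.1) y') (c, mn.2)))
        = 0 := by
      rw [show K + 1 + 1 - 2 - K = 0 by omega]
      simp [opT_zero]
    rw [e0, add_zero, Finset.mul_sum]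
    apply Finset.sum_congr rfl
    intro i hi
    have hi' : i < K := Finset.mem_range.mp hi
    obtain ⟨N, hN⟩ : ∃ N, K + 1 - 2 - i = N := ⟨_, rfl⟩
    rw [show K + 1 + 1 - 2 - i = N + 1 by omega, hN]
    have e1 : (∑ mn ∈ antidiagonal (N + 1), (-1 : ℂ) ^ (mn.1 + 1) *
        ∑ a, ∑ c, br (K + 1 + 1) i (-D.b a - mn.1) * (D.η⁻¹ * D.R ^ i) a c *
          (opT (fun x' => f x' (c, mn.2)) (a, mn.1) + opT (fun y' => f (a, mn.1) y') (c, mn.2)))
        = (∑ mn ∈ antidiagonal (N + 1), (-1 : ℂ) ^ (mn.1 + 1) *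
        ∑ a, ∑ c, br (K + 1 + 1) i (-D.b a - mn.1) * (D.η⁻¹ * D.R ^ i) a c *
          opT (fun x' => f x' (c, mn.2)) (a, mn.1)) +
          (∑ mn ∈ antidiagonal (N + 1), (-1 : ℂ) ^ (mn.1 + 1) *
        ∑ a, ∑ c, br (K + 1 + 1) i (-D.b a - mn.1) * (D.η⁻¹ * D.R ^ i) a c *
          opT (fun y' => f (a, mn.1) y') (c, mn.2)) := by
      rw [← Finset.sum_add_distrib]
      apply Finset.sum_congr rfl; intro mn _
      rw [← mul_add]; congr 1
      simp only [← Finset.sum_add_distrib]
      apply Finset.sum_congr rfl; intro a _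
      apply Finset.sum_congr rfl; intro c _
      ring
    rw [e1, Finset.Nat.sum_antidiagonal_succ, Finset.Nat.sum_antidiagonal_succ']
    simp only [opT_zero, opT_succ, mul_zero, Finset.sum_const_zero, zero_add, add_zero]
    rw [← Finset.sum_add_distrib, Finset.mul_sum]
    apply Finset.sum_congr rfl; intro mn _
    simp only [Finset.mul_sum]
    simp only [← Finset.sum_add_distrib]
    apply Finset.sum_congr rfl; intro a _
    apply Finset.sum_congr rfl; intro c _
    have := br_diff (K + 1) i (-D.b a - mn.1)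
    have h3 : -D.b a - ((mn.1 + 1 : ℕ) : ℂ) = -D.b a - mn.1 - 1 := by push_cast; ring
    rw [h3, pow_succ (-1 : ℂ) (mn.1 + 1)]
    linear_combination ((-1) ^ (mn.1 + 1) * (D.η⁻¹ * D.R ^ i) a c * f (a, mn.1) (c, mn.2)) * this

end BSlemmas

section defect

variable (D)

/-- the defect of the string equation -/
noncomputable def defect (G : List (ι × ℕ) → ℂ) (S : List (ι × ℕ)) : ℂ :=
  G ((D.one, 0) :: S) - der opT S G

variable {D}

lemma defect_add (F G : List (ι × ℕ) → ℂ) (S : List (ι × ℕ)) :
    D.defect (fun S => F S + G S) S = D.defect F S + D.defect G S := by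
  unfold defect; rw [der_add]; ring

lemma defect_sub (F G : List (ι × ℕ) → ℂ) (S : List (ι × ℕ)) :
    D.defect (fun S => F S - G S) S = D.defect F S - D.defect G S := by
  unfold defect; rw [der_sub]; ring

lemma defect_smul (r : ℂ) (F : List (ι × ℕ) → ℂ) (S : List (ι × ℕ)) :
    D.defect (fun S => r * F S) S = r * D.defect F S := by
  unfold defect; rw [der_smul]; ring

lemma defect_sum {α : Type} (s : Finset α) (F : α → List (ι × ℕ) → ℂ) (S : List (ι × ℕ)) :
    D.defect (fun S => ∑ t ∈ s, F t S) S = ∑ t ∈ s, D.defect (F t) S := by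
  unfold defect; rw [der_sum, Finset.sum_sub_distrib]

lemma defect_zero (S : List (ι × ℕ)) : D.defect (fun _ => 0) S = 0 := by
  unfold defect; rw [der_zero]; ring

lemma Good.pr_one (hD : D.Good) (m : ℕ) : D.pr (D.one, m) = false := by
  obtain ⟨h1, h2⟩ := hD.one_type
  simp [pr, par, h1, h2]

lemma Good.pr_h (hD : D.Good) (m : ℕ) : D.pr (D.h, m) = false := by
  obtain ⟨h1, h2⟩ := hD.h_type
  simp [pr, par, h1, h2]

lemma Good.ks_one (hD : D.Good) (m : ℕ) (x : ι × ℕ) : ks D.pr (D.one, m) x = 1 :=
  ks_even (hD.pr_one m) x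

/-- `A` in one slot commutes with lowering in the others -/
lemma op_der (A : ((ι × ℕ) → ℂ) →ₗ[ℂ] ((ι × ℕ) → ℂ)) (x : ι × ℕ) (l : List (ι × ℕ))
    (G' : (ι × ℕ) → List (ι × ℕ) → ℂ) :
    A (fun y => der opT l (G' y)) x = der opT l (fun s => A (fun y => G' y s) x) := by
  induction l generalizing G' with
  | nil => simp [der, A_zero]
  | cons z l ih =>
    simp only [der]
    rw [A_add, ih]
    congr 1
    rw [opT_apply]
    by_cases hz : z.2 = 0
    · rw [if_pos hz]
      have : (fun y => opT (fun y' => G' y (y' :: l)) z) = fun _ => 0 := by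
        funext y; rw [opT_apply, if_pos hz]
      rw [this, A_zero]
    · rw [if_neg hz]
      have : (fun y => opT (fun y' => G' y (y' :: l)) z) =
          fun y => G' y ((z.1, z.2 - 1) :: l) := by
        funext y; rw [opT_apply, if_neg hz]
      rw [this]

/-- commutation of two derivations, one of them substitution by lowering -/
lemma der_comm (A : ((ι × ℕ) → ℂ) →ₗ[ℂ] ((ι × ℕ) → ℂ)) (S : List (ι × ℕ))
    (G : List (ι × ℕ) → ℂ) :
    der A S (fun s => der opT s G) - der opT S (fun s => der A s G) =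
      der (A ∘ₗ opT - opT ∘ₗ A) S G := by
  induction S generalizing G with
  | nil => simp [der]
  | cons x l ih =>
    simp only [der]
    rw [A_add, A_add, der_add, der_add]
    have h1 := ih (fun s => G (x :: s))
    -- mixed terms
    have e1 : A (fun y => der opT l fun s => G (y :: s)) x =
        der opT l (fun s => A (fun y => G (y :: s)) x) := op_der A x l (fun y s => G (y :: s))
    have e2 : opT (fun y => der A l fun s => G (y :: s)) x =
        der A l (fun s => opT (fun y => G (y :: s)) x) := by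
      rw [opT_apply]
      by_cases hx : x.2 = 0
      · rw [if_pos hx]
        have : (fun s => opT (fun y => G (y :: s)) x) = fun _ => 0 := by
          funext s; rw [opT_apply, if_pos hx]
        rw [this, der_zero]
      · rw [if_neg hx]
        have : (fun s => opT (fun y => G (y :: s)) x) = fun s => G ((x.1, x.2 - 1) :: s) := by
          funext s; rw [opT_apply, if_neg hx]
        rw [this]
    rw [e1, e2]
    simp only [LinearMap.sub_apply, LinearMap.comp_apply, Pi.sub_apply]
    linear_combination h1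

/-- The linear part for a general operator. -/
noncomputable def linA (D : Coh ι) (A : ((ι × ℕ) → ℂ) →ₗ[ℂ] ((ι × ℕ) → ℂ))
    (G : List (ι × ℕ) → ℂ) (S : List (ι × ℕ)) : ℂ :=
  der A S G - A (fun y => G (y :: S)) (D.one, 1)

lemma lin_defect_gen (hD : D.Good) (A : ((ι × ℕ) → ℂ) →ₗ[ℂ] ((ι × ℕ) → ℂ))
    {G : List (ι × ℕ) → ℂ} (hG : SS D.pr G) (S : List (ι × ℕ)) :
    D.defect (D.linA A G) S =
      D.linA (A ∘ₗ opT - opT ∘ₗ A) G S + D.linA A (D.defect G) S := by
  unfold defect linA
  simp only [der]
  rw [der_sub]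
  have e1 := der_comm A S G
  have e2 : der A S (fun s => G ((D.one, 0) :: s)) =
      der A S (fun s => (G ((D.one, 0) :: s) - der opT s G)) + der A S (fun s => der opT s G) := by
    rw [← der_add]; congr 1; funext s; ring
  have e3 : der opT S (fun s => A (fun y => G (y :: s)) (D.one, 1)) =
      A (fun y => der opT S (fun s => G (y :: s))) (D.one, 1) :=
    (op_der A (D.one, 1) S (fun y s => G (y :: s))).symm
  have e4 : (fun y => G (y :: (D.one, 0) :: S)) = fun y => G ((D.one, 0) :: y :: S) := by
    funext y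
    have := hG.swap (D.one, 0) y S
    rw [hD.ks_one, one_mul] at this
    exact this.symm
  have e5 : A (fun y => G ((D.one, 0) :: y :: S)) (D.one, 1) =
      A (fun y => G ((D.one, 0) :: y :: S) - (opT (fun y' => G (y' :: S)) y +
        der opT S fun s => G (y :: s))) (D.one, 1) +
      (A (opT (fun y' => G (y' :: S))) (D.one, 1) +
        A (fun y => der opT S fun s => G (y :: s)) (D.one, 1)) := by
    rw [← A_add, ← A_add]
    refine congrArg (fun g => A g (D.one, 1)) ?_
    funext y; ring
  have e6 : A (fun y => G (y :: S)) (D.one, 0) =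
      opT (A (fun y => G (y :: S))) (D.one, 1) := by
    rw [opT_apply]; simp
  rw [e4, e3, e5, e2, e6]
  simp only [LinearMap.sub_apply, LinearMap.comp_apply, Pi.sub_apply]
  linear_combination e1

lemma lin_eq (K : ℕ) (G : List (ι × ℕ) → ℂ) (S : List (ι × ℕ)) :
    D.lin K G S = D.linA (D.opA K) G S := by rw [lin_der]; rfl

lemma comm_op (K : ℕ) : (D.opA (K + 1) ∘ₗ opT - opT ∘ₗ D.opA (K + 1)) =
    ((K : ℂ) + 1) • D.opA K + D.opKr (K + 1) := by
  apply LinearMap.ext
  intro g
  funext x
  have := D.opA_comm K g x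
  simpa [LinearMap.sub_apply, LinearMap.comp_apply] using this

lemma lin_defect (hD : D.Good) (K : ℕ) {G : List (ι × ℕ) → ℂ} (hG : SS D.pr G)
    (S : List (ι × ℕ)) :
    D.defect (D.lin (K + 1) G) S =
      ((K : ℂ) + 1) * D.lin K G S + der (D.opKr (K + 1)) S G +
        D.lin (K + 1) (D.defect G) S := by
  have h := lin_defect_gen hD (D.opA (K + 1)) hG S
  rw [comm_op] at h
  have e : D.lin (K + 1) G = D.linA (D.opA (K + 1)) G := by funext S; exact lin_eq _ _ _
  rw [e, h, lin_eq, lin_eq]
  unfold linA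
  rw [der_opadd, der_opsmul]
  simp only [LinearMap.add_apply, LinearMap.smul_apply, Pi.add_apply, Pi.smul_apply, smul_eq_mul]
  have : D.opKr (K + 1) (fun y => G (y :: S)) (D.one, 1) = 0 := by
    rw [opKr_apply, if_neg (by simp)]
  rw [this]; ring

lemma opT_BS (K : ℕ) (x : ι × ℕ) (F : (ι × ℕ) → (ι × ℕ) → (ι × ℕ) → ℂ) :
    opT (fun w => D.BS K (fun y z => F w y z)) x = D.BS K (fun y z => opT (fun w => F w y z) x) := by
  rw [opT_apply]
  by_cases hx : x.2 = 0
  · rw [if_pos hx]
    have : (fun y z => opT (fun w => F w y z) x) = fun _ _ => 0 := by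
      funext y z; rw [opT_apply, if_pos hx]
    rw [this, BS_zero]
  · rw [if_neg hx]
    have : (fun y z => opT (fun w => F w y z) x) = fun y z => F (x.1, x.2 - 1) y z := by
      funext y z; rw [opT_apply, if_neg hx]
    rw [this]

lemma der_BS (K : ℕ) (S : List (ι × ℕ)) (F : (ι × ℕ) → (ι × ℕ) → List (ι × ℕ) → ℂ) :
    der opT S (fun s => D.BS K (fun y z => F y z s)) = D.BS K (fun y z => der opT S (F y z)) := by
  induction S generalizing F with
  | nil => simp [der, BS_zero]
  | cons x l ih =>
    simp only [der]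
    rw [ih, BS_add]
    congr 1
    exact opT_BS K x (fun w y z => F y z (w :: l))

lemma quad1_defect (hD : D.Good) (K : ℕ) {G : List (ι × ℕ) → ℂ} (hG : SS D.pr G)
    (S : List (ι × ℕ)) :
    D.defect (D.quad1 (K + 1) G) S =
      ((K : ℂ) + 1) * D.quad1 K G S +
        1 / 2 * D.BS (K + 1) (fun x y => D.defect G (x :: y :: S)) := by
  unfold quad1
  rw [defect_smul]
  unfold defect
  rw [der_BS]
  have e1 : (fun x y => G (x :: y :: (D.one, 0) :: S)) =
      fun x y => G ((D.one, 0) :: x :: y :: S) := by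
    funext x y
    have h1 := (hG.cons x).swap (D.one, 0) y S
    have h2 := hG.swap (D.one, 0) x (y :: S)
    simp only [hD.ks_one, one_mul] at h1 h2
    rw [← h1, ← h2]
  have e2 := BS_shift (D := D) K (fun x y => G (x :: y :: S))
  beta_reduce
  rw [e1]
  have e3 : D.BS (K + 1) (fun x y => G ((D.one, 0) :: x :: y :: S) - der opT (x :: y :: S) G) =
      D.BS (K + 1) (fun x y => G ((D.one, 0) :: x :: y :: S)) -
        D.BS (K + 1) (fun x y => opT (fun x' => G (x' :: y :: S)) x +
          opT (fun y' => G (x :: y' :: S)) y) -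
        D.BS (K + 1) (fun x y => der opT S fun s => G (x :: y :: s)) := by
    rw [← BS_sub, ← BS_sub]
    congr 1; funext x y
    simp only [der]; ring
  rw [e3, e2]; ring

lemma shuf_one (hD : D.Good) (S : List (ι × ℕ)) (Φ : List (ι × ℕ) → List (ι × ℕ) → ℂ) :
    shuf D.pr ((D.one, 0) :: S) Φ =
      shuf D.pr S (fun I J => Φ ((D.one, 0) :: I) J) + shuf D.pr S (fun I J => Φ I ((D.one, 0) :: J)) := by
  simp only [shuf]
  congr 1
  congr 1; funext I J
  rw [kl_even (hD.pr_one 0), one_mul]

lemma quad2_defect (hD : D.Good) (K : ℕ) {G G' : List (ι × ℕ) → ℂ} (hG : SS D.pr G)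
    (hG' : SS D.pr G') (S : List (ι × ℕ)) :
    D.defect (D.quad2 (K + 1) G G') S =
      ((K : ℂ) + 1) * D.quad2 K G G' S +
        (1 / 2 * D.BS (K + 1) (fun x y => shuf D.pr S
          (fun I J => kl D.pr y I * (D.defect G (x :: I) * G' (y :: J)))) +
        1 / 2 * D.BS (K + 1) (fun x y => shuf D.pr S
          (fun I J => kl D.pr y I * (G (x :: I) * D.defect G' (y :: J))))) := by
  unfold quad2
  rw [defect_smul]
  unfold defect
  rw [der_BS]
  have e2 := BS_shift (D := D) K (fun x y => shuf D.pr S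
          (fun I J => kl D.pr y I * (G (x :: I) * G' (y :: J))))
  have key : D.BS (K + 1) (fun x y => shuf D.pr ((D.one, 0) :: S)
          (fun I J => kl D.pr y I * (G (x :: I) * G' (y :: J)))) -
        D.BS (K + 1) (fun x y => der opT S (fun s => shuf D.pr s
          (fun I J => kl D.pr y I * (G (x :: I) * G' (y :: J))))) =
      D.BS (K + 1) (fun x y => opT (fun x' => shuf D.pr S
          (fun I J => kl D.pr y I * (G (x' :: I) * G' (y :: J)))) x +
          opT (fun y' => shuf D.pr S
          (fun I J => kl D.pr y' I * (G (x :: I) * G' (y' :: J)))) y) +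
        (D.BS (K + 1) (fun x y => shuf D.pr S
          (fun I J => kl D.pr y I *
            ((G ((D.one, 0) :: x :: I) - der opT (x :: I) G) * G' (y :: J)))) +
        D.BS (K + 1) (fun x y => shuf D.pr S
          (fun I J => kl D.pr y I *
            (G (x :: I) * (G' ((D.one, 0) :: y :: J) - der opT (y :: J) G'))))) := by
    rw [← BS_sub, ← BS_add, ← BS_add]
    congr 1; funext x y
    rw [der_shuf opT_even, shuf_one hD]
    have eT1 : opT (fun x' => shuf D.pr S
          (fun I J => kl D.pr y I * (G (x' :: I) * G' (y :: J)))) x =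
        shuf D.pr S (fun I J => kl D.pr y I * (opT (fun x' => G (x' :: I)) x * G' (y :: J))) := by
      rw [op_shuf]
      congr 1; funext I J
      rw [A_smul]
      have : (fun x' => G (x' :: I) * G' (y :: J)) = fun x' => G' (y :: J) * G (x' :: I) := by
        funext x'; ring
      rw [this, A_smul]; ring
    have eT2 : opT (fun y' => shuf D.pr S
          (fun I J => kl D.pr y' I * (G (x :: I) * G' (y' :: J)))) y =
        shuf D.pr S (fun I J => kl D.pr y I * (G (x :: I) * opT (fun y' => G' (y' :: J)) y)) := by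
      rw [op_shuf]
      congr 1; funext I J
      have := (opT_even (D := D)).kl (fun y' => G (x :: I) * G' (y' :: J)) y I
      rw [this, A_smul]
    rw [eT1, eT2, ← shuf_add, ← shuf_sub, ← shuf_add, ← shuf_add, ← shuf_add]
    congr 1; funext I J
    have s1 : G (x :: (D.one, 0) :: I) = G ((D.one, 0) :: x :: I) := by
      have h2 := hG.swap (D.one, 0) x I
      rw [hD.ks_one, one_mul] at h2; exact h2.symm
    have s2 : G' (y :: (D.one, 0) :: J) = G' ((D.one, 0) :: y :: J) := by
      have h2 := hG'.swap (D.one, 0) y J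
      rw [hD.ks_one, one_mul] at h2; exact h2.symm
    have s3 : kl D.pr y ((D.one, 0) :: I) = kl D.pr y I := by
      simp only [kl]; rw [ks_comm, hD.ks_one, one_mul]
    have d1 : der opT I (fun I' => kl D.pr y I' * (G (x :: I') * G' (y :: J))) =
        kl D.pr y I * (der opT I (fun s => G (x :: s)) * G' (y :: J)) := by
      rw [der_kl opT_even]
      have : (fun I' => G (x :: I') * G' (y :: J)) = fun I' => G' (y :: J) * G (x :: I') := by
        funext x'; ring
      rw [this, der_smul]; ring
    have d2 : der opT J (fun J' => kl D.pr y I * (G (x :: I) * G' (y :: J'))) =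
        kl D.pr y I * (G (x :: I) * der opT J (fun s => G' (y :: s))) := by
      rw [der_smul, der_smul]
    rw [s1, s2, s3, d1, d2]
    simp only [der]
    ring
  rw [e2] at key
  linear_combination (1 / 2 : ℂ) * key

end defect

end Coh

end Vale.Agent.P269.H598
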