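import Vale.Agent.P269.H598.Comm

/-!
Contraction of the second order part with the quadratic term of the string equation, and
the commutation relation for the full Virasoro expressions.
-/

set_option linter.unusedSectionVars false

namespace Vale.Agent.P269.H598

open Finset

lemma shuf_nil_left {X : Type} {par : X → Bool} (l : List X) (Φ : List X → List X → ℂ)
    (h : ∀ x I J, Φ (x :: I) J = 0) : shuf par l Φ = Φ [] l := by
  induction l generalizing Φ with
  | nil => simp [shuf]
  | cons x l ih =>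
    simp only [shuf]
    have e1 : (fun I J => Φ (x :: I) J) = fun _ _ => 0 := by funext I J; exact h x I J
    rw [e1, shuf_zero, zero_add, ih _ (fun y I J => by rw [h y I (x :: J), mul_zero])]
    simp [kl]

lemma shuf_nil_right {X : Type} {par : X → Bool} (l : List X) (Φ : List X → List X → ℂ)
    (h : ∀ x I J, Φ I (x :: J) = 0) : shuf par l Φ = Φ l [] := by
  induction l generalizing Φ with
  | nil => simp [shuf]
  | cons x l ih =>
    simp only [shuf]
    have e1 : (fun I J => kl par x I * Φ I (x :: J)) = fun _ _ => 0 := by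
      funext I J; rw [h x I J, mul_zero]
    rw [e1, shuf_zero, add_zero, ih _ (fun y I J => h y (x :: I) J)]

namespace Coh

variable {ι : Type} [Fintype ι] [DecidableEq ι] {D : Coh ι}

lemma pairing_two (M : Matrix ι ι ℂ) (x y : ι × ℕ) :
    pairing M [x, y] = if x.2 = 0 ∧ y.2 = 0 then M x.1 y.1 else 0 := rfl

lemma pairing_nil (M : Matrix ι ι ℂ) : pairing M [] = 0 := rfl

lemma pairing_one (M : Matrix ι ι ℂ) (x : ι × ℕ) : pairing M [x] = 0 := rfl

lemma pairing_three (M : Matrix ι ι ℂ) (x y z : ι × ℕ) (l : List (ι × ℕ)) :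
    pairing M (x :: y :: z :: l) = 0 := rfl

lemma pairing_cons_ne (M : Matrix ι ι ℂ) {x : ι × ℕ} {I : List (ι × ℕ)}
    (h : pairing M (x :: I) ≠ 0) : ∃ w, I = [w] ∧ M x.1 w.1 ≠ 0 := by
  rcases I with _ | ⟨w, _ | ⟨v, I⟩⟩
  · exact absurd rfl h
  · refine ⟨w, rfl, ?_⟩
    rw [pairing_two] at h
    intro h0
    rw [h0] at h
    simp at h
  · exact absurd rfl h

lemma core1 (hD : D.Good) (K : ℕ) (g : (ι × ℕ) → ℂ) (z : ι × ℕ) :
    D.BS K (fun x y => ks D.pr y z * (pairing D.η [x, z] * g y)) = - D.opKr K g z := by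
  rw [opKr_apply]
  unfold BS
  by_cases hz : z.2 = 0
  · rw [if_pos hz, ← Finset.sum_neg_distrib]
    apply Finset.sum_congr rfl
    intro i hi
    have h1 : ∀ mn ∈ antidiagonal (K - 2 - i), mn ≠ (0, K - 2 - i) →
        (-1 : ℂ) ^ (mn.1 + 1) * ∑ a, ∑ c, br K i (-D.b a - mn.1) * (D.η⁻¹ * D.R ^ i) a c *
          (ks D.pr (c, mn.2) z * (pairing D.η [(a, mn.1), z] * g (c, mn.2))) = 0 := by
      intro mn hmn hne
      have hm : mn.1 ≠ 0 := by
        intro h0
        apply hne
        have := Finset.HasAntidiagonal.mem_antidiagonal.mp hmn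
        ext
        · exact h0
        · simp only; omega
      simp [pairing_two, hm]
    rw [Finset.sum_eq_single_of_mem (0, K - 2 - i)
      (by rw [Finset.HasAntidiagonal.mem_antidiagonal]; simp) h1]
    simp only
    rw [Finset.sum_comm]
    have h2 : ∀ c : ι, ∑ a, br K i (-D.b a - ((0 : ℕ) : ℂ)) * (D.η⁻¹ * D.R ^ i) a c *
          (ks D.pr (c, K - 2 - i) z * (pairing D.η [(a, 0), z] * g (c, K - 2 - i))) =
        br K i (D.b z.1 - 1) * ((D.R ^ i) z.1 c * g (c, K - 2 - i)) := by
      intro c
      have h3 : (D.R ^ i) z.1 c = ∑ a, D.η z.1 a * (D.η⁻¹ * D.R ^ i) a c := by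
        conv_lhs => rw [← hD.η_B i, Matrix.mul_apply]
      rw [h3, Finset.sum_mul, Finset.mul_sum]
      apply Finset.sum_congr rfl
      intro a _
      rw [pairing_two, if_pos ⟨rfl, hz⟩]
      simp only
      by_cases h4 : D.η a z.1 = 0
      · have h5 : D.η z.1 a = 0 := by rw [hD.η_symm, h4, mul_zero]
        rw [h4, h5]; ring
      · by_cases h6 : (D.η⁻¹ * D.R ^ i) a c = 0
        · rw [h6]; ring
        · have h7 : -D.b a - ((0 : ℕ) : ℂ) = D.b z.1 - 1 := by
            have := hD.η_b h4
            push_cast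
            linear_combination -this
          rw [h7, hD.η_symm z.1 a]
          have h8 : ks D.pr (c, K - 2 - i) z = ks D.par z.1 a := by
            have h9 : D.par a = D.par c := hD.B_par i h6
            unfold ks pr
            simp only
            rw [← h9, Bool.and_comm]
          rw [h8]; ring
    rw [Finset.sum_congr rfl (fun c _ => h2 c)]
    rw [← Finset.mul_sum]; ring
  · rw [if_neg hz, neg_zero]
    apply Finset.sum_eq_zero; intro i _
    apply Finset.sum_eq_zero; intro mn _
    simp [pairing_two, hz]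

lemma core2 (hD : D.Good) (K : ℕ) (g : (ι × ℕ) → ℂ) (z : ι × ℕ) :
    D.BS K (fun x y => g x * pairing D.η [y, z]) = - D.opKr K g z := by
  rw [opKr_apply]
  unfold BS
  by_cases hz : z.2 = 0
  · rw [if_pos hz, ← Finset.sum_neg_distrib]
    apply Finset.sum_congr rfl
    intro i hi
    have hi' := Finset.mem_range.mp hi
    have h1 : ∀ mn ∈ antidiagonal (K - 2 - i), mn ≠ (K - 2 - i, 0) →
        (-1 : ℂ) ^ (mn.1 + 1) * ∑ a, ∑ c, br K i (-D.b a - mn.1) * (D.η⁻¹ * D.R ^ i) a c *
          (g (a, mn.1) * pairing D.η [(c, mn.2), z]) = 0 := by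
      intro mn hmn hne
      have hm : mn.2 ≠ 0 := by
        intro h0
        apply hne
        have := Finset.HasAntidiagonal.mem_antidiagonal.mp hmn
        ext
        · simp only; omega
        · exact h0
      simp [pairing_two, hm]
    rw [Finset.sum_eq_single_of_mem (K - 2 - i, 0)
      (by rw [Finset.HasAntidiagonal.mem_antidiagonal]; simp) h1]
    simp only
    have h2 : ∀ a : ι, ∑ c, br K i (-D.b a - ((K - 2 - i : ℕ) : ℂ)) * (D.η⁻¹ * D.R ^ i) a c *
          (g (a, K - 2 - i) * pairing D.η [(c, 0), z]) =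
        (-1) ^ (K + i) * (br K i (D.b z.1 - 1) * ((D.R ^ i) z.1 a * g (a, K - 2 - i))) := by
      intro a
      have h3 : (D.R ^ i) z.1 a = ∑ c, (D.η⁻¹ * D.R ^ i) a c * D.η c z.1 := by
        rw [← Matrix.mul_apply, hD.B_η i, Matrix.transpose_apply]
      have h4 : ∑ c, br K i (-D.b a - ((K - 2 - i : ℕ) : ℂ)) * (D.η⁻¹ * D.R ^ i) a c *
          (g (a, K - 2 - i) * pairing D.η [(c, 0), z]) =
          br K i (-D.b a - ((K - 2 - i : ℕ) : ℂ)) * ((D.R ^ i) z.1 a * g (a, K - 2 - i)) := by
        rw [h3, Finset.sum_mul, Finset.mul_sum]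
        apply Finset.sum_congr rfl
        intro c _
        rw [pairing_two, if_pos ⟨rfl, hz⟩]; ring
      rw [h4]
      by_cases h5 : (D.R ^ i) z.1 a = 0
      · rw [h5]; ring
      · have h6 := hD.Rpow_b i h5
        have h7 : -D.b a - ((K - 2 - i : ℕ) : ℂ) = 1 - K - (D.b z.1 - 1) := by
          rw [h6]
          have : ((K - 2 - i : ℕ) : ℂ) = (K : ℂ) - 2 - i := by
            rw [Nat.sub_sub, Nat.cast_sub (by omega)]; push_cast; ring
          rw [this]; ring
        rw [h7, br_reflect]; ring
    rw [Finset.sum_congr rfl (fun a _ => h2 a), ← Finset.mul_sum, ← Finset.mul_sum, ← mul_assoc,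
      ← pow_add]
    have h8 : (-1 : ℂ) ^ (K - 2 - i + 1 + (K + i)) = -1 := by
      have : K - 2 - i + 1 + (K + i) = 2 * (K - 1) + 1 := by omega
      rw [this, pow_succ, pow_mul]; simp
    rw [h8]; ring
  · rw [if_neg hz, neg_zero]
    apply Finset.sum_eq_zero; intro i _
    apply Finset.sum_eq_zero; intro mn _
    simp [pairing_two, hz]

lemma contract1 (hD : D.Good) (K : ℕ) {G : List (ι × ℕ) → ℂ} (hG : SS D.pr G)
    (S : List (ι × ℕ)) :
    D.BS K (fun x y => shuf D.pr S (fun I J => kl D.pr y I *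
      (pairing D.η (x :: I) * G (y :: J)))) = - der (D.opKr K) S G := by
  induction S generalizing G with
  | nil => simp [shuf, der, pairing_one, BS_zero]
  | cons z l ih =>
    simp only [shuf, der]
    rw [BS_add]
    have e1 : (fun x y => shuf D.pr l (fun I J => kl D.pr y (z :: I) *
        (pairing D.η (x :: z :: I) * G (y :: J)))) =
        fun x y => ks D.pr y z * (pairing D.η [x, z] * G (y :: l)) := by
      funext x y
      rw [shuf_nil_left _ _ (fun w I J => by rw [pairing_three]; ring)]
      simp [kl]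
    have e2 : D.BS K (fun x y => shuf D.pr l (fun I J => kl D.pr z I * (kl D.pr y I *
        (pairing D.η (x :: I) * G (y :: z :: J))))) =
        D.BS K (fun x y => shuf D.pr l (fun I J => kl D.pr y I *
        (pairing D.η (x :: I) * G (z :: y :: J)))) := by
      apply hD.BS_congr
      intro i x y _ hxy _
      congr 1; funext I J
      by_cases h0 : pairing D.η (x :: I) = 0
      · rw [h0]; ring
      · obtain ⟨w, rfl, hw⟩ := pairing_cons_ne _ h0
        have h1 : D.pr x = D.pr w := hD.η_par hw
        rw [hG.swap y z J]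
        simp only [kl, mul_one]
        have h2 : ks D.pr y z = ks D.pr z w := by
          rw [ks_comm, ks_congr' (h1 ▸ hxy.symm : D.pr y = D.pr w)]
        rw [h2]
        calc ks D.pr z w * (ks D.pr y w * (pairing D.η [x, w] * (ks D.pr z w * G (z :: y :: J))))
            = (ks D.pr z w * ks D.pr z w) * (ks D.pr y w * (pairing D.η [x, w] *
              G (z :: y :: J))) := by ring
          _ = _ := by rw [ks_mul_self, one_mul]
    rw [e1, e2, core1 hD K (fun y => G (y :: l)) z, ih (hG.cons z)]
    ring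

lemma contract2 (hD : D.Good) (K : ℕ) {G : List (ι × ℕ) → ℂ} (hG : SS D.pr G)
    (S : List (ι × ℕ)) :
    D.BS K (fun x y => shuf D.pr S (fun I J => kl D.pr y I *
      (G (x :: I) * pairing D.η (y :: J)))) = - der (D.opKr K) S G := by
  induction S generalizing G with
  | nil => simp [shuf, der, pairing_one, BS_zero]
  | cons z l ih =>
    simp only [shuf, der]
    rw [BS_add]
    have e1 : D.BS K (fun x y => shuf D.pr l (fun I J => kl D.pr y (z :: I) *
        (G (x :: z :: I) * pairing D.η (y :: J)))) =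
        D.BS K (fun x y => shuf D.pr l (fun I J => kl D.pr y I *
        (G (z :: x :: I) * pairing D.η (y :: J)))) := by
      apply hD.BS_congr
      intro i x y _ hxy _
      congr 1; funext I J
      rw [hG.swap x z I]
      simp only [kl]
      rw [ks_congr hxy z]
      calc ks D.pr y z * kl D.pr y I * (ks D.pr y z * G (z :: x :: I) * pairing D.η (y :: J))
          = (ks D.pr y z * ks D.pr y z) * (kl D.pr y I * (G (z :: x :: I) *
            pairing D.η (y :: J))) := by ring
        _ = _ := by rw [ks_mul_self, one_mul]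
    have e2 : (fun x y => shuf D.pr l (fun I J => kl D.pr z I * (kl D.pr y I *
        (G (x :: I) * pairing D.η (y :: z :: J))))) =
        fun x y => G (x :: l) * pairing D.η [y, z] := by
      funext x y
      rw [shuf_nil_right _ _ (fun w I J => by rw [pairing_three]; ring)]
      by_cases h0 : pairing D.η [y, z] = 0
      · rw [h0]; ring
      · obtain ⟨w, hw1, hw⟩ := pairing_cons_ne _ h0
        obtain rfl : z = w := by simpa using hw1
        have h1 : D.pr y = D.pr z := hD.η_par hw
        rw [kl_congr h1]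
        calc kl D.pr z l * (kl D.pr z l * (G (x :: l) * pairing D.η [y, z]))
            = (kl D.pr z l * kl D.pr z l) * (G (x :: l) * pairing D.η [y, z]) := by ring
          _ = _ := by rw [kl_mul_self, one_mul]
    rw [e1, e2, core2 hD K (fun x => G (x :: l)) z, ih (hG.cons z)]
    ring

/-- the pairing is supersymmetric -/
lemma pairing_SS {M : Matrix ι ι ℂ} (h : ∀ a c, M a c = ks D.par a c * M c a) :
    SS D.pr (pairing M) := by
  intro l x y l'
  rcases l with _ | ⟨z, _ | ⟨w, l⟩⟩
  · rcases l' with _ | ⟨z, l'⟩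
    · simp only [List.nil_append, pairing_two]
      by_cases h0 : x.2 = 0 ∧ y.2 = 0
      · rw [if_pos h0, if_pos h0.symm, h]; rfl
      · rw [if_neg h0, if_neg (fun h' => h0 h'.symm), mul_zero]
    · simp [pairing_three]
  · simp [pairing_three]
  · rcases l with _ | ⟨v, l⟩ <;> simp [pairing_three]

lemma der_pairing_nil (A : ((ι × ℕ) → ℂ) →ₗ[ℂ] ((ι × ℕ) → ℂ)) (M : Matrix ι ι ℂ) :
    der A [] (pairing M) = 0 := rfl

lemma der_pairing_one (A : ((ι × ℕ) → ℂ) →ₗ[ℂ] ((ι × ℕ) → ℂ)) (M : Matrix ι ι ℂ)
    (x : ι × ℕ) : der A [x] (pairing M) = 0 := by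
  simp only [der]
  have : (fun y => pairing M [y]) = fun _ => 0 := by funext y; rfl
  rw [this, A_zero]; ring

lemma der_pairing_two (A : ((ι × ℕ) → ℂ) →ₗ[ℂ] ((ι × ℕ) → ℂ)) (M : Matrix ι ι ℂ)
    (x y : ι × ℕ) : der A [x, y] (pairing M) =
      A (fun w => pairing M [w, y]) x + A (fun w => pairing M [x, w]) y := by
  simp only [der]; ring

lemma der_pairing_three (A : ((ι × ℕ) → ℂ) →ₗ[ℂ] ((ι × ℕ) → ℂ)) (M : Matrix ι ι ℂ)
    (x y z : ι × ℕ) (l : List (ι × ℕ)) : der A (x :: y :: z :: l) (pairing M) = 0 := by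
  simp only [der]
  have e1 : (fun w => pairing M (w :: y :: z :: l)) = fun _ => 0 := by funext w; rfl
  have e2 : (fun w => pairing M (x :: w :: z :: l)) = fun _ => 0 := by funext w; rfl
  have e3 : (fun w => pairing M (x :: y :: w :: l)) = fun _ => 0 := by funext w; rfl
  have e4 : (fun s => pairing M (x :: y :: z :: s)) = fun _ => 0 := by funext w; rfl
  rw [e1, e2, e3, e4, A_zero, A_zero, A_zero, der_zero]; ring

/-- evaluation of `opA` on a function supported on `τ_0`-insertions -/
lemma opA_pairing (K : ℕ) (f : ι → ℂ) (x : ι × ℕ) :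
    D.opA (K + 1) (fun w => if w.2 = 0 then f w.1 else 0) x =
      if x.2 = 0 then (((K : ℂ) + 1) * D.b x.1 + (K : ℂ) * (K + 1) / 2) *
          ∑ c, (D.R ^ K) x.1 c * f c
      else if x.2 = 1 then ∑ c, (D.R ^ (K + 1)) x.1 c * f c else 0 := by
  obtain ⟨a, m⟩ := x
  rw [opA_apply]
  simp only
  rcases m with _ | _ | m
  · rw [if_pos rfl, Finset.sum_range_succ, Finset.sum_range_succ]
    have e1 : ¬ (K + 1 + 1 ≤ 0 + (K + 1)) := by omega
    have e2 : K + 1 ≤ 0 + (K + 1) := by omega
    rw [if_neg e1, add_zero, if_pos e2]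
    rw [show 0 + (K + 1) - 1 - K = 0 by omega]
    rw [Finset.sum_eq_zero, zero_add]
    · simp only [if_true]
      rw [Nat.cast_zero, add_zero, br_pred]
    · intro i hi
      have := Finset.mem_range.mp hi
      by_cases h1 : i + 1 ≤ 0 + (K + 1)
      · have h2 : ¬ (0 + (K + 1) - 1 - i = 0) := by omega
        rw [if_pos h1]
        simp only [h2, if_false, mul_zero, Finset.sum_const_zero]
      · rw [if_neg h1]
  · rw [if_neg (by omega), if_pos rfl, Finset.sum_range_succ, if_pos (by omega)]
    rw [show 0 + 1 + (K + 1) - 1 - (K + 1) = 0 by omega]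
    rw [Finset.sum_eq_zero, zero_add]
    · simp only [if_true]
      rw [br_self, one_mul]
    · intro i hi
      have := Finset.mem_range.mp hi
      by_cases h1 : i + 1 ≤ 0 + 1 + (K + 1)
      · have h2 : ¬ (0 + 1 + (K + 1) - 1 - i = 0) := by omega
        rw [if_pos h1]
        simp only [h2, if_false, mul_zero, Finset.sum_const_zero]
      · rw [if_neg h1]
  · rw [if_neg (by omega), if_neg (by omega)]
    apply Finset.sum_eq_zero
    intro i hi
    have := Finset.mem_range.mp hi
    by_cases h1 : i + 1 ≤ m + 1 + 1 + (K + 1)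
    · have h2 : ¬ (m + 1 + 1 + (K + 1) - 1 - i = 0) := by omega
      rw [if_pos h1]
      simp only [h2, if_false, mul_zero, Finset.sum_const_zero]
    · rw [if_neg h1]

lemma quad0_defect (hD : D.Good) (K : ℕ) (S : List (ι × ℕ)) :
    D.defect (pairing (D.R ^ (K + 1) * D.η)) S + D.lin (K + 1) (pairing D.η) S =
      ((K : ℂ) + 1) * pairing (D.R ^ K * D.η) S := by
  rw [lin_der]
  unfold defect
  rcases S with _ | ⟨x, _ | ⟨y, _ | ⟨z, l⟩⟩⟩
  · have e1 : (fun y : ι × ℕ => pairing D.η [y]) = fun _ => 0 := by funext y; rfl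
    rw [e1, A_zero, der_pairing_nil, der_pairing_nil, pairing_one, pairing_nil]; ring
  · rw [der_pairing_one, der_pairing_one, pairing_two, pairing_one]
    by_cases hx : x.2 = 0
    · have e1 : (fun y : ι × ℕ => pairing D.η [y, x]) =
          fun w => if w.2 = 0 then D.η w.1 x.1 else 0 := by
        funext w; simp [pairing_two, hx]
      rw [e1, opA_pairing K (fun c => D.η c x.1), if_pos ⟨rfl, hx⟩, if_neg (by simp), if_pos rfl,
        Matrix.mul_apply]
      ring
    · have e1 : (fun y : ι × ℕ => pairing D.η [y, x]) = fun _ => 0 := by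
        funext w; simp [pairing_two, hx]
      rw [e1, A_zero, if_neg (fun h => hx h.2)]; ring
  · rw [der_pairing_two, der_pairing_two, pairing_three, pairing_two]
    have e0 : (fun w : ι × ℕ => pairing D.η [w, x, y]) = fun _ => 0 := by funext y; rfl
    rw [e0, A_zero]
    have e1 : (fun w : ι × ℕ => pairing D.η [w, y]) =
        fun w => if w.2 = 0 then (if y.2 = 0 then D.η w.1 y.1 else 0) else 0 := by
      funext w; rw [pairing_two]
      by_cases h1 : w.2 = 0 <;> by_cases h2 : y.2 = 0 <;> simp [h1, h2]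
    have e2 : (fun w : ι × ℕ => pairing D.η [x, w]) =
        fun w => if w.2 = 0 then (if x.2 = 0 then D.η x.1 w.1 else 0) else 0 := by
      funext w; rw [pairing_two]
      by_cases h1 : w.2 = 0 <;> by_cases h2 : x.2 = 0 <;> simp [h1, h2]
    rw [e1, e2, opA_pairing K (fun c => if y.2 = 0 then D.η c y.1 else 0),
      opA_pairing K (fun c => if x.2 = 0 then D.η x.1 c else 0), opT_apply, opT_apply]
    have t1 : ∀ i, ∑ c, (D.R ^ i) x.1 c * D.η c y.1 = (D.R ^ i * D.η) x.1 y.1 := by
      intro i; rw [Matrix.mul_apply]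
    have t2 : ∀ i, ∑ c, (D.R ^ i) y.1 c * D.η x.1 c = (D.R ^ i * D.η) x.1 y.1 := by
      intro i
      rw [hD.Rpowη, Matrix.mul_apply]
      apply Finset.sum_congr rfl; intro c _
      rw [Matrix.transpose_apply]; ring
    obtain ⟨a, m⟩ := x
    obtain ⟨c, n⟩ := y
    simp only at t1 t2 ⊢
    rcases m with _ | _ | m <;> rcases n with _ | _ | n <;>
      simp [pairing_two, t1, t2]
    -- remaining case: both indices zero
    by_cases h0 : (D.R ^ K * D.η) a c = 0
    · rw [h0]; ring
    · rw [Matrix.mul_apply] at h0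
      obtain ⟨e, _, he⟩ := Finset.exists_ne_zero_of_sum_ne_zero h0
      have h1 := hD.Rpow_b K (left_ne_zero_of_mul he)
      have h2 := hD.η_b (right_ne_zero_of_mul he)
      have h3 : D.b a + D.b c = 1 - K := by linear_combination h2 - h1
      have h4 : ((K : ℂ) + 1) * D.b a + (K : ℂ) * (K + 1) / 2 +
          (((K : ℂ) + 1) * D.b c + (K : ℂ) * (K + 1) / 2) = (K : ℂ) + 1 := by
        linear_combination ((K : ℂ) + 1) * h3
      linear_combination ((D.R ^ K * D.η) a c) * h4
  · rw [der_pairing_three, der_pairing_three, pairing_three, pairing_three]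
    have e1 : (fun w : ι × ℕ => pairing D.η (w :: x :: y :: z :: l)) = fun _ => 0 := by
      funext y; rfl
    rw [e1, A_zero]; ring

end Coh

end Vale.Agent.P269.H598
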