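import Vale.Agent.P269.H598.Base

/-!
Classical cohomological data of a smooth projective variety whose first Chern class is a
multiple of the hyperplane class, the Virasoro operators in the form of Getzler, and the
axioms for descendant Gromov-Witten invariants.
-/

namespace Vale.Agent.P269.H598

open Finset

/-- Classical data: a homogeneous basis `φ_a`, `a : ι`, of `H^*(X; ℂ)` together with the
structures of the cohomology ring which are used by the axioms of Gromov-Witten theory. -/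
structure Coh (ι : Type) where
  /-- complex dimension of `X` -/
  dim : ℕ
  /-- `φ_a` has Hodge type `(p a, q a)` -/
  p : ι → ℕ
  /-- `φ_a` has Hodge type `(p a, q a)` -/
  q : ι → ℕ
  /-- the index of the unit class -/
  one : ι
  /-- the index of the hyperplane class `h` -/
  h : ι
  /-- Poincare pairing `η a c = ∫ φ_a ∪ φ_c` -/
  η : Matrix ι ι ℂ
  /-- cup product with the hyperplane class: `h ∪ φ_a = ∑_c H a c φ_c` -/
  H : Matrix ι ι ℂ
  /-- `c₁(X) = κ h` -/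
  κ : ℤ
  /-- the Chern number `∫ h ∪ c_{dim-1}(X)` -/
  hc : ℂ
  /-- `int [a₁, …, aₙ] = ∫ φ_{a₁} ∪ ⋯ ∪ φ_{aₙ}` -/
  int : List ι → ℂ

namespace Coh

variable {ι : Type} [Fintype ι] [DecidableEq ι] (D : Coh ι)

/-- the parity of the class `φ_a`: `true` if odd -/
def par (a : ι) : Bool := decide ((D.p a + D.q a) % 2 = 1)

/-- the parity of the insertion `τ_m(φ_a)` -/
def pr (x : ι × ℕ) : Bool := D.par x.1

/-- the grading operator `μ`, equal to `p - dim/2` on `H^{p,q}` -/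
noncomputable def μ (a : ι) : ℂ := (D.p a : ℂ) - (D.dim : ℂ) / 2

/-- `b_a = μ_a + 1/2` -/
noncomputable def b (a : ι) : ℂ := D.μ a + 1 / 2

/-- supertrace of the diagonal operator with eigenvalues `f a` -/
noncomputable def str (f : ι → ℂ) : ℂ := ∑ a, (-1) ^ (D.p a + D.q a) * f a

/-- the Euler characteristic -/
noncomputable def chi : ℂ := D.str (fun _ => 1)

/-- the matrix of `R = c₁(X) ∪` -/
noncomputable def R : Matrix ι ι ℂ := (D.κ : ℂ) • D.H

/-- The operator on insertions in the linear part of `L_{K-1}`: in terms of functions `g` of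
one insertion, `(fA K g)(τ_m(φ_a))` is
`∑_i [b_a + m]^{K-1}_i ∑_c (R^i)_a^c g(τ_{m+K-1-i}(φ_c))`. -/
noncomputable def fA (K : ℕ) (g : (ι × ℕ) → ℂ) (x : ι × ℕ) : ℂ :=
  ∑ i ∈ range (K + 1), if i + 1 ≤ x.2 + K then
    br K i (D.b x.1 + x.2) * ∑ c, (D.R ^ i) x.1 c * g (c, x.2 + K - 1 - i) else 0

/-- The sum over the second order part of `L_{K-1}`:
`∑_{i+m+n=K-2} (-1)^{m+1} [-b_a - m]^{K-1}_i (R^i)^{ac} f(τ_m(φ_a), τ_n(φ_c))`, where
`(R^i)^{ac} = ∑_e η^{ae} (R^i)_e^c`. -/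
noncomputable def BS (K : ℕ) (f : (ι × ℕ) → (ι × ℕ) → ℂ) : ℂ :=
  ∑ i ∈ range (K - 1), ∑ mn ∈ antidiagonal (K - 2 - i), (-1) ^ (mn.1 + 1) *
    ∑ a, ∑ c, br K i (-D.b a - mn.1) * (D.η⁻¹ * D.R ^ i) a c * f (a, mn.1) (c, mn.2)

/-- The part of `L_{K-1} Z / Z` linear in the potential `G`: the terms
`∑ [b_a+m]^{K-1}_i (R^i)_a^c t̃^a_m ∂_{c,m+K-1-i} G`, with the dilaton shift
`t^0_1 ↦ t^0_1 - 1`. -/
noncomputable def lin (K : ℕ) (G : List (ι × ℕ) → ℂ) (S : List (ι × ℕ)) : ℂ :=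
  dr (D.fA K) S G - D.fA K (fun y => G (y :: S)) (D.one, 1)

/-- The terms `1/2 ∑ (-1)^{m+1} [-b_a - m]^{K-1}_i (R^i)^{ac} ∂_{a,m} ∂_{c,n} G`. -/
noncomputable def quad1 (K : ℕ) (G : List (ι × ℕ) → ℂ) (S : List (ι × ℕ)) : ℂ :=
  1 / 2 * D.BS K (fun x y => G (x :: y :: S))

/-- The terms `1/2 ∑ (-1)^{m+1} [-b_a - m]^{K-1}_i (R^i)^{ac} (∂_{a,m} G) (∂_{c,n} G')`. -/
noncomputable def quad2 (K : ℕ) (G G' : List (ι × ℕ) → ℂ) (S : List (ι × ℕ)) : ℂ :=
  1 / 2 * D.BS K (fun x y => shuf D.pr S (fun I J => kl D.pr y I * (G (x :: I) * G' (y :: J))))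

/-- the function of lists of insertions with the value `M a c` on `[τ_0(φ_a), τ_0(φ_c)]`, and
zero on all other lists -/
noncomputable def pairing (M : Matrix ι ι ℂ) : List (ι × ℕ) → ℂ
  | [x, y] => if x.2 = 0 ∧ y.2 = 0 then M x.1 y.1 else 0
  | _ => 0

/-- The scalar term, which occurs only in `L_0`. -/
noncomputable def scal (K g e : ℕ) (S : List (ι × ℕ)) : ℂ :=
  if K = 1 ∧ g = 1 ∧ e = 0 ∧ S = [] then D.chi / 16 - D.str (fun a => D.μ a ^ 2) / 4 else 0

/-- The Taylor coefficient at `S` of the coefficient of `ħ^{g-1} Q^e` in `L_{K-1} Z / Z`, for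
`Z = exp (∑ ħ^{g-1} Q^e F_{g,e})`, where `inv g e S = ⟨S⟩_{g,e}` are the Taylor
coefficients of `F_{g,e}`. The term with `pairing` is the term `1/2 (R^K)_{ac} t^a_0 t^c_0` of
`L_{K-1}`, the quadratic form with polarisation `∫ c₁^K ∪ φ_a ∪ φ_c`. -/
noncomputable def vir (inv : ℕ → ℕ → List (ι × ℕ) → ℂ) (K g e : ℕ) (S : List (ι × ℕ)) : ℂ :=
  D.lin K (inv g e) S + (if g = 0 then 0 else D.quad1 K (inv (g - 1) e) S) +
    (∑ gg ∈ antidiagonal g, ∑ ee ∈ antidiagonal e,
      D.quad2 K (inv gg.1 ee.1) (inv gg.2 ee.2) S) +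
    (if g = 0 ∧ e = 0 then pairing (D.R ^ K * D.η) S else 0) + D.scal K g e S

/-- The Virasoro constraints `L_k Z = 0`, `k = K - 1 ≥ -1`. -/
def Virasoro (inv : ℕ → ℕ → List (ι × ℕ) → ℂ) : Prop :=
  ∀ (K g e : ℕ) (S : List (ι × ℕ)), D.vir inv K g e S = 0

/-- Lowering of the descendant index, `τ_m(φ) ↦ τ_{m-1}(φ)`, on functions of one insertion
(`τ_{-1} = 0`). -/
def fT (g : (ι × ℕ) → ℂ) (x : ι × ℕ) : ℂ := if x.2 = 0 then 0 else g (x.1, x.2 - 1)

/-- `τ_m(φ) ↦ τ_{m-1}(h ∪ φ)` on functions of one insertion. -/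
noncomputable def fTH (g : (ι × ℕ) → ℂ) (x : ι × ℕ) : ℂ :=
  if x.2 = 0 then 0 else ∑ c, D.H x.1 c * g (c, x.2 - 1)

/-- The axioms of string, dilaton, divisor, dimension (with Hodge types) and supersymmetry
for a system of numbers `inv g e [τ_{m₁}(φ_{a₁}), …]`, `g` the genus, `e` the degree with
respect to `h`. -/
structure Axioms (inv : ℕ → ℕ → List (ι × ℕ) → ℂ) : Prop where
  /-- supersymmetry -/
  symm : ∀ g e, SS D.pr (inv g e)
  /-- dimension axiom, first Hodge degrees -/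
  dimp : ∀ (g e : ℕ) (S : List (ι × ℕ)), inv g e S ≠ 0 →
    (S.map fun x => (x.2 : ℤ) + (D.p x.1 : ℤ) - 1).sum =
      (1 - (g : ℤ)) * ((D.dim : ℤ) - 3) + D.κ * e
  /-- dimension axiom, second Hodge degrees -/
  dimq : ∀ (g e : ℕ) (S : List (ι × ℕ)), inv g e S ≠ 0 →
    (S.map fun x => (x.2 : ℤ) + (D.q x.1 : ℤ) - 1).sum =
      (1 - (g : ℤ)) * ((D.dim : ℤ) - 3) + D.κ * e
  /-- string equation -/
  string : ∀ (g e : ℕ) (S : List (ι × ℕ)), inv g e ((D.one, 0) :: S) =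
    dr fT S (inv g e) + (if g = 0 ∧ e = 0 then pairing D.η S else 0)
  /-- dilaton equation -/
  dilaton : ∀ (g e : ℕ) (S : List (ι × ℕ)), inv g e ((D.one, 1) :: S) =
    (2 * (g : ℂ) - 2 + S.length) * inv g e S +
      (if g = 1 ∧ e = 0 ∧ S = [] then D.chi / 24 else 0)
  /-- divisor equation -/
  divisor : ∀ (g e : ℕ) (S : List (ι × ℕ)), inv g e ((D.h, 0) :: S) =
    (e : ℂ) * inv g e S + dr D.fTH S (inv g e) +
      (if g = 0 ∧ e = 0 then pairing (D.H * D.η) S else 0) -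
      (if g = 1 ∧ e = 0 ∧ S = [] then D.hc / 24 else 0)

/-- the genus zero descendant integral `∫_{M_{0,n}} ψ₁^{m₁} ⋯ ψₙ^{mₙ}`, equal to
`(n-3)! / (m₁! ⋯ mₙ!)` if `n ≥ 3` and `m₁ + ⋯ + mₙ = n - 3`, and `0` otherwise -/
noncomputable def psi0 (m : List ℕ) : ℂ :=
  if m.sum + 3 = m.length then
    ((m.length - 3).factorial : ℂ) / ((m.map Nat.factorial).prod : ℂ) else 0

/-- The axioms for the descendant Gromov-Witten invariants, including the values in degree
zero which are not determined by the other axioms: the classical formula in genus `0`, the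
vanishing of the unstable correlator without insertions in genus `1`, and the values `C g`
of the correlators without insertions in degree `0` and genus `g ≥ 2`. -/
structure IsGW (C : ℕ → ℂ) (inv : ℕ → ℕ → List (ι × ℕ) → ℂ) : Prop extends
    D.Axioms inv where
  /-- degree zero invariants in genus zero -/
  deg0 : ∀ S : List (ι × ℕ), inv 0 0 S = psi0 (S.map Prod.snd) * D.int (S.map Prod.fst)
  /-- unstable correlator in genus one -/
  gen1 : inv 1 0 [] = 0
  /-- degree zero correlators without insertions in higher genus -/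
  gen2 : ∀ g, 2 ≤ g → inv g 0 [] = C g

end Coh

end Vale.Agent.P269.H598
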