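import Vale.Agent.P269.H598.Genus0

/-!
Existence of a system satisfying the axioms whose invariants vanish in positive degree.
-/

set_option linter.unusedSectionVars false

namespace Vale.Agent.P269.H598

open Finset

/-- lowering of one index -/
def opn : (ℕ → ℂ) →ₗ[ℂ] (ℕ → ℂ) where
  toFun g m := if m = 0 then 0 else g (m - 1)
  map_add' g g' := by
    funext x; simp only [Pi.add_apply]; split_ifs <;> simp
  map_smul' r g := by
    funext x; simp only [Pi.smul_apply, smul_eq_mul, RingHom.id_apply]; split_ifs <;> simp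

lemma opn_apply (g : ℕ → ℂ) (m : ℕ) : opn g m = if m = 0 then 0 else g (m - 1) := rfl

/-- `1 / ∏ m_i!` -/
noncomputable def wf (l : List ℕ) : ℂ := (((l.map Nat.factorial).prod : ℕ) : ℂ)⁻¹

lemma wf_nil : wf [] = 1 := by simp [wf]

lemma wf_cons (m : ℕ) (l : List ℕ) : wf (m :: l) = ((m.factorial : ℂ))⁻¹ * wf l := by
  simp only [wf, List.map_cons, List.prod_cons, Nat.cast_mul, mul_inv]

lemma wf_lower {m : ℕ} (hm : m ≠ 0) (l : List ℕ) :
    wf ((m - 1) :: l) = (m : ℂ) * wf (m :: l) := by
  rw [wf_cons, wf_cons]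
  obtain ⟨k, rfl⟩ := Nat.exists_eq_succ_of_ne_zero hm
  rw [Nat.succ_sub_one, Nat.factorial_succ]
  have h1 : ((k : ℂ) + 1) ≠ 0 := by exact_mod_cast Nat.succ_ne_zero k
  have h2 : ((k.factorial : ℂ)) ≠ 0 := by exact_mod_cast Nat.factorial_ne_zero k
  push_cast
  field_simp

/-- `∏ (1 + m_i z)` -/
noncomputable def Ef (l : List ℕ) : Polynomial ℂ :=
  (l.map fun m : ℕ => 1 + Polynomial.C (m : ℂ) * Polynomial.X).prod

lemma Ef_cons (m : ℕ) (l : List ℕ) :
    Ef (m :: l) = (1 + Polynomial.C (m : ℂ) * Polynomial.X) * Ef l := by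
  simp [Ef]

lemma Ef_nil : Ef [] = 1 := by simp [Ef]

lemma Ef_natDegree (l : List ℕ) : (Ef l).natDegree ≤ l.length := by
  induction l with
  | nil => simp [Ef_nil]
  | cons m l ih =>
    rw [Ef_cons, List.length_cons]
    refine (Polynomial.natDegree_mul_le).trans ?_
    have : (1 + Polynomial.C (m : ℂ) * Polynomial.X : Polynomial ℂ).natDegree ≤ 1 := by
      compute_degree
    omega

lemma der_wE (Λ : Polynomial ℂ →ₗ[ℂ] ℂ) (l : List ℕ) :
    der opn l (fun s => wf s * Λ (Ef s)) =
      wf l * Λ (Polynomial.C ((l.sum : ℕ) : ℂ) * Ef l -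
        Polynomial.X * Polynomial.derivative (Ef l)) := by
  induction l generalizing Λ with
  | nil => simp [der, Ef_nil]
  | cons m l ih =>
    simp only [der]
    have e1 : opn (fun y => wf (y :: l) * Λ (Ef (y :: l))) m =
        wf (m :: l) * Λ (Polynomial.C (m : ℂ) * ((1 + Polynomial.C ((m : ℂ) - 1) *
          Polynomial.X) * Ef l)) := by
      rw [opn_apply]
      split_ifs with h
      · subst h; simp
      · have e : ∀ q : Polynomial ℂ, Λ (Polynomial.C (m : ℂ) * q) = m * Λ q := by
          intro q; rw [← Polynomial.smul_eq_C_mul, map_smul, smul_eq_mul]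
        rw [wf_lower h, Ef_cons, Nat.cast_sub (by omega), Nat.cast_one, e]
        ring
    have e2 : der opn l (fun s => wf (m :: s) * Λ (Ef (m :: s))) =
        wf (m :: l) * Λ ((1 + Polynomial.C (m : ℂ) * Polynomial.X) *
          (Polynomial.C ((l.sum : ℕ) : ℂ) * Ef l -
          Polynomial.X * Polynomial.derivative (Ef l))) := by
      have h := ih (Λ ∘ₗ LinearMap.mulLeft ℂ (1 + Polynomial.C (m : ℂ) * Polynomial.X))
      simp only [LinearMap.comp_apply, LinearMap.mulLeft_apply] at h
      have e3 : (fun s => wf (m :: s) * Λ (Ef (m :: s))) = fun s =>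
          ((m.factorial : ℂ))⁻¹ * (wf s * Λ ((1 + Polynomial.C (m : ℂ) * Polynomial.X) * Ef s)) := by
        funext s; rw [wf_cons, Ef_cons]; ring
      rw [e3, der_smul, h, wf_cons]; ring
    have e4 : Polynomial.C (m : ℂ) * ((1 + Polynomial.C ((m : ℂ) - 1) * Polynomial.X) * Ef l) +
        (1 + Polynomial.C (m : ℂ) * Polynomial.X) * (Polynomial.C ((l.sum : ℕ) : ℂ) * Ef l -
          Polynomial.X * Polynomial.derivative (Ef l)) =
        Polynomial.C (((m :: l).sum : ℕ) : ℂ) * Ef (m :: l) -
          Polynomial.X * Polynomial.derivative (Ef (m :: l)) := by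
      rw [Ef_cons, List.sum_cons]
      generalize Ef l = E
      generalize l.sum = S
      simp only [Polynomial.derivative_mul, Polynomial.derivative_one,
        Polynomial.derivative_C, Polynomial.derivative_X, Nat.cast_add, map_add, map_sub,
        Polynomial.C_1]
      ring
    rw [e1, e2, ← mul_add, ← map_add, e4]

/-- the functional `z^s ↦ c_s (n - s)!` on polynomials of degree at most `n` -/
noncomputable def Lam (c : ℕ → ℂ) (n : ℕ) : Polynomial ℂ →ₗ[ℂ] ℂ where
  toFun f := ∑ s ∈ range (n + 1), f.coeff s * (c s * ((n - s).factorial : ℂ))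
  map_add' f g := by
    rw [← Finset.sum_add_distrib]; apply Finset.sum_congr rfl; intro s _
    rw [Polynomial.coeff_add]; ring
  map_smul' r f := by
    simp only [RingHom.id_apply, smul_eq_mul, Finset.mul_sum]
    apply Finset.sum_congr rfl; intro s _
    rw [Polynomial.coeff_smul, smul_eq_mul]; ring

lemma Lam_apply (c : ℕ → ℂ) (n : ℕ) (f : Polynomial ℂ) :
    Lam c n f = ∑ s ∈ range (n + 1), f.coeff s * (c s * ((n - s).factorial : ℂ)) := rfl

lemma Lam_string (c : ℕ → ℂ) (n : ℕ) {f : Polynomial ℂ} (hf : f.natDegree ≤ n) :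
    Lam c n (Polynomial.C (((n + 1 : ℕ)) : ℂ) * f - Polynomial.X * Polynomial.derivative f) =
      Lam c (n + 1) f := by
  rw [Lam_apply, Lam_apply, Finset.sum_range_succ _ (n + 1),
    Polynomial.coeff_eq_zero_of_natDegree_lt (show f.natDegree < n + 1 by omega), zero_mul,
    add_zero]
  apply Finset.sum_congr rfl; intro s hs
  rw [Finset.mem_range] at hs
  have e1 : (Polynomial.C (((n + 1 : ℕ)) : ℂ) * f -
      Polynomial.X * Polynomial.derivative f).coeff s = ((n : ℂ) + 1 - s) * f.coeff s := by
    rw [Polynomial.coeff_sub, Polynomial.coeff_C_mul]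
    rcases s with _ | s
    · simp
    · rw [Polynomial.coeff_X_mul, Polynomial.coeff_derivative]; push_cast; ring
  have e2 : ((n + 1 - s).factorial : ℂ) = ((n : ℂ) + 1 - s) * ((n - s).factorial : ℂ) := by
    rw [show n + 1 - s = (n - s) + 1 by omega, Nat.factorial_succ]; push_cast
    rw [Nat.cast_sub (by omega)]; ring
  rw [e1, e2]; ring

lemma Lam_dilaton (c : ℕ → ℂ) (n : ℕ) {f : Polynomial ℂ} (hf : f.natDegree ≤ n) :
    Lam c (n + 1) ((1 + Polynomial.X) * f) =
      (n : ℂ) * Lam c n f + Lam (fun s => c (s + 1) + (1 - (s : ℂ)) * c s) n f := by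
  have hz : f.coeff (n + 1) = 0 := Polynomial.coeff_eq_zero_of_natDegree_lt (by omega)
  rw [add_mul, one_mul, map_add]
  have e1 : Lam c (n + 1) f = ∑ s ∈ range (n + 1), f.coeff s *
      (c s * ((n + 1 - s).factorial : ℂ)) := by
    rw [Lam_apply, Finset.sum_range_succ _ (n + 1), hz, zero_mul, add_zero]
  have e2 : Lam c (n + 1) (Polynomial.X * f) = ∑ s ∈ range (n + 1), f.coeff s *
      (c (s + 1) * ((n - s).factorial : ℂ)) := by
    rw [Lam_apply, Finset.sum_range_succ']
    simp only [Polynomial.coeff_X_mul, Polynomial.coeff_X_mul_zero, zero_mul, add_zero]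
    apply Finset.sum_congr rfl; intro s _
    rw [show n + 1 - (s + 1) = n - s by omega]
  rw [e1, e2, Lam_apply, Lam_apply, Finset.mul_sum, ← Finset.sum_add_distrib,
    ← Finset.sum_add_distrib]
  apply Finset.sum_congr rfl; intro s hs
  rw [Finset.mem_range] at hs
  have e3 : ((n + 1 - s).factorial : ℂ) = ((n : ℂ) + 1 - s) * ((n - s).factorial : ℂ) := by
    rw [show n + 1 - s = (n - s) + 1 by omega, Nat.factorial_succ]; push_cast
    rw [Nat.cast_sub (by omega)]; ring
  rw [e3]; ring

/-- the numbers `a^c(m_1, …, m_n)` -/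
noncomputable def An (c : ℕ → ℂ) (l : List ℕ) : ℂ :=
  if l.sum = l.length then wf l * Lam c l.length (Ef l) else 0

lemma der_opn_congr (l : List ℕ) {F G : List ℕ → ℂ}
    (h : ∀ s, s.length = l.length → s.sum + 1 = l.sum → F s = G s) :
    der opn l F = der opn l G := by
  induction l generalizing F G with
  | nil => rfl
  | cons m l ih =>
    simp only [der]
    congr 1
    · rw [opn_apply, opn_apply]
      split_ifs with hm
      · rfl
      · exact h _ (by simp) (by rw [List.sum_cons, List.sum_cons]; omega)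
    · exact ih (fun s h1 h2 => h _ (by simp [h1]) (by rw [List.sum_cons, List.sum_cons]; omega))

lemma der_opn_zero (l : List ℕ) {F : List ℕ → ℂ}
    (h : ∀ s, s.length = l.length → s.sum + 1 = l.sum → F s = 0) : der opn l F = 0 := by
  rw [der_opn_congr l (G := fun _ => 0) h, der_zero]

lemma der_wf (l : List ℕ) : der opn l wf = (l.sum : ℂ) * wf l := by
  induction l with
  | nil => simp [der]
  | cons m l ih =>
    simp only [der]
    have e1 : opn (fun y => wf (y :: l)) m = (m : ℂ) * wf (m :: l) := by
      rw [opn_apply]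
      split_ifs with h
      · subst h; simp
      · exact wf_lower h l
    have e2 : der opn l (fun s => wf (m :: s)) = (l.sum : ℂ) * wf (m :: l) := by
      have e3 : (fun s => wf (m :: s)) = fun s => ((m.factorial : ℂ))⁻¹ * wf s := by
        funext s; rw [wf_cons]
      rw [e3, der_smul, ih, wf_cons]; ring
    rw [e1, e2, List.sum_cons]; push_cast; ring

lemma An_pos (c : ℕ → ℂ) {l : List ℕ} (h : l.sum = l.length) :
    An c l = wf l * Lam c l.length (Ef l) := if_pos h

lemma An_neg (c : ℕ → ℂ) {l : List ℕ} (h : l.sum ≠ l.length) : An c l = 0 := if_neg h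

lemma An_nil (c : ℕ → ℂ) : An c [] = c 0 := by
  unfold An
  rw [if_pos (by simp), wf_nil, Ef_nil, Lam_apply]
  simp

lemma An_string (c : ℕ → ℂ) (l : List ℕ) : An c (0 :: l) = der opn l (An c) := by
  have hw : wf (0 :: l) = wf l := by rw [wf_cons]; simp
  have hE : Ef (0 :: l) = Ef l := by rw [Ef_cons]; simp
  by_cases h : l.sum = l.length + 1
  · rw [An_pos c (by rw [List.sum_cons, List.length_cons]; omega), hw, hE, List.length_cons,
      der_opn_congr l (G := fun s => wf s * Lam c l.length (Ef s)), der_wE, h,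
      Lam_string c l.length (Ef_natDegree l)]
    intro s h1 h2
    rw [An_pos c (by omega), h1]
  · rw [An_neg c (by rw [List.sum_cons, List.length_cons]; omega), der_opn_zero]
    intro s h1 h2
    exact An_neg c (by omega)

lemma An_dilaton (c : ℕ → ℂ) (l : List ℕ) : An c (1 :: l) = (l.length : ℂ) * An c l +
    An (fun s => c (s + 1) + (1 - (s : ℂ)) * c s) l := by
  have hw : wf (1 :: l) = wf l := by rw [wf_cons]; simp
  have hE : Ef (1 :: l) = (1 + Polynomial.X) * Ef l := by rw [Ef_cons]; simp
  by_cases h : l.sum = l.length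
  · rw [An_pos c (by rw [List.sum_cons, List.length_cons]; omega), An_pos c h, An_pos _ h, hw, hE,
      List.length_cons, Lam_dilaton c l.length (Ef_natDegree l)]; ring
  · rw [An_neg c (by rw [List.sum_cons, List.length_cons]; omega), An_neg c h, An_neg _ h]; ring

/-- the numbers `(n - 1)! / ∏ m_i!` for `∑ m_i = n - 1` -/
noncomputable def Gn (l : List ℕ) : ℂ :=
  if l.sum + 1 = l.length then wf l * ((l.length - 1).factorial : ℂ) else 0

lemma Gn_pos {l : List ℕ} (h : l.sum + 1 = l.length) :
    Gn l = wf l * ((l.length - 1).factorial : ℂ) := if_pos h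

lemma Gn_neg {l : List ℕ} (h : l.sum + 1 ≠ l.length) : Gn l = 0 := if_neg h

lemma Gn_nil : Gn [] = 0 := Gn_neg (by simp)

lemma Gn_string (l : List ℕ) : Gn (0 :: l) = der opn l Gn + (if l = [] then 1 else 0) := by
  have hw : wf (0 :: l) = wf l := by rw [wf_cons]; simp
  by_cases h0 : l = []
  · subst h0
    rw [Gn_pos (by simp), hw, wf_nil]; simp [der]
  · rw [if_neg h0, add_zero]
    by_cases h : l.sum = l.length
    · obtain ⟨k, hk⟩ : ∃ k, l.length = k + 1 :=
        Nat.exists_eq_succ_of_ne_zero (by rw [Ne, List.length_eq_zero_iff]; exact h0)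
      rw [der_opn_congr l (G := fun s => (k.factorial : ℂ) * wf s), der_smul, der_wf,
        Gn_pos (by rw [List.sum_cons, List.length_cons]; omega), hw, List.length_cons,
        Nat.add_sub_cancel, h, hk, Nat.factorial_succ]
      · push_cast; ring
      · intro s h1 h2
        rw [Gn_pos (by omega), h1, hk, Nat.add_sub_cancel]; ring
    · rw [der_opn_zero, Gn_neg (by rw [List.sum_cons, List.length_cons]; omega)]
      intro s h1 h2
      exact Gn_neg (by omega)

lemma Gn_dilaton (l : List ℕ) : Gn (1 :: l) = (l.length : ℂ) * Gn l := by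
  have hw : wf (1 :: l) = wf l := by rw [wf_cons]; simp
  by_cases h : l.sum + 1 = l.length
  · rw [Gn_pos (by rw [List.sum_cons, List.length_cons]; omega), Gn_pos h, hw, List.length_cons,
      Nat.add_sub_cancel]
    obtain ⟨k, hk⟩ : ∃ k, l.length = k + 1 := ⟨l.sum, by omega⟩
    rw [hk, Nat.add_sub_cancel, Nat.factorial_succ]; push_cast; ring
  · rw [Gn_neg (by rw [List.sum_cons, List.length_cons]; omega), Gn_neg h]; ring

open Coh in
lemma psi0_eq (l : List ℕ) : psi0 l =
    if l.sum + 3 = l.length then wf l * ((l.length - 3).factorial : ℂ) else 0 := by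
  unfold psi0 wf
  split_ifs
  · rw [div_eq_mul_inv, mul_comm]
  · rfl

open Coh in
lemma psi0_string (l : List ℕ) :
    psi0 (0 :: l) = der opn l psi0 + (if l = [0, 0] then 1 else 0) := by
  have hw : wf (0 :: l) = wf l := by rw [wf_cons]; simp
  have hp : psi0 = fun l : List ℕ =>
      if l.sum + 3 = l.length then wf l * ((l.length - 3).factorial : ℂ) else 0 := by
    funext l; exact psi0_eq l
  by_cases h0 : l = [0, 0]
  · subst h0
    rw [if_pos rfl]
    simp [der, opn_apply, psi0]
  · rw [if_neg h0, add_zero]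
    by_cases h : l.sum + 2 = l.length
    · have h3 : l.sum ≠ 0 := by
        intro h3
        apply h0
        have h4 : l.length = 2 := by omega
        obtain ⟨a, b, rfl⟩ := List.length_eq_two.mp h4
        simp at h3; simp [h3]
      obtain ⟨k, hk⟩ := Nat.exists_eq_succ_of_ne_zero h3
      rw [der_opn_congr l (G := fun s => (k.factorial : ℂ) * wf s), der_smul, der_wf, psi0_eq,
        hw, List.sum_cons, List.length_cons, if_pos (by omega),
        show l.length + 1 - 3 = k + 1 by omega, hk, Nat.succ_eq_add_one, Nat.factorial_succ]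
      · push_cast; ring
      · intro s h1 h2
        rw [psi0_eq, if_pos (by omega), show s.length - 3 = k by omega]; ring
    · rw [der_opn_zero, psi0_eq, if_neg]
      · rw [List.sum_cons, List.length_cons]; omega
      · intro s h1 h2
        rw [psi0_eq, if_neg (by omega)]

open Coh in
lemma psi0_dilaton (l : List ℕ) : psi0 (1 :: l) = ((l.length : ℂ) - 2) * psi0 l := by
  have hw : wf (1 :: l) = wf l := by rw [wf_cons]; simp
  rw [psi0_eq, psi0_eq, hw]
  by_cases h : l.sum + 3 = l.length
  · rw [if_pos (show (1 :: l).sum + 3 = (1 :: l).length by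
        rw [List.sum_cons, List.length_cons]; omega), if_pos h, List.length_cons,
      show l.length + 1 - 3 = (l.length - 3) + 1 by omega, Nat.factorial_succ]
    have : ((l.length - 3 : ℕ) : ℂ) = (l.length : ℂ) - 3 := by
      rw [Nat.cast_sub (by omega)]; norm_num
    push_cast
    rw [this]; ring
  · rw [if_neg (show ¬ ((1 :: l).sum + 3 = (1 :: l).length) by
        rw [List.sum_cons, List.length_cons]; omega), if_neg h]; ring

/-! ### Symmetry -/

lemma swap_perm {X : Type} (l : List X) (x y : X) (l' : List X) :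
    (l ++ x :: y :: l').Perm (l ++ y :: x :: l') := List.Perm.append_left l (List.Perm.swap y x l')

lemma wf_perm {l l' : List ℕ} (h : l.Perm l') : wf l = wf l' := by
  unfold wf; rw [(h.map _).prod_eq]

lemma Ef_perm {l l' : List ℕ} (h : l.Perm l') : Ef l = Ef l' := by
  unfold Ef; rw [(h.map _).prod_eq]

lemma An_perm (c : ℕ → ℂ) {l l' : List ℕ} (h : l.Perm l') : An c l = An c l' := by
  unfold An; rw [h.sum_eq, h.length_eq, wf_perm h, Ef_perm h]

lemma Gn_perm {l l' : List ℕ} (h : l.Perm l') : Gn l = Gn l' := by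
  unfold Gn; rw [h.sum_eq, h.length_eq, wf_perm h]


/-! ### Derivations of products -/

section factor

variable {ι : Type} [Fintype ι] [DecidableEq ι]

/-- a function of the descendant indices times a function of the classes -/
def FJ (F : List ℕ → ℂ) (J : List ι → ℂ) (S : List (ι × ℕ)) : ℂ :=
  F (S.map Prod.snd) * J (S.map Prod.fst)

lemma FJ_cons (F : List ℕ → ℂ) (J : List ι → ℂ) (x : ι × ℕ) (S : List (ι × ℕ)) :
    FJ F J (x :: S) = FJ (fun s => F (x.2 :: s)) (fun s => J (x.1 :: s)) S := rfl

lemma der_opT_FJ (F : List ℕ → ℂ) (J : List ι → ℂ) (S : List (ι × ℕ)) :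
    der Coh.opT S (FJ F J) = der opn (S.map Prod.snd) F * J (S.map Prod.fst) := by
  induction S generalizing F J with
  | nil => simp [der]
  | cons x S ih =>
    simp only [der, List.map_cons]
    have e : (fun s => FJ F J (x :: s)) = FJ (fun s => F (x.2 :: s)) (fun s => J (x.1 :: s)) := by
      funext s; rfl
    rw [e, ih, Coh.opT_apply, opn_apply]
    split_ifs
    · ring
    · show F ((x.2 - 1) :: S.map Prod.snd) * J (x.1 :: S.map Prod.fst) + _ = _
      ring

lemma der_opTH_FJ (D : Coh ι) (F : List ℕ → ℂ) (J J' : List ι → ℂ)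
    (hJ : ∀ L a M, ∑ c, D.H a c * J (L ++ c :: M) = J' (L ++ a :: M)) (S : List (ι × ℕ)) :
    der D.opTH S (FJ F J) = der opn (S.map Prod.snd) F * J' (S.map Prod.fst) := by
  induction S generalizing F J J' with
  | nil => simp [der]
  | cons x S ih =>
    simp only [der, List.map_cons]
    have e : (fun s => FJ F J (x :: s)) = FJ (fun s => F (x.2 :: s)) (fun s => J (x.1 :: s)) := by
      funext s; rfl
    rw [e, ih _ _ (fun s => J' (x.1 :: s)) (fun L a M => hJ (x.1 :: L) a M), Coh.opTH_apply,
      opn_apply]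
    split_ifs
    · ring
    · have h := hJ [] x.1 (S.map Prod.fst)
      simp only [List.nil_append] at h
      have h2 : ∑ c, D.H x.1 c * FJ F J ((c, x.2 - 1) :: S) =
          F ((x.2 - 1) :: S.map Prod.snd) * J' (x.1 :: S.map Prod.fst) := by
        rw [← h, Finset.mul_sum]
        apply Finset.sum_congr rfl; intro c _
        show D.H x.1 c * (F ((x.2 - 1) :: S.map Prod.snd) * J (c :: S.map Prod.fst)) = _
        ring
      rw [h2]; ring

end factor

namespace Coh

variable {ι : Type} [Fintype ι] [DecidableEq ι] {D : Coh ι}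

variable (D) in
/-- all classes are equal to `1` -/
def I0 : List ι → ℂ
  | [] => 1
  | a :: l => (if a = D.one then 1 else 0) * I0 l

variable (D) in
/-- exactly one class is equal to `h`, the others are equal to `1` -/
def I1 : List ι → ℂ
  | [] => 0
  | a :: l => (if a = D.h then 1 else 0) * D.I0 l + (if a = D.one then 1 else 0) * I1 l

lemma Good.h_ne_one (hD : D.Good) : D.h ≠ D.one := by
  intro h
  have h1 := hD.h_type.1
  rw [h, hD.one_type.1] at h1
  exact absurd h1 (by norm_num)

lemma Good.H_to_one (hD : D.Good) (a : ι) : D.H a D.one = 0 := by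
  by_contra h
  have h1 := (hD.H_type a D.one h).1
  rw [hD.one_type.1] at h1
  omega

lemma Good.H_to_h (hD : D.Good) (a : ι) : D.H a D.h = if a = D.one then 1 else 0 := by
  by_cases h : a = D.one
  · rw [if_pos h, h, hD.H_one, if_pos rfl]
  · rw [if_neg h]
    by_contra h0
    have h1 := hD.H_type a D.h h0
    have h2 := hD.h_type
    exact h (hD.type_one a (by omega))

lemma H_I0 (hD : D.Good) (L : List ι) (a : ι) (M : List ι) :
    ∑ c, D.H a c * D.I0 (L ++ c :: M) = 0 := by
  apply Finset.sum_eq_zero; intro c _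
  induction L with
  | nil =>
    simp only [List.nil_append, I0]
    split_ifs with h
    · rw [h, hD.H_to_one]; ring
    · ring
  | cons x L ih =>
    simp only [List.cons_append, I0]
    linear_combination (if x = D.one then 1 else 0) * ih

lemma H_I1 (hD : D.Good) (L : List ι) (a : ι) (M : List ι) :
    ∑ c, D.H a c * D.I1 (L ++ c :: M) = D.I0 (L ++ a :: M) := by
  induction L with
  | nil =>
    simp only [List.nil_append, I0, I1]
    have e : ∀ c, D.H a c * ((if c = D.h then 1 else 0) * D.I0 M +
        (if c = D.one then 1 else 0) * D.I1 M) =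
        if c = D.h then D.H a D.h * D.I0 M else 0 := by
      intro c
      by_cases h1 : c = D.h
      · subst h1
        rw [if_pos rfl, if_pos rfl, if_neg hD.h_ne_one]; ring
      · rw [if_neg h1, if_neg h1]
        by_cases h2 : c = D.one
        · subst h2; rw [hD.H_to_one]; ring
        · rw [if_neg h2]; ring
    rw [Finset.sum_congr rfl (fun c _ => e c)]
    rw [Finset.sum_ite_eq' Finset.univ D.h, if_pos (Finset.mem_univ _), hD.H_to_h]
  | cons x L ih =>
    simp only [List.cons_append, I0, I1]
    have e : ∀ c, D.H a c * ((if x = D.h then 1 else 0) * D.I0 (L ++ c :: M) +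
        (if x = D.one then 1 else 0) * D.I1 (L ++ c :: M)) =
        (if x = D.h then 1 else 0) * (D.H a c * D.I0 (L ++ c :: M)) +
        (if x = D.one then 1 else 0) * (D.H a c * D.I1 (L ++ c :: M)) := by intro c; ring
    rw [Finset.sum_congr rfl (fun c _ => e c), Finset.sum_add_distrib, ← Finset.mul_sum,
      ← Finset.mul_sum, ih, H_I0 hD]; ring

lemma H_int (hD : D.Good) (hI : D.IntGood) (L : List ι) (a : ι) (M : List ι) :
    ∑ c, D.H a c * D.int (L ++ c :: M) = D.int (D.h :: (L ++ a :: M)) := by
  have h1 : D.int (D.h :: (L ++ a :: M)) = kl D.par a L * D.int (D.h :: a :: (L ++ M)) := by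
    have := (hI.int_SS.cons D.h).front L a M
    exact this
  rw [h1, ← hI.int_H, Finset.mul_sum]
  apply Finset.sum_congr rfl; intro c _
  by_cases h : D.H a c = 0
  · rw [h]; ring
  · rw [hI.int_SS.front L c M, kl_congr (hD.H_par h)]; ring

variable (D) in
/-- The system of invariants: in genus zero the classical intersection numbers, in genus one
the contributions of `c_r(X)` and `c_{r-1}(X)`, in genus `g ≥ 2` the contribution of the
correlator without insertions, in positive degree zero. -/
noncomputable def sys (C : ℕ → ℂ) (g e : ℕ) : List (ι × ℕ) → ℂ :=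
  if e = 0 then
    if g = 0 then FJ psi0 D.int
    else if g = 1 then fun S =>
      D.chi / 24 * FJ (An fun s => if s = 0 then 0 else if s = 1 then 1 else
        -((s - 2).factorial : ℂ)) D.I0 S - D.hc / 24 * FJ Gn D.I1 S
    else fun S => C g * FJ (An fun s => ∏ j ∈ range s, (2 * (g : ℂ) - 3 + j)) D.I0 S
  else fun _ => 0

/-- the coefficients for genus one -/
noncomputable def c1 (s : ℕ) : ℂ :=
  if s = 0 then 0 else if s = 1 then 1 else -((s - 2).factorial : ℂ)

/-- the coefficients for genus at least two -/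
noncomputable def c2 (g s : ℕ) : ℂ := ∏ j ∈ range s, (2 * (g : ℂ) - 3 + j)

lemma sys_00 (C : ℕ → ℂ) : D.sys C 0 0 = FJ psi0 D.int := by simp [sys]

lemma sys_10 (C : ℕ → ℂ) : D.sys C 1 0 = fun S =>
    D.chi / 24 * FJ (An c1) D.I0 S - D.hc / 24 * FJ Gn D.I1 S := by
  unfold sys; rw [if_pos rfl, if_neg (by omega), if_pos rfl]; rfl

lemma sys_g0 (C : ℕ → ℂ) {g : ℕ} (hg : 2 ≤ g) :
    D.sys C g 0 = fun S => C g * FJ (An (c2 g)) D.I0 S := by
  funext S
  unfold sys
  rw [if_pos rfl, if_neg (by omega), if_neg (by omega)]; rfl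

lemma sys_pos (C : ℕ → ℂ) (g : ℕ) {e : ℕ} (he : e ≠ 0) : D.sys C g e = fun _ => 0 := by
  unfold sys; rw [if_neg he]

lemma c2_rec (g s : ℕ) : c2 g (s + 1) + (1 - (s : ℂ)) * c2 g s = (2 * (g : ℂ) - 2) * c2 g s := by
  unfold c2; rw [Finset.prod_range_succ]; ring

lemma An_smul (r : ℂ) (c : ℕ → ℂ) (l : List ℕ) : An (fun s => r * c s) l = r * An c l := by
  unfold An
  split_ifs
  · have : Lam (fun s => r * c s) l.length (Ef l) = r * Lam c l.length (Ef l) := by
      rw [Lam_apply, Lam_apply, Finset.mul_sum]
      apply Finset.sum_congr rfl; intro s _; ring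
    rw [this]; ring
  · ring

lemma An_c2 (g : ℕ) (l : List ℕ) :
    An (c2 g) (1 :: l) = (2 * (g : ℂ) - 2 + l.length) * An (c2 g) l := by
  rw [An_dilaton]
  have : (fun s : ℕ => c2 g (s + 1) + (1 - (s : ℂ)) * c2 g s) =
      fun s => (2 * (g : ℂ) - 2) * c2 g s := by funext s; exact c2_rec g s
  rw [this, An_smul]; ring

lemma Ef_coeff_zero (l : List ℕ) : (Ef l).coeff 0 = 1 := by
  induction l with
  | nil => simp [Ef_nil]
  | cons m l ih => rw [Ef_cons, Polynomial.mul_coeff_zero, ih]; simp

lemma Ef_coeff_one (l : List ℕ) : (Ef l).coeff 1 = (l.sum : ℂ) := by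
  induction l with
  | nil => simp [Ef_nil, Polynomial.coeff_one]
  | cons m l ih =>
    rw [Ef_cons, add_mul, one_mul, mul_assoc, Polynomial.coeff_add, Polynomial.coeff_C_mul,
      Polynomial.coeff_X_mul, ih, Ef_coeff_zero, List.sum_cons]; push_cast; ring

lemma An_c1 (l : List ℕ) :
    An c1 (1 :: l) = (l.length : ℂ) * An c1 l + (if l = [] then 1 else 0) := by
  rw [An_dilaton]
  congr 1
  have hc : ∀ s : ℕ, c1 (s + 1) + (1 - (s : ℂ)) * c1 s =
      if s = 0 then 1 else if s = 1 then -1 else 0 := by
    intro s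
    rcases s with _ | _ | s
    · simp [c1]
    · simp [c1]
    · unfold c1
      rw [if_neg (by omega), if_neg (by omega), if_neg (by omega), if_neg (by omega),
        if_neg (by omega), if_neg (by omega), show s + 1 + 1 + 1 - 2 = s + 1 by omega,
        show s + 1 + 1 - 2 = s by omega, Nat.factorial_succ]
      push_cast; ring
  have : (fun s : ℕ => c1 (s + 1) + (1 - (s : ℂ)) * c1 s) =
      fun s => if s = 0 then 1 else if s = 1 then -1 else 0 := by funext s; exact hc s
  rw [this]
  rcases l with _ | ⟨m, l⟩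
  · rw [An_nil, if_pos rfl, if_pos rfl]
  · rw [if_neg (by simp)]
    by_cases h : (m :: l).sum = (m :: l).length
    · rw [An_pos _ h, Lam_apply, Finset.sum_range_succ', List.length_cons,
        Finset.sum_range_succ']
      rw [Finset.sum_eq_zero]
      · simp only [zero_add, if_pos, Nat.sub_zero, Ef_coeff_zero, Ef_coeff_one, one_ne_zero,
          if_false, h, List.length_cons, Nat.add_sub_cancel, Nat.factorial_succ]
        push_cast; ring
      · intro s _
        rw [if_neg (by omega), if_neg (by omega)]; ring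
    · exact An_neg _ h

lemma FJ_SS {F : List ℕ → ℂ} {J : List ι → ℂ} (hF : ∀ l l' : List ℕ, l.Perm l' → F l = F l')
    (hJ : SS D.par J) : SS D.pr (FJ F J) := by
  intro l x y l'
  unfold FJ
  rw [hF _ _ ((swap_perm l x y l').map Prod.snd)]
  simp only [List.map_append, List.map_cons]
  rw [hJ (l.map Prod.fst) x.1 y.1 (l'.map Prod.fst)]
  have : ks D.pr x y = ks D.par x.1 y.1 := rfl
  rw [this]; ring

lemma I0_SS (hD : D.Good) : SS D.par D.I0 := by
  intro l x y l'
  induction l with
  | nil =>
    simp only [List.nil_append, I0]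
    by_cases h : x = D.one
    · rw [h, ks_even hD.par_one]; ring
    · rw [if_neg h]; ring
  | cons z l ih =>
    simp only [List.cons_append, I0]
    rw [ih]; ring

lemma I1_SS (hD : D.Good) : SS D.par D.I1 := by
  intro l x y l'
  induction l with
  | nil =>
    simp only [List.nil_append, I0, I1]
    by_cases h : x = D.one
    · rw [h, ks_even hD.par_one]; ring
    · by_cases h' : x = D.h
      · rw [h', ks_even hD.par_h]; ring
      · rw [if_neg h, if_neg h']; ring
  | cons z l ih =>
    simp only [List.cons_append, I1]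
    rw [ih, I0_SS hD]; ring

lemma I0_type (hD : D.Good) (l : List ι) (h : D.I0 l ≠ 0) :
    (l.map D.p).sum = 0 ∧ (l.map D.q).sum = 0 := by
  induction l with
  | nil => simp
  | cons a l ih =>
    simp only [I0] at h
    have h2 := ih (right_ne_zero_of_mul h)
    have h1 : a = D.one := by
      by_contra h1; rw [if_neg h1] at h; simp at h
    rw [List.map_cons, List.map_cons, List.sum_cons, List.sum_cons, h1, hD.one_type.1,
      hD.one_type.2, h2.1, h2.2]
    simp

lemma I1_type (hD : D.Good) (l : List ι) (h : D.I1 l ≠ 0) :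
    (l.map D.p).sum = 1 ∧ (l.map D.q).sum = 1 := by
  induction l with
  | nil => exact absurd rfl h
  | cons a l ih =>
    simp only [I1] at h
    rw [List.map_cons, List.map_cons, List.sum_cons, List.sum_cons]
    by_cases h1 : a = D.one
    · have h3 : a ≠ D.h := by rw [h1]; exact fun h => hD.h_ne_one h.symm
      rw [if_neg h3, if_pos h1, zero_mul, zero_add, one_mul] at h
      have := ih h
      rw [h1, hD.one_type.1, hD.one_type.2]; omega
    · by_cases h2 : a = D.h
      · rw [if_pos h2, if_neg h1, one_mul, zero_mul, add_zero] at h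
        have := I0_type hD l h
        rw [h2, hD.h_type.1, hD.h_type.2]; omega
      · rw [if_neg h1, if_neg h2] at h; simp at h

lemma sum_split (S : List (ι × ℕ)) (p : ι → ℕ) :
    (S.map fun x => (x.2 : ℤ) + (p x.1 : ℤ) - 1).sum =
      ((S.map Prod.snd).sum : ℤ) + (((S.map Prod.fst).map p).sum : ℤ) - (S.map Prod.snd).length := by
  induction S with
  | nil => simp
  | cons x S ih =>
    simp only [List.map_cons, List.sum_cons, List.length_cons] at ih ⊢
    rw [ih]; push_cast; ring

lemma An_type {c : ℕ → ℂ} {l : List ℕ} (h : An c l ≠ 0) : l.sum = l.length := by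
  by_contra h1; exact h (An_neg c h1)

lemma Gn_type {l : List ℕ} (h : Gn l ≠ 0) : l.sum + 1 = l.length := by
  by_contra h1; exact h (Gn_neg h1)

lemma psi0_type {l : List ℕ} (h : psi0 l ≠ 0) : l.sum + 3 = l.length := by
  by_contra h1; apply h; rw [psi0_eq, if_neg h1]

lemma sys_dim (hD : D.Good) (hI : D.IntGood) {C : ℕ → ℂ} (hC : D.dim = 3 ∨ ∀ g, C g = 0)
    (g e : ℕ) (S : List (ι × ℕ)) (h : D.sys C g e S ≠ 0) :
    (S.map fun x => (x.2 : ℤ) + (D.p x.1 : ℤ) - 1).sum =
      (1 - (g : ℤ)) * ((D.dim : ℤ) - 3) + D.κ * e ∧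
    (S.map fun x => (x.2 : ℤ) + (D.q x.1 : ℤ) - 1).sum =
      (1 - (g : ℤ)) * ((D.dim : ℤ) - 3) + D.κ * e := by
  rw [sum_split, sum_split]
  by_cases he : e = 0
  · subst he
    rcases g with _ | _ | g
    · rw [sys_00] at h
      have h1 := psi0_type (left_ne_zero_of_mul h)
      obtain ⟨h2, h3⟩ := hI.int_type _ (right_ne_zero_of_mul h)
      rw [h2, h3]
      push_cast
      constructor <;> linarith [(by exact_mod_cast h1 :
        (((S.map Prod.snd).sum : ℕ) : ℤ) + 3 = (S.map Prod.snd).length)]
    · rw [show (0 + 1 : ℕ) = 1 from rfl, sys_10] at h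
      by_cases h0 : FJ (An c1) D.I0 S = 0
      · have h0' : FJ Gn D.I1 S ≠ 0 := by
          intro h1; apply h; simp only [h0, h1]; ring
        have h1 := Gn_type (left_ne_zero_of_mul h0')
        obtain ⟨h2, h3⟩ := I1_type hD _ (right_ne_zero_of_mul h0')
        rw [h2, h3]
        push_cast
        constructor <;> linarith [(by exact_mod_cast h1 :
          (((S.map Prod.snd).sum : ℕ) : ℤ) + 1 = (S.map Prod.snd).length)]
      · have h1 := An_type (left_ne_zero_of_mul h0)
        obtain ⟨h2, h3⟩ := I0_type hD _ (right_ne_zero_of_mul h0)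
        rw [h2, h3]
        push_cast
        constructor <;> linarith [(by exact_mod_cast h1 :
          (((S.map Prod.snd).sum : ℕ) : ℤ) = (S.map Prod.snd).length)]
    · rw [sys_g0 C (by omega)] at h
      have h0 := right_ne_zero_of_mul h
      have hC' : D.dim = 3 := by
        rcases hC with hC | hC
        · exact hC
        · exact absurd (hC _) (left_ne_zero_of_mul h)
      have h1 := An_type (left_ne_zero_of_mul h0)
      obtain ⟨h2, h3⟩ := I0_type hD _ (right_ne_zero_of_mul h0)
      rw [h2, h3, hC']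
      push_cast
      constructor <;> linarith [(by exact_mod_cast h1 :
          (((S.map Prod.snd).sum : ℕ) : ℤ) = (S.map Prod.snd).length)]
  · rw [sys_pos C g he] at h
    exact absurd rfl h

lemma der_sub_smul {A : ((ι × ℕ) → ℂ) →ₗ[ℂ] ((ι × ℕ) → ℂ)} (S : List (ι × ℕ)) (a b : ℂ)
    (F G : List (ι × ℕ) → ℂ) :
    der A S (fun s => a * F s - b * G s) = a * der A S F - b * der A S G := by
  rw [der_sub, der_smul, der_smul]

/-- The system satisfies the axioms. -/
theorem sys_isGW (hD : D.Good) (hI : D.IntGood) {C : ℕ → ℂ} (hC : D.dim = 3 ∨ ∀ g, C g = 0) :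
    D.IsGW C (D.sys C) where
  symm := by
    intro g e
    by_cases he : e = 0
    · subst he
      rcases g with _ | _ | g
      · rw [sys_00]
        exact FJ_SS (fun _ _ => psi0_perm) hI.int_SS
      · rw [show (0 + 1 : ℕ) = 1 from rfl, sys_10]
        exact ((FJ_SS (fun _ _ => An_perm c1) (I0_SS hD)).smul _).sub
          ((FJ_SS (fun _ _ => Gn_perm) (I1_SS hD)).smul _)
      · rw [sys_g0 C (by omega)]
        exact (FJ_SS (fun _ _ => An_perm _) (I0_SS hD)).smul _
    · rw [sys_pos C g he]; exact SS.zero
  dimp := fun g e S h => (sys_dim hD hI hC g e S h).1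
  dimq := fun g e S h => (sys_dim hD hI hC g e S h).2
  string := by
    intro g e S
    show _ = dr (fun g => opT g) S _ + _
    rw [← der_eq_dr]
    by_cases he : e = 0
    · subst he
      rcases g with _ | _ | g
      · rw [sys_00, der_opT_FJ, if_pos ⟨rfl, rfl⟩]
        show psi0 (0 :: S.map Prod.snd) * D.int (D.one :: S.map Prod.fst) = _
        rw [psi0_string, hI.int_one, add_mul]
        congr 1
        rcases S with _ | ⟨x, _ | ⟨y, _ | ⟨z, l⟩⟩⟩
        · rw [pairing_nil]; simp
        · rw [pairing_one]; simp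
        · rw [pairing_two]
          simp only [List.map_cons, List.map_nil, List.cons.injEq, and_true, hI.int_two]
          split_ifs <;> ring
        · rw [pairing_three]; simp
      · rw [show (0 + 1 : ℕ) = 1 from rfl, sys_10, der_sub_smul, der_opT_FJ, der_opT_FJ,
          if_neg (by omega), add_zero]
        show D.chi / 24 * (An c1 (0 :: S.map Prod.snd) * D.I0 (D.one :: S.map Prod.fst)) -
          D.hc / 24 * (Gn (0 :: S.map Prod.snd) * D.I1 (D.one :: S.map Prod.fst)) = _
        rw [An_string, Gn_string]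
        simp only [I0, I1]
        rw [if_pos trivial, if_neg hD.h_ne_one.symm]
        rcases S with _ | ⟨x, S⟩
        · simp only [List.map_nil, I1]; ring
        · rw [if_neg (by simp)]; ring
      · rw [sys_g0 C (by omega), der_smul, der_opT_FJ, if_neg (by omega), add_zero]
        show C (g + 1 + 1) * (An (c2 (g + 1 + 1)) (0 :: S.map Prod.snd) *
          D.I0 (D.one :: S.map Prod.fst)) = _
        rw [An_string]
        simp only [I0]
        rw [if_pos trivial]; ring
    · rw [sys_pos C g he, der_zero, if_neg (by tauto), add_zero]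
  dilaton := by
    intro g e S
    by_cases he : e = 0
    · subst he
      rcases g with _ | _ | g
      · rw [sys_00, if_neg (by omega), add_zero]
        show psi0 (1 :: S.map Prod.snd) * D.int (D.one :: S.map Prod.fst) = _
        rw [psi0_dilaton, hI.int_one, List.length_map]
        unfold FJ; push_cast; ring
      · rw [show (0 + 1 : ℕ) = 1 from rfl, sys_10]
        show D.chi / 24 * (An c1 (1 :: S.map Prod.snd) * D.I0 (D.one :: S.map Prod.fst)) -
          D.hc / 24 * (Gn (1 :: S.map Prod.snd) * D.I1 (D.one :: S.map Prod.fst)) = _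
        rw [An_c1, Gn_dilaton, List.length_map]
        simp only [I0, I1]
        rw [if_pos trivial, if_neg hD.h_ne_one.symm]
        rcases S with _ | ⟨x, S⟩
        · simp [FJ, I0, I1]
        · rw [if_neg (by simp), if_neg (by simp)]; unfold FJ; push_cast; ring
      · rw [sys_g0 C (by omega), if_neg (by omega), add_zero]
        show C (g + 1 + 1) * (An (c2 (g + 1 + 1)) (1 :: S.map Prod.snd) *
          D.I0 (D.one :: S.map Prod.fst)) = _
        rw [An_c2, List.length_map]
        simp only [I0]
        rw [if_pos trivial]; unfold FJ; push_cast; ring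
    · rw [sys_pos C g he, if_neg (by tauto)]; ring
  divisor := by
    intro g e S
    show _ = _ + dr (fun g => D.opTH g) S _ + _ - _
    rw [← der_eq_dr]
    by_cases he : e = 0
    · subst he
      rcases g with _ | _ | g
      · rw [sys_00, if_pos ⟨rfl, rfl⟩, if_neg (by omega), sub_zero,
          der_opTH_FJ D psi0 D.int (fun L => D.int (D.h :: L)) (fun L a M => H_int hD hI L a M)]
        show psi0 (0 :: S.map Prod.snd) * D.int (D.h :: S.map Prod.fst) = _
        rw [psi0_string, add_mul]
        push_cast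
        rw [zero_mul, zero_add]
        congr 1
        have hp : ∀ x y, (D.H * D.η) x y = D.int [D.h, x, y] := by
          intro x y
          rw [Matrix.mul_apply, ← hI.int_H]
          apply Finset.sum_congr rfl; intro z _
          rw [hI.int_two]
        rcases S with _ | ⟨x, _ | ⟨y, _ | ⟨z, l⟩⟩⟩
        · rw [pairing_nil]; simp
        · rw [pairing_one]; simp
        · rw [pairing_two]
          simp only [List.map_cons, List.map_nil, List.cons.injEq, and_true, hp]
          split_ifs <;> ring
        · rw [pairing_three]; simp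
      · rw [show (0 + 1 : ℕ) = 1 from rfl, sys_10, der_sub_smul,
          der_opTH_FJ D (An c1) D.I0 (fun _ => 0) (fun L a M => H_I0 hD L a M),
          der_opTH_FJ D Gn D.I1 D.I0 (fun L a M => H_I1 hD L a M), if_neg (by omega)]
        show D.chi / 24 * (An c1 (0 :: S.map Prod.snd) * D.I0 (D.h :: S.map Prod.fst)) -
          D.hc / 24 * (Gn (0 :: S.map Prod.snd) * D.I1 (D.h :: S.map Prod.fst)) = _
        rw [Gn_string]
        simp only [I0, I1]
        rw [if_pos trivial, if_neg hD.h_ne_one]
        rcases S with _ | ⟨x, S⟩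
        · simp [I0, der]
        · rw [if_neg (by simp), if_neg (by simp)]; push_cast; ring
      · rw [sys_g0 C (by omega), der_smul,
          der_opTH_FJ D (An (c2 (g + 1 + 1))) D.I0 (fun _ => 0) (fun L a M => H_I0 hD L a M),
          if_neg (by omega), if_neg (by omega)]
        show C (g + 1 + 1) * (An (c2 (g + 1 + 1)) (0 :: S.map Prod.snd) *
          D.I0 (D.h :: S.map Prod.fst)) = _
        simp only [I0]
        rw [if_neg hD.h_ne_one]; push_cast; ring
    · rw [sys_pos C g he, der_zero, if_neg (by tauto), if_neg (by tauto)]; ring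
  deg0 := by
    intro S; rw [sys_00]; rfl
  gen1 := by
    rw [sys_10]; simp [FJ, An_nil, c1, Gn_nil]
  gen2 := by
    intro g hg
    rw [sys_g0 C hg]; simp [FJ, An_nil, c2, I0]

end Coh

end Vale.Agent.P269.H598
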