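import Vale.Agent.P269.H598.Vir

/-!
Homogeneity and supersymmetry of the Virasoro expressions, vanishing by dimension and the
string equation; the constraint `L_0`.
-/

set_option linter.unusedSectionVars false

namespace Vale.Agent.P269.H598

open Finset

section hom

variable {X : Type}

/-- homogeneity of a function of lists with respect to a weight of the insertions -/
def Hom (w : X → ℤ) (F : List X → ℂ) (c : ℤ) : Prop := ∀ S, F S ≠ 0 → (S.map w).sum = c

lemma Hom.eq_zero {w : X → ℤ} {F : List X → ℂ} {c : ℤ} (h : Hom w F c) {S : List X}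
    (hS : (S.map w).sum ≠ c) : F S = 0 := by
  by_contra h0; exact hS (h S h0)

lemma Hom.cons {w : X → ℤ} {F : List X → ℂ} {c : ℤ} (h : Hom w F c) (x : X) :
    Hom w (fun s => F (x :: s)) (c - w x) := by
  intro S hS
  have := h (x :: S) hS
  simp only [List.map_cons, List.sum_cons] at this
  omega

lemma der_hom {w : X → ℤ} {A : (X → ℂ) →ₗ[ℂ] (X → ℂ)} {s : ℤ}
    (hA : ∀ (g : X → ℂ) (x : X), (∀ y, w y = w x + s → g y = 0) → A g x = 0)
    {F : List X → ℂ} {c : ℤ} (hF : Hom w F c) : Hom w (fun S => der A S F) (c - s) := by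
  intro S
  contrapose!
  intro hS
  induction S generalizing F c with
  | nil => rfl
  | cons x l ih =>
    simp only [der]
    simp only [List.map_cons, List.sum_cons] at hS
    rw [hA, zero_add]
    · exact ih (hF.cons x) (by omega)
    · intro y hy
      apply hF.eq_zero
      simp only [List.map_cons, List.sum_cons]
      omega

lemma shuf_ne_zero {par : X → Bool} (w : X → ℤ) (l : List X) (Φ : List X → List X → ℂ)
    (h : shuf par l Φ ≠ 0) :
    ∃ I J, Φ I J ≠ 0 ∧ (I.map w).sum + (J.map w).sum = (l.map w).sum := by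
  induction l generalizing Φ with
  | nil => exact ⟨[], [], h, by simp⟩
  | cons x l ih =>
    simp only [shuf] at h
    by_cases h1 : shuf par l (fun I J => Φ (x :: I) J) = 0
    · rw [h1, zero_add] at h
      obtain ⟨I, J, h2, h3⟩ := ih _ h
      refine ⟨I, x :: J, right_ne_zero_of_mul h2, ?_⟩
      simp only [List.map_cons, List.sum_cons]; omega
    · obtain ⟨I, J, h2, h3⟩ := ih _ h1
      refine ⟨x :: I, J, h2, ?_⟩
      simp only [List.map_cons, List.sum_cons]; omega

lemma der_length {A : (X → ℂ) →ₗ[ℂ] (X → ℂ)} {F : List X → ℂ} (n : ℕ)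
    (hF : ∀ S, S.length = n → F S = 0) (S : List X) (hS : S.length = n) : der A S F = 0 := by
  induction S generalizing F n with
  | nil => rfl
  | cons x l ih =>
    simp only [der]
    simp only [List.length_cons] at hS
    have e1 : (fun y => F (y :: l)) = fun _ => 0 := by
      funext y; exact hF _ (by simp only [List.length_cons]; exact hS)
    rw [e1, A_zero, zero_add]
    exact ih (n - 1) (fun S hS' => hF _ (by simp only [List.length_cons]; omega)) (by omega)

lemma exists_neg (w : X → ℤ) (S : List X) (h : (S.map w).sum < 0) : ∃ x ∈ S, w x < 0 := by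
  by_contra hc
  push Not at hc
  have : 0 ≤ (S.map w).sum := by
    apply List.sum_nonneg
    intro y hy
    obtain ⟨x, hx, rfl⟩ := List.mem_map.mp hy
    exact hc x hx
  omega

end hom

namespace Coh

variable {ι : Type} [Fintype ι] [DecidableEq ι] {D : Coh ι}

variable (D) in
/-- twice the complex degree of an insertion minus one -/
def wt (x : ι × ℕ) : ℤ := 2 * (x.2 : ℤ) + D.p x.1 + D.q x.1 - 2

lemma Axioms.hom {inv : ℕ → ℕ → List (ι × ℕ) → ℂ} (h : D.Axioms inv) (g e : ℕ) :
    Hom D.wt (inv g e) (2 * ((1 - (g : ℤ)) * ((D.dim : ℤ) - 3) + D.κ * e)) := by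
  intro S hS
  have h1 := h.dimp g e S hS
  have h2 := h.dimq g e S hS
  have h3 : (S.map D.wt).sum = (S.map fun x => (x.2 : ℤ) + (D.p x.1 : ℤ) - 1).sum +
      (S.map fun x => (x.2 : ℤ) + (D.q x.1 : ℤ) - 1).sum := by
    rw [← List.sum_map_add]
    congr 1
    apply List.map_congr_left
    intro x _
    unfold wt; ring
  rw [h3, h1, h2]; ring

lemma opA_hom (hD : D.Good) (K : ℕ) (g : (ι × ℕ) → ℂ) (x : ι × ℕ)
    (h : ∀ y, D.wt y = D.wt x + 2 * ((K : ℤ) - 1) → g y = 0) : D.opA K g x = 0 := by
  rw [opA_apply]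
  apply Finset.sum_eq_zero
  intro i _
  by_cases h1 : i + 1 ≤ x.2 + K
  · rw [if_pos h1]
    rw [Finset.sum_eq_zero, mul_zero]
    intro c _
    by_cases h2 : (D.R ^ i) x.1 c = 0
    · rw [h2, zero_mul]
    · rw [h (c, x.2 + K - 1 - i), mul_zero]
      obtain ⟨h3, h4⟩ := hD.Rpow_type i h2
      unfold wt
      simp only
      have : ((x.2 + K - 1 - i : ℕ) : ℤ) = (x.2 : ℤ) + K - 1 - i := by omega
      rw [this, h3, h4]; push_cast; ring
  · rw [if_neg h1]

lemma lin_hom (hD : D.Good) (K : ℕ) {G : List (ι × ℕ) → ℂ} {c : ℤ} (hG : Hom D.wt G c) :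
    Hom D.wt (D.lin K G) (c - 2 * ((K : ℤ) - 1)) := by
  intro S
  contrapose!
  intro hS
  rw [lin_der]
  have h1 := der_hom (opA_hom hD K) hG
  have h2 : der (D.opA K) S G = 0 := h1.eq_zero hS
  rw [h2, opA_hom hD K, sub_zero]
  intro y hy
  apply hG.eq_zero
  simp only [List.map_cons, List.sum_cons]
  have h3 : D.wt (D.one, 1) = 0 := by
    obtain ⟨h4, h5⟩ := hD.one_type
    unfold wt; simp only [h4, h5]; norm_num
  rw [hy, h3]
  intro h6
  apply hS
  omega

lemma Good.BS_wt (hD : D.Good) (K : ℕ) {f : (ι × ℕ) → (ι × ℕ) → ℂ}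
    (h : ∀ x y : ι × ℕ, D.wt x + D.wt y = 2 * ((K : ℤ) - 4 + D.dim) → f x y = 0) :
    D.BS K f = 0 := by
  rw [← BS_zero (D := D) K]
  apply hD.BS_congr
  intro i x y h1 _ h3
  apply h
  unfold wt
  have h4 : (D.p x.1 : ℤ) + D.p y.1 = D.dim + i := by exact_mod_cast h3.1
  have h5 : (D.q x.1 : ℤ) + D.q y.1 = D.dim + i := by exact_mod_cast h3.2
  have h6 : (i : ℤ) + x.2 + y.2 + 2 = K := by exact_mod_cast h1
  linear_combination h4 + h5 + 2 * h6

lemma quad1_hom (hD : D.Good) (K : ℕ) {G : List (ι × ℕ) → ℂ} {c : ℤ} (hG : Hom D.wt G c) :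
    Hom D.wt (D.quad1 K G) (c - 2 * ((K : ℤ) - 4 + D.dim)) := by
  intro S
  contrapose!
  intro hS
  unfold quad1
  rw [hD.BS_wt K, mul_zero]
  intro x y hxy
  apply hG.eq_zero
  simp only [List.map_cons, List.sum_cons]
  intro h1
  apply hS
  omega

lemma quad2_hom (hD : D.Good) (K : ℕ) {G G' : List (ι × ℕ) → ℂ} {c c' : ℤ}
    (hG : Hom D.wt G c) (hG' : Hom D.wt G' c') :
    Hom D.wt (D.quad2 K G G') (c + c' - 2 * ((K : ℤ) - 4 + D.dim)) := by
  intro S
  contrapose!
  intro hS
  unfold quad2
  rw [hD.BS_wt K, mul_zero]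
  intro x y hxy
  by_contra h0
  obtain ⟨I, J, h1, h2⟩ := shuf_ne_zero D.wt _ _ h0
  have h3 := right_ne_zero_of_mul h1
  have h4 := hG _ (left_ne_zero_of_mul h3)
  have h5 := hG' _ (right_ne_zero_of_mul h3)
  simp only [List.map_cons, List.sum_cons] at h4 h5
  apply hS
  omega

lemma quad0_hom (hD : D.Good) (K : ℕ) :
    Hom D.wt (pairing (D.R ^ K * D.η)) (2 * ((D.dim : ℤ) - 2 - K)) := by
  intro S hS
  rcases S with _ | ⟨x, S⟩
  · exact absurd rfl hS
  · obtain ⟨w, rfl, hw⟩ := pairing_cons_ne _ hS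
    rw [pairing_two] at hS
    by_cases h0 : x.2 = 0 ∧ w.2 = 0
    · rw [Matrix.mul_apply] at hw
      obtain ⟨e, _, he⟩ := Finset.exists_ne_zero_of_sum_ne_zero hw
      have h1 := hD.Rpow_type K (left_ne_zero_of_mul he)
      have h2 := hD.η_type _ _ (right_ne_zero_of_mul he)
      simp only [List.map_cons, List.sum_cons, List.map_nil, List.sum_nil]
      unfold wt
      omega
    · rw [if_neg h0] at hS; exact absurd rfl hS

lemma vir_hom (hD : D.Good) {inv : ℕ → ℕ → List (ι × ℕ) → ℂ} (h : D.Axioms inv)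
    (K g e : ℕ) : Hom D.wt (D.vir inv K g e)
      (2 * ((1 - (g : ℤ)) * ((D.dim : ℤ) - 3) + D.κ * e - K + 1)) := by
  intro S
  contrapose!
  intro hS
  unfold vir
  have h1 : D.lin K (inv g e) S = 0 := by
    apply (lin_hom hD K (h.hom g e)).eq_zero
    intro h'; apply hS; rw [h']; ring
  have h2 : (if g = 0 then 0 else D.quad1 K (inv (g - 1) e) S) = 0 := by
    split_ifs with hg
    · rfl
    · apply (quad1_hom hD K (h.hom (g - 1) e)).eq_zero
      intro h'; apply hS; rw [h']
      have : ((g - 1 : ℕ) : ℤ) = (g : ℤ) - 1 := by omega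
      rw [this]; ring
  have h3 : (∑ gg ∈ antidiagonal g, ∑ ee ∈ antidiagonal e,
      D.quad2 K (inv gg.1 ee.1) (inv gg.2 ee.2) S) = 0 := by
    apply Finset.sum_eq_zero; intro gg hgg
    apply Finset.sum_eq_zero; intro ee hee
    apply (quad2_hom hD K (h.hom gg.1 ee.1) (h.hom gg.2 ee.2)).eq_zero
    intro h'; apply hS; rw [h']
    have e1 : (g : ℤ) = gg.1 + gg.2 := by
      exact_mod_cast (Finset.HasAntidiagonal.mem_antidiagonal.mp hgg).symm
    have e2 : (e : ℤ) = ee.1 + ee.2 := by
      exact_mod_cast (Finset.HasAntidiagonal.mem_antidiagonal.mp hee).symm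
    rw [e1, e2]; ring
  have h4 : (if g = 0 ∧ e = 0 then pairing (D.R ^ K * D.η) S else 0) = 0 := by
    split_ifs with hge
    · apply (quad0_hom hD K).eq_zero
      intro h'; apply hS; rw [h', hge.1, hge.2]; push_cast; ring
    · rfl
  have h5 : D.scal K g e S = 0 := by
    unfold scal
    split_ifs with hc
    · exfalso
      apply hS
      obtain ⟨rfl, rfl, rfl, rfl⟩ := hc
      simp
    · rfl
  rw [h1, h2, h3, h4, h5]; ring

lemma BS_SS (K : ℕ) {F : (ι × ℕ) → (ι × ℕ) → List (ι × ℕ) → ℂ}
    (h : ∀ x y, SS D.pr (F x y)) : SS D.pr (fun l => D.BS K (fun x y => F x y l)) := by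
  intro l a c l'
  show D.BS K (fun x y => F x y (l ++ a :: c :: l')) =
    ks D.pr a c * D.BS K (fun x y => F x y (l ++ c :: a :: l'))
  have e : (fun x y => F x y (l ++ a :: c :: l')) =
      fun x y => ks D.pr a c * F x y (l ++ c :: a :: l') := by
    funext x y; exact h x y l a c l'
  rw [e, BS_smul]

lemma vir_SS (hD : D.Good) {inv : ℕ → ℕ → List (ι × ℕ) → ℂ} (h : D.Axioms inv)
    (K g e : ℕ) : SS D.pr (D.vir inv K g e) := by
  have h1 : SS D.pr (D.lin K (inv g e)) := by
    rw [lin_fun]
    apply SS.sub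
    · exact SS.der (opA_even hD K) (h.symm g e)
    · exact SS.op (D.one, 1) (fun y => (h.symm g e).cons y)
  have h2 : SS D.pr (fun S => if g = 0 then 0 else D.quad1 K (inv (g - 1) e) S) := by
    by_cases hg : g = 0
    · simp only [if_pos hg]; exact SS.zero
    · simp only [if_neg hg]
      unfold quad1
      exact SS.smul _ (BS_SS K fun x y => ((h.symm (g - 1) e).cons x).cons y)
  have h3 : SS D.pr (fun S => ∑ gg ∈ antidiagonal g, ∑ ee ∈ antidiagonal e,
      D.quad2 K (inv gg.1 ee.1) (inv gg.2 ee.2) S) := by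
    apply SS.sum; intro gg _
    apply SS.sum; intro ee _
    unfold quad2
    apply SS.smul
    apply BS_SS K
    intro x y
    apply shuf_SS
    · intro J
      apply SS.kl_mul
      have : (fun l => inv gg.1 ee.1 (x :: l) * inv gg.2 ee.2 (y :: J)) =
          fun l => inv gg.2 ee.2 (y :: J) * inv gg.1 ee.1 (x :: l) := by
        funext l; ring
      rw [this]
      exact ((h.symm _ _).cons x).smul _
    · intro I
      exact (((h.symm _ _).cons y).smul _).smul _
  have h4 : SS D.pr (fun S => if g = 0 ∧ e = 0 then pairing (D.R ^ K * D.η) S else 0) := by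
    by_cases hg : g = 0 ∧ e = 0
    · simp only [if_pos hg]
      exact pairing_SS (hD.Rpowη_symm K)
    · simp only [if_neg hg]; exact SS.zero
  have h5 : SS D.pr (D.scal K g e) := by
    intro l x y l'
    simp [scal]
  intro l x y l'
  have t1 := h1 l x y l'
  have t2 := h2 l x y l'
  have t3 := h3 l x y l'
  have t4 := h4 l x y l'
  have t5 := h5 l x y l'
  beta_reduce at t2 t3 t4
  unfold vir
  rw [t1, t2, t3, t4, t5]; ring

/-- A supersymmetric solution of the homogeneous string equation of negative degree is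
zero. -/
lemma vanish (hD : D.Good) {F : List (ι × ℕ) → ℂ} (hF : SS D.pr F) {c : ℤ}
    (hH : Hom D.wt F c) (hc : c < 0) (hs : ∀ S, D.defect F S = 0) (S : List (ι × ℕ)) :
    F S = 0 := by
  have key : ∀ (n : ℕ) (S : List (ι × ℕ)), S.length = n → F S = 0 := by
    intro n
    induction n using Nat.strong_induction_on with
    | _ n ih =>
      intro S hn
      by_contra h0
      have h1 := hH S h0
      obtain ⟨x, hx, hw⟩ := exists_neg D.wt S (by omega)
      have hx2 : x.2 = 0 := by unfold wt at hw; omega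
      have hx1 : x.1 = D.one := by
        apply hD.type_one
        unfold wt at hw; omega
      obtain ⟨l, l', rfl⟩ := List.append_of_mem hx
      rw [hF.front] at h0
      apply right_ne_zero_of_mul h0
      have hx3 : x = (D.one, 0) := by ext <;> simp [hx1, hx2]
      have h2 := hs (l ++ l')
      unfold defect at h2
      rw [hx3]
      have h3 : der opT (l ++ l') F = 0 := by
        apply der_length (n - 1)
        · intro S hS
          exact ih (n - 1) (by simp at hn; omega) S hS
        · simp at hn ⊢; omega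
      rw [h3, sub_zero] at h2
      exact h2
  exact key S.length S rfl

/-- Vanishing by dimension of the Virasoro constraints `L_k`, `k = K - 1 ≥ 1`. -/
theorem vir_step (hD : D.Good) {inv : ℕ → ℕ → List (ι × ℕ) → ℂ} (h : D.Axioms inv)
    (K g e : ℕ) (h0 : ∀ S, D.vir inv K g e S = 0)
    (hdim : (1 - (g : ℤ)) * ((D.dim : ℤ) - 3) + D.κ * e < K) (S : List (ι × ℕ)) :
    D.vir inv (K + 1) g e S = 0 := by
  apply vanish hD (vir_SS hD h (K + 1) g e) (vir_hom hD h (K + 1) g e) (by push_cast; omega)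
  intro S
  rw [vir_defect hD h, h0, mul_zero]

lemma der_diag {X : Type} (f : X → ℂ) (A : (X → ℂ) →ₗ[ℂ] (X → ℂ))
    (hA : ∀ g x, A g x = f x * g x) (S : List X) (G : List X → ℂ) :
    der A S G = (S.map f).sum * G S := by
  induction S generalizing G with
  | nil => simp [der]
  | cons x l ih =>
    simp only [der, ih, hA, List.map_cons, List.sum_cons]; ring

variable (D) in
/-- diagonal operator -/
noncomputable def opD : ((ι × ℕ) → ℂ) →ₗ[ℂ] ((ι × ℕ) → ℂ) where
  toFun g x := (D.b x.1 + x.2) * g x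
  map_add' g g' := by funext x; simp only [Pi.add_apply]; ring
  map_smul' r g := by
    funext x; simp only [Pi.smul_apply, smul_eq_mul, RingHom.id_apply]; ring

lemma opA_one : D.opA 1 = D.opD + (D.κ : ℂ) • D.opTH := by
  apply LinearMap.ext; intro g; funext x
  rw [opA_apply]
  simp only [LinearMap.add_apply, LinearMap.smul_apply, Pi.add_apply, Pi.smul_apply, smul_eq_mul,
    opTH_apply]
  rw [Finset.sum_range_succ, Finset.sum_range_one, if_pos (by omega)]
  congr 1
  · rw [br_one_zero, pow_zero]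
    simp [Matrix.one_apply, opD]
  · by_cases hx : x.2 = 0
    · rw [if_neg (by omega), if_pos hx, mul_zero]
    · rw [if_pos (by omega), if_neg hx, br_self, one_mul, pow_one, Finset.mul_sum]
      apply Finset.sum_congr rfl
      intro c _
      have : x.2 + 1 - 1 - 1 = x.2 - 1 := by omega
      rw [this]
      simp only [R, Matrix.smul_apply, smul_eq_mul]; ring

/-- The constraint `L_0`, from the dilaton, divisor and dimension axioms and the
Libgober-Wood identity. -/
theorem vir_one (hD : D.Good) {inv : ℕ → ℕ → List (ι × ℕ) → ℂ} (h : D.Axioms inv)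
    (hLW : D.chi / 16 - D.str (fun a => D.μ a ^ 2) / 4 =
      ((3 - (D.dim : ℂ)) * D.chi - 2 * D.κ * D.hc) / 48)
    (g e : ℕ) (S : List (ι × ℕ)) : D.vir inv 1 g e S = 0 := by
  unfold vir
  have e1 : D.quad1 1 (inv (g - 1) e) S = 0 := by unfold quad1 BS; simp
  have e2 : ∀ gg ee : ℕ × ℕ, D.quad2 1 (inv gg.1 ee.1) (inv gg.2 ee.2) S = 0 := by
    intro gg ee; unfold quad2 BS; simp
  simp only [e1, e2, Finset.sum_const_zero, ite_self, add_zero]
  rw [lin_der]
  rw [opA_one, der_opadd, der_opsmul]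
  have e3 : der D.opD S (inv g e) = (S.map fun x => D.b x.1 + x.2).sum * inv g e S :=
    der_diag _ _ (fun g x => rfl) S _
  rw [e3, LinearMap.add_apply, Pi.add_apply, LinearMap.smul_apply, Pi.smul_apply, smul_eq_mul]
  have e4 : D.opD (fun y => inv g e (y :: S)) (D.one, 1) =
      ((3 - (D.dim : ℂ)) / 2) * inv g e ((D.one, 1) :: S) := by
    have : D.b D.one = (1 - (D.dim : ℂ)) / 2 := by
      rw [b_def, hD.one_type.1]; push_cast; ring
    show (D.b D.one + ((1 : ℕ) : ℂ)) * inv g e ((D.one, 1) :: S) = _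
    rw [this]; push_cast; ring
  have e5 : D.opTH (fun y => inv g e (y :: S)) (D.one, 1) = inv g e ((D.h, 0) :: S) := by
    rw [opTH_apply, if_neg (by simp)]
    simp only [hD.H_one]
    simp
  rw [e4, e5, h.dilaton, h.divisor', pow_one]
  have e6 : (if g = 0 ∧ e = 0 then pairing (D.R * D.η) S else 0) =
      (D.κ : ℂ) * (if g = 0 ∧ e = 0 then pairing (D.H * D.η) S else 0) := by
    have : pairing (D.R * D.η) S = (D.κ : ℂ) * pairing (D.H * D.η) S := by
      rcases S with _ | ⟨x, _ | ⟨y, _ | ⟨z, l⟩⟩⟩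
      · simp [pairing_nil]
      · simp [pairing_one]
      · simp only [pairing_two, R, Matrix.smul_mul, Matrix.smul_apply, smul_eq_mul]
        split_ifs <;> ring
      · simp [pairing_three]
    rw [this]; split_ifs <;> ring
  rw [e6]
  have e7 : D.scal 1 g e S = if g = 1 ∧ e = 0 ∧ S = [] then
      ((3 - (D.dim : ℂ)) * D.chi - 2 * D.κ * D.hc) / 48 else 0 := by
    unfold scal
    rw [hLW]; simp
  rw [e7]
  have e8 : ((S.map fun x => D.b x.1 + x.2).sum - (3 - (D.dim : ℂ)) / 2 *
      (2 * (g : ℂ) - 2 + S.length) - D.κ * e) * inv g e S = 0 := by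
    by_cases h0 : inv g e S = 0
    · rw [h0, mul_zero]
    · have h1 := h.dimp g e S h0
      have h2 : (S.map fun x => D.b x.1 + (x.2 : ℂ)).sum =
          ((S.map fun x => (x.2 : ℤ) + (D.p x.1 : ℤ) - 1).sum : ℤ) +
            (S.length : ℂ) * ((3 - (D.dim : ℂ)) / 2) := by
        clear h1 h0 e1 e3 e4 e5 e6 e7 e2
        induction S with
        | nil => simp
        | cons x l ih =>
          simp only [List.map_cons, List.sum_cons, List.length_cons]
          rw [ih, b_def]; push_cast; ring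
      rw [h2, h1]; push_cast; ring
  split_ifs <;> linear_combination e8

end Coh

end Vale.Agent.P269.H598
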