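import Vale.Agent.P269.H598.Numeric
import Vale.Agent.P269.H598.Vanish

/-!
The genus zero, degree zero constraint reduced to the numerical identity: numerical part.
-/

set_option linter.unusedSectionVars false

namespace Vale.Agent.P269.H598

open Finset

/-- product of the factorials of the descendant indices -/
noncomputable def fact (m : List ℕ) : ℂ := ((m.map Nat.factorial).prod : ℕ)

lemma fact_cons (a : ℕ) (m : List ℕ) : fact (a :: m) = (a.factorial : ℂ) * fact m := by
  simp [fact]

lemma fact_ne (m : List ℕ) : fact m ≠ 0 := by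
  induction m with
  | nil => simp [fact]
  | cons a m ih =>
    rw [fact_cons]
    exact mul_ne_zero (by exact_mod_cast Nat.factorial_ne_zero a) ih

lemma fact_append (m m' : List ℕ) : fact (m ++ m') = fact m * fact m' := by
  simp [fact]

open Coh in
lemma psi0_perm {m m' : List ℕ} (h : m.Perm m') : psi0 m = psi0 m' := by
  unfold psi0
  rw [h.sum_eq, h.length_eq, (h.map _).prod_eq]

open Coh in
lemma psi0_short {m : List ℕ} (h : m.length < 3) : psi0 m = 0 := by
  unfold psi0
  rw [if_neg (by omega)]

open Coh in
lemma psi_ff (a : ℕ) {m : List ℕ} (h : 2 ≤ m.length) :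
    fact m * psi0 (a :: m) =
      if a + m.sum + 2 = m.length then ff ((m.length : ℂ) - 2) m.sum else 0 := by
  unfold psi0
  simp only [List.sum_cons, List.length_cons, List.map_cons, List.prod_cons]
  by_cases h1 : a + m.sum + 2 = m.length
  · rw [if_pos (by omega), if_pos h1]
    have h2 : ((m.length : ℂ) - 2) = ((m.length - 2 : ℕ) : ℂ) := by
      rw [Nat.cast_sub h]; push_cast; ring
    rw [h2, ff_nat (by omega)]
    have h3 : m.length - 2 - m.sum = a := by omega
    have h4 : m.length + 1 - 3 = m.length - 2 := by omega
    rw [h3, h4]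
    have h5 := fact_ne m
    have h6 : ((a.factorial : ℕ) : ℂ) ≠ 0 := by exact_mod_cast Nat.factorial_ne_zero a
    have h7 : (((m.map Nat.factorial).prod : ℕ) : ℂ) = fact m := rfl
    push_cast at h7 ⊢
    rw [h7]
    field_simp
  · rw [if_neg (by omega), if_neg h1, mul_zero]

/-- numerical version of the linear operator -/
noncomputable def opB (d : ℂ) (K i : ℕ) : ((ℂ × ℕ) → ℂ) →ₗ[ℂ] ((ℂ × ℕ) → ℂ) where
  toFun g x := if i + 1 ≤ x.2 + K then
    br K i (x.1 + (1 - d) / 2 + x.2) * g (x.1, x.2 + K - 1 - i) else 0
  map_add' g g' := by funext x; simp only [Pi.add_apply]; split_ifs <;> ring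
  map_smul' r g := by
    funext x; simp only [Pi.smul_apply, smul_eq_mul, RingHom.id_apply]; split_ifs <;> ring

lemma opB_apply (d : ℂ) (K i : ℕ) (g : (ℂ × ℕ) → ℂ) (x : ℂ × ℕ) :
    opB d K i g x = if i + 1 ≤ x.2 + K then
    br K i (x.1 + (1 - d) / 2 + x.2) * g (x.1, x.2 + K - 1 - i) else 0 := rfl

open Coh in
/-- contribution of the splittings with one element in the first part -/
noncomputable def P1 (d : ℂ) (K i : ℕ) (M : List ℕ) : List (ℂ × ℕ) → List (ℂ × ℕ) → ℂ
  | [x], J => if i + 1 ≤ x.2 + K then
      br K i (x.1 + (1 - d) / 2 + x.2) * psi0 ((x.2 + K - 1 - i) :: (M ++ J.map Prod.snd)) else 0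
  | _, _ => 0

open Coh in
lemma ush_P1 (d : ℂ) (K i : ℕ) (l : List (ℂ × ℕ)) (M : List ℕ) :
    ush l (P1 d K i M) = der (opB d K i) l (fun s => psi0 (M ++ s.map Prod.snd)) := by
  induction l generalizing M with
  | nil => rfl
  | cons x l ih =>
    rw [ush_cons]
    simp only [der]
    congr 1
    · unfold ush
      rw [shuf_nil_left]
      · rw [opB_apply]
        simp only [P1, List.map_cons]
        split_ifs
        · congr 1
          apply psi0_perm
          exact List.perm_middle.symm
        · rfl
      · intro y I J; rfl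
    · have e1 : (fun I J => P1 d K i M I (x :: J)) = P1 d K i (M ++ [x.2]) := by
        funext I J
        rcases I with _ | ⟨y, _ | ⟨z, I⟩⟩
        · rfl
        · simp [P1]
        · rfl
      rw [e1, ih]
      congr 1; funext s
      simp

lemma ush_comm (l : List (ℂ × ℕ)) (Φ : List (ℂ × ℕ) → List (ℂ × ℕ) → ℂ) :
    ush l (fun I J => Φ J I) = ush l Φ := by
  induction l generalizing Φ with
  | nil => rfl
  | cons x l ih =>
    rw [ush_cons, ush_cons, ih (fun I J => Φ I (x :: J)), ih (fun I J => Φ (x :: I) J)]
    ring

lemma ush_congr (l : List (ℂ × ℕ)) {Φ Ψ : List (ℂ × ℕ) → List (ℂ × ℕ) → ℂ}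
    (h : ∀ I J, (I ++ J).Perm l → Φ I J = Ψ I J) : ush l Φ = ush l Ψ := by
  induction l generalizing Φ Ψ with
  | nil => exact h [] [] (List.Perm.refl _)
  | cons x l ih =>
    rw [ush_cons, ush_cons]
    congr 1
    · apply ih
      intro I J hIJ
      exact h _ _ (hIJ.cons x)
    · apply ih
      intro I J hIJ
      exact h _ _ (List.perm_middle.trans (hIJ.cons x))

lemma ush_add (l : List (ℂ × ℕ)) (Φ Ψ : List (ℂ × ℕ) → List (ℂ × ℕ) → ℂ) :
    ush l (fun I J => Φ I J + Ψ I J) = ush l Φ + ush l Ψ := shuf_add l Φ Ψ

lemma ush_smul (l : List (ℂ × ℕ)) (c : ℂ) (Φ : List (ℂ × ℕ) → List (ℂ × ℕ) → ℂ) :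
    ush l (fun I J => c * Φ I J) = c * ush l Φ := shuf_smul l c Φ

/-- contribution of the splitting with empty first part -/
noncomputable def P0 (c : ℂ) : List (ℂ × ℕ) → List (ℂ × ℕ) → ℂ
  | [], _ => c
  | _, _ => 0

lemma ush_P0 (c : ℂ) (l : List (ℂ × ℕ)) : ush l (P0 c) = c := by
  unfold ush
  rw [shuf_nil_left]
  · rfl
  · intro y I J; rfl

open Coh in
/-- the quadratic part -/
noncomputable def P2 (d : ℂ) (K i : ℕ) (I J : List (ℂ × ℕ)) : ℂ :=
  if i < K - 1 then ∑ mn ∈ antidiagonal (K - 2 - i), (-1) ^ (mn.1 + 1) *
    (br K i (sp I - (1 + d) / 2 - mn.1) * (psi0 (mn.1 :: I.map Prod.snd) *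
      psi0 (mn.2 :: J.map Prod.snd))) else 0

/-- symmetry of the summand -/
lemma th_symm (K i : ℕ) (I J : List (ℂ × ℕ))
    (h : i + (I.length + J.length) = sm I + sm J + K + 2) :
    th K i I J = th K i J I := by
  unfold th
  have h' : (i : ℂ) + ((I.length : ℂ) + J.length) = sm I + sm J + K + 2 := by exact_mod_cast h
  have e1 : (sp I - sp J) / 2 - (1 + (i : ℂ)) / 2 - I.length + 2 + sm I =
      1 - K - ((sp J - sp I) / 2 - (1 + (i : ℂ)) / 2 - J.length + 2 + sm J) := by
    linear_combination -h'
  rw [e1, br_reflect]
  have e2 : (-1 : ℂ) ^ (I.length + sm I + 1) * (-1) ^ (K + i) = (-1) ^ (J.length + sm J + 1) := by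
    rw [← pow_add]
    have e3 : ∃ t, I.length + sm I + 1 + (K + i) + 2 * t = J.length + sm J + 1 + 2 * t + 2 * 0 ∨
      True := ⟨0, Or.inr trivial⟩
    rcases Nat.even_or_odd (I.length + sm I + 1 + (K + i)) with he | he
    · have : Even (J.length + sm J + 1) := by
        obtain ⟨t, ht⟩ := he
        rw [Nat.even_iff]; omega
      rw [he.neg_one_pow, this.neg_one_pow]
    · have : Odd (J.length + sm J + 1) := by
        obtain ⟨t, ht⟩ := he
        rw [Nat.odd_iff]; omega
      rw [he.neg_one_pow, this.neg_one_pow]
  rw [← e2]; ring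

lemma sm_def (l : List (ℂ × ℕ)) : (l.map Prod.snd).sum = sm l := rfl

open Coh in
/-- The pointwise identity, first part empty. -/
lemma th_nil (K i : ℕ) (hi : i ≤ K) (J : List (ℂ × ℕ)) (h2 : 2 ≤ J.length)
    (h : i + J.length = sm J + K + 2) :
    th K i [] J = - (fact (J.map Prod.snd) * (br K i ((3 - (i + sp J)) / 2) *
      psi0 ((K - i) :: J.map Prod.snd))) := by
  have h3 := psi_ff (K - i) (m := J.map Prod.snd) (by simpa using h2)
  rw [if_pos (by rw [List.length_map, sm_def]; omega)] at h3
  rw [sm_def, List.length_map] at h3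
  rw [mul_left_comm, h3]
  unfold th
  simp only [List.length_nil, sm_nil, sp_nil, ff_zero]
  have e1 : (0 - sp J) / 2 - (1 + (i : ℂ)) / 2 - ((0 : ℕ) : ℂ) + 2 + ((0 : ℕ) : ℂ) =
      (3 - (i + sp J)) / 2 := by push_cast; ring
  rw [e1]; ring

open Coh in
/-- The pointwise identity, one element in the first part. -/
lemma th_single (K i : ℕ) (x : ℂ × ℕ) (J : List (ℂ × ℕ)) (h2 : 2 ≤ J.length)
    (h : i + (J.length + 1) = x.2 + sm J + K + 2) :
    th K i [x] J = fact (x.2 :: J.map Prod.snd) *
      P1 (i + (x.1 + sp J)) K i [] [x] J := by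
  rw [fact_cons]
  simp only [P1, List.nil_append]
  unfold th
  simp only [List.length_singleton, sm_cons, sm_nil, sp_cons, sp_nil, add_zero]
  have e1 : (((1 : ℕ) : ℂ) - 2) = -1 := by push_cast; ring
  rw [e1, ff_neg_one]
  have e2 : (x.1 - sp J) / 2 - (1 + (i : ℂ)) / 2 - ((1 : ℕ) : ℂ) + 2 + (x.2 : ℂ) =
      x.1 + (1 - (i + (x.1 + sp J))) / 2 + x.2 := by push_cast; ring
  rw [e2]
  have e3 : (-1 : ℂ) ^ (1 + x.2 + 1) * (-1) ^ x.2 = 1 := by
    rw [← pow_add]
    have : Even (1 + x.2 + 1 + x.2) := ⟨x.2 + 1, by ring⟩
    exact this.neg_one_pow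
  by_cases hc : i + 1 ≤ x.2 + K
  · rw [if_pos hc]
    have h3 := psi_ff (x.2 + K - 1 - i) (m := J.map Prod.snd) (by simpa using h2)
    rw [if_pos (by rw [List.length_map, sm_def]; omega)] at h3
    rw [sm_def, List.length_map] at h3
    linear_combination (br K i (x.1 + (1 - (i + (x.1 + sp J))) / 2 + x.2) *
      (x.2.factorial : ℂ) * ff ((J.length : ℂ) - 2) (sm J)) * e3 -
      ((x.2.factorial : ℂ) * br K i (x.1 + (1 - (i + (x.1 + sp J))) / 2 + x.2)) * h3
  · rw [if_neg hc, mul_zero]
    have h3 : ff ((J.length : ℂ) - 2) (sm J) = 0 := by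
      have h4 : ((J.length : ℂ) - 2) = ((J.length - 2 : ℕ) : ℂ) := by
        rw [Nat.cast_sub h2]; push_cast; ring
      rw [h4]
      exact ff_nat_zero (by omega)
    rw [h3]; ring

open Coh in
/-- The pointwise identity, both parts have at least two elements. -/
lemma th_large (K i : ℕ) (I J : List (ℂ × ℕ)) (h1 : 2 ≤ I.length) (h2 : 2 ≤ J.length)
    (h : i + (I.length + J.length) = sm I + sm J + K + 2) :
    th K i I J = fact (I.map Prod.snd) * fact (J.map Prod.snd) *
      P2 (i + (sp I + sp J)) K i I J := by
  unfold P2
  by_cases hb : sm I + 2 ≤ I.length ∧ sm J + 2 ≤ J.length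
  · obtain ⟨hbI, hbJ⟩ := hb
    rw [if_pos (by omega), Finset.sum_eq_single_of_mem (I.length - 2 - sm I, J.length - 2 - sm J)
      (by rw [Finset.HasAntidiagonal.mem_antidiagonal]; simp only; omega)]
    · simp only
      have h3 := psi_ff (I.length - 2 - sm I) (m := I.map Prod.snd) (by simpa using h1)
      rw [if_pos (by rw [List.length_map, sm_def]; omega)] at h3
      have h4 := psi_ff (J.length - 2 - sm J) (m := J.map Prod.snd) (by simpa using h2)
      rw [if_pos (by rw [List.length_map, sm_def]; omega)] at h4
      rw [sm_def, List.length_map] at h3 h4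
      unfold th
      have e1 : sp I - (1 + (i + (sp I + sp J))) / 2 - ((I.length - 2 - sm I : ℕ) : ℂ) =
          (sp I - sp J) / 2 - (1 + (i : ℂ)) / 2 - I.length + 2 + sm I := by
        have : ((I.length - 2 - sm I : ℕ) : ℂ) = (I.length : ℂ) - 2 - sm I := by
          rw [Nat.sub_sub, Nat.cast_sub (by omega)]; push_cast; ring
        rw [this]; ring
      rw [e1]
      have e2 : (-1 : ℂ) ^ (I.length - 2 - sm I + 1) = (-1) ^ (I.length + sm I + 1) := by
        have : I.length + sm I + 1 = I.length - 2 - sm I + 1 + 2 * (sm I + 1) := by omega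
        rw [this, pow_add _ _ (2 * (sm I + 1)), pow_mul]; norm_num
      rw [e2, ← h3, ← h4]; ring
    · intro mn hmn hne
      have h3 := Finset.HasAntidiagonal.mem_antidiagonal.mp hmn
      have h4 : psi0 (mn.1 :: I.map Prod.snd) = 0 := by
        unfold psi0
        rw [if_neg]
        simp only [List.sum_cons, List.length_cons, List.length_map, sm_def]
        intro h5
        apply hne
        ext
        · simp only; omega
        · simp only; omega
      rw [h4]; ring
  · have h3 : th K i I J = 0 := by
      unfold th
      by_cases hbI : sm I + 2 ≤ I.length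
      · have hbJ : ¬ (sm J + 2 ≤ J.length) := fun h' => hb ⟨hbI, h'⟩
        have : ff ((J.length : ℂ) - 2) (sm J) = 0 := by
          have h4 : ((J.length : ℂ) - 2) = ((J.length - 2 : ℕ) : ℂ) := by
            rw [Nat.cast_sub h2]; push_cast; ring
          rw [h4]
          exact ff_nat_zero (by omega)
        rw [this, mul_zero]
      · have : ff ((I.length : ℂ) - 2) (sm I) = 0 := by
          have h4 : ((I.length : ℂ) - 2) = ((I.length - 2 : ℕ) : ℂ) := by
            rw [Nat.cast_sub h1]; push_cast; ring
          rw [h4]
          exact ff_nat_zero (by omega)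
        rw [this]; ring
    rw [h3]
    symm
    apply mul_eq_zero_of_right
    split_ifs with hc
    · apply Finset.sum_eq_zero
      intro mn hmn
      have h4 : psi0 (mn.1 :: I.map Prod.snd) * psi0 (mn.2 :: J.map Prod.snd) = 0 := by
        by_cases hbI : sm I + 2 ≤ I.length
        · have hbJ : ¬ (sm J + 2 ≤ J.length) := fun h' => hb ⟨hbI, h'⟩
          have : psi0 (mn.2 :: J.map Prod.snd) = 0 := by
            unfold psi0
            rw [if_neg]
            simp only [List.sum_cons, List.length_cons, List.length_map, sm_def]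
            omega
          rw [this, mul_zero]
        · have : psi0 (mn.1 :: I.map Prod.snd) = 0 := by
            unfold psi0
            rw [if_neg]
            simp only [List.sum_cons, List.length_cons, List.length_map, sm_def]
            omega
          rw [this, zero_mul]
      rw [h4]; ring
    · rfl

open Coh in
/-- numerical form of the genus zero, degree zero constraint -/
noncomputable def NN (d : ℂ) (K i : ℕ) (l : List (ℂ × ℕ)) : ℂ :=
  der (opB d K i) l (fun s => psi0 (s.map Prod.snd)) -
    br K i ((3 - d) / 2) * psi0 ((K - i) :: l.map Prod.snd) +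
    1 / 2 * ush l (P2 d K i) + (if K = i ∧ l.map Prod.snd = [0, 0] then 1 else 0)

lemma perm_stat {I J l : List (ℂ × ℕ)} (h : (I ++ J).Perm l) :
    I.length + J.length = l.length ∧ sm I + sm J = sm l ∧ sp I + sp J = sp l ∧
      fact (I.map Prod.snd) * fact (J.map Prod.snd) = fact (l.map Prod.snd) := by
  refine ⟨?_, ?_, ?_, ?_⟩
  · rw [← h.length_eq, List.length_append]
  · unfold sm
    rw [← (h.map Prod.snd).sum_eq, List.map_append, List.sum_append]
  · unfold sp
    rw [← (h.map Prod.fst).sum_eq, List.map_append, List.sum_append]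
  · rw [← fact_append, ← List.map_append]
    unfold fact
    rw [((h.map Prod.snd).map Nat.factorial).prod_eq]

open Coh in
lemma nf_NN (K i : ℕ) (hi : i ≤ K) (l : List (ℂ × ℕ)) (h3 : 3 ≤ l.length)
    (h : i + l.length = sm l + K + 2) :
    nf K i l = 2 * fact (l.map Prod.snd) * NN (i + sp l) K i l := by
  have key : nf K i l = ush l (fun I J => fact (l.map Prod.snd) *
      (P1 (i + sp l) K i [] I J + P1 (i + sp l) K i [] J I +
        (P0 (- (br K i ((3 - (i + sp l)) / 2) * psi0 ((K - i) :: l.map Prod.snd))) I J +
         P0 (- (br K i ((3 - (i + sp l)) / 2) * psi0 ((K - i) :: l.map Prod.snd))) J I) +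
        P2 (i + sp l) K i I J)) := by
    unfold nf
    apply ush_congr
    intro I J hIJ
    obtain ⟨s1, s2, s3, s4⟩ := perm_stat hIJ
    have hP2I : I.length < 2 → P2 (i + sp l) K i I J = 0 := by
      intro hl
      unfold P2
      split_ifs
      · apply Finset.sum_eq_zero; intro mn _
        rw [psi0_short (m := mn.1 :: I.map Prod.snd) (by simp; omega)]; ring
      · rfl
    have hP2J : J.length < 2 → P2 (i + sp l) K i I J = 0 := by
      intro hl
      unfold P2
      split_ifs
      · apply Finset.sum_eq_zero; intro mn _
        rw [psi0_short (m := mn.2 :: J.map Prod.snd) (by simp; omega)]; ring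
      · rfl
    have hP1 : ∀ A B : List (ℂ × ℕ), 2 ≤ A.length → P1 (i + sp l) K i [] A B = 0 := by
      intro A B hA
      rcases A with _ | ⟨a, _ | ⟨b, A⟩⟩
      · simp at hA
      · simp at hA
      · rfl
    have hP0 : ∀ (c : ℂ) (A B : List (ℂ × ℕ)), 1 ≤ A.length → P0 c A B = 0 := by
      intro c A B hA
      rcases A with _ | ⟨a, A⟩
      · simp at hA
      · rfl
    -- cases
    by_cases c1 : 2 ≤ I.length
    · by_cases c2 : 2 ≤ J.length
      · rw [hP1 I J c1, hP1 J I c2, hP0 _ I J (by omega), hP0 _ J I (by omega),
          th_large K i I J c1 c2 (by omega), s4, s3]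
        ring
      · rw [hP1 I J c1, hP0 _ I J (by omega), hP2J (by omega)]
        rw [th_symm K i I J (by omega)]
        rcases J with _ | ⟨y, _ | ⟨z, J⟩⟩
        · have s1' : I.length = l.length := by simpa using s1
          have s2' : sm I = sm l := by simpa [sm_nil] using s2
          have s3' : sp I = sp l := by simpa [sp_nil] using s3
          have s4' : fact (I.map Prod.snd) = fact (l.map Prod.snd) := by
            simpa [fact] using s4
          rw [th_nil K i hi I (by omega) (by omega), s3', s4']
          have s5 : psi0 ((K - i) :: I.map Prod.snd) = psi0 ((K - i) :: l.map Prod.snd) := by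
            apply psi0_perm
            apply List.Perm.cons
            have := hIJ.map Prod.snd
            simpa using this
          rw [s5]
          simp only [P0, P1]; ring
        · simp only [List.length_singleton] at s1
          have s2' : y.2 + sm I = sm l := by rw [← s2, sm_cons, sm_nil]; ring
          have s3' : y.1 + sp I = sp l := by rw [← s3, sp_cons, sp_nil]; ring
          rw [th_single K i y I c1 (by omega), s3', hP0 _ [y] I (by simp)]
          have s6 : fact (y.2 :: I.map Prod.snd) = fact (l.map Prod.snd) := by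
            rw [← s4, fact_cons]
            simp only [List.map_cons, List.map_nil, fact_cons]
            simp [fact]; ring
          rw [s6]; ring
        · simp at c2
    · rcases I with _ | ⟨x, _ | ⟨z, I⟩⟩
      · have s1' : J.length = l.length := by simpa using s1
        have s2' : sm J = sm l := by simpa [sm_nil] using s2
        have s3' : sp J = sp l := by simpa [sp_nil] using s3
        have s4' : fact (J.map Prod.snd) = fact (l.map Prod.snd) := by
          simpa [fact] using s4
        rw [hP2I (by simp), hP1 J [] (by omega), hP0 _ J [] (by omega),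
          th_nil K i hi J (by omega) (by omega), s3', s4']
        have s5 : psi0 ((K - i) :: J.map Prod.snd) = psi0 ((K - i) :: l.map Prod.snd) := by
          apply psi0_perm
          apply List.Perm.cons
          have := hIJ.map Prod.snd
          simpa using this
        rw [s5]
        simp only [P0, P1]; ring
      · simp only [List.length_singleton] at s1
        have s2' : x.2 + sm J = sm l := by rw [← s2, sm_cons, sm_nil]; ring
        have s3' : x.1 + sp J = sp l := by rw [← s3, sp_cons, sp_nil]; ring
        rw [hP2I (by simp), hP1 J [x] (by omega), hP0 _ J [x] (by omega), hP0 _ [x] J (by simp),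
          th_single K i x J (by omega) (by omega), s3']
        have s6 : fact (x.2 :: J.map Prod.snd) = fact (l.map Prod.snd) := by
          rw [← s4, fact_cons]
          simp only [List.map_cons, List.map_nil, fact_cons]
          simp [fact]
        rw [s6]; ring
      · simp at c1
  rw [key, ush_smul, ush_add, ush_add, ush_add, ush_add,
    ush_comm l (P1 (i + sp l) K i []), ush_comm l (P0 _), ush_P0, ush_P1]
  unfold NN
  rw [if_neg (by
    intro h'
    have := congrArg List.length h'.2
    simp at this; omega)]
  simp only [List.nil_append]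
  ring

open Coh in
/-- The numerical genus zero, degree zero constraint. -/
theorem NN_eq_zero (K i : ℕ) (hi : i ≤ K) (l : List (ℂ × ℕ)) : NN (i + sp l) K i l = 0 := by
  by_cases h : i + l.length = sm l + K + 2
  · by_cases h3 : 3 ≤ l.length
    · have h1 := nf_NN K i hi l h3 h
      rw [nf_eq_zero l K i h] at h1
      have h2 : (2 : ℂ) * fact (l.map Prod.snd) ≠ 0 := mul_ne_zero two_ne_zero (fact_ne _)
      exact (mul_eq_zero.mp h1.symm).resolve_left h2
    · have h4 : l.length = 2 := by omega
      have h5 : i = K := by omega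
      have h6 : sm l = 0 := by omega
      subst h5
      unfold NN
      have e1 : der (opB (i + sp l) i i) l (fun s => psi0 (s.map Prod.snd)) = 0 := by
        apply der_length 2 _ l h4
        intro S hS
        exact psi0_short (by simp; omega)
      have e2 : ush l (P2 (i + sp l) i i) = 0 := by
        have : P2 (i + sp l) i i = fun _ _ => 0 := by
          funext I J; unfold P2; rw [if_neg (by omega)]
        rw [this]; exact shuf_zero l
      rcases l with _ | ⟨x, _ | ⟨y, _ | ⟨z, l⟩⟩⟩
      · simp at h4
      · simp at h4
      · simp only [sm_cons, sm_nil] at h6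
        have hx : x.2 = 0 := by omega
        have hy : y.2 = 0 := by omega
        rw [e1, e2, br_self]
        simp [hx, hy, psi0]
      · simp at h4
  · unfold NN
    have e1 : der (opB (i + sp l) K i) l (fun s => psi0 (s.map Prod.snd)) = 0 := by
      have hgen : ∀ (l : List (ℂ × ℕ)) (M : List ℕ),
          i + (M.length + l.length) ≠ M.sum + sm l + K + 2 → ∀ d : ℂ,
          der (opB d K i) l (fun s => psi0 (M ++ s.map Prod.snd)) = 0 := by
        intro l
        induction l with
        | nil => intro M _ d; rfl
        | cons x l ih =>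
          intro M hM d
          simp only [der]
          have e2 : (fun s => psi0 (M ++ (x :: s).map Prod.snd)) =
              fun s => psi0 ((M ++ [x.2]) ++ s.map Prod.snd) := by
            funext s; simp
          simp only [List.length_cons, sm_cons] at hM
          rw [e2, ih (M ++ [x.2]) (by simp; omega), add_zero, opB_apply]
          split_ifs with hc
          · simp only [List.map_cons]
            unfold psi0
            rw [if_neg, mul_zero]
            simp only [List.sum_append, List.sum_cons, List.length_append, List.length_cons,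
              List.length_map, sm_def]
            omega
          · rfl
      have := hgen l [] (by simpa using h) (i + sp l)
      simpa using this
    have e2 : psi0 ((K - i) :: l.map Prod.snd) = 0 := by
      unfold psi0
      rw [if_neg]
      simp only [List.sum_cons, List.length_cons, List.length_map, sm_def]
      omega
    have e3 : ush l (P2 (i + sp l) K i) = 0 := by
      have : ush l (P2 (i + sp l) K i) = ush l (fun _ _ => 0) := by
        apply ush_congr
        intro I J hIJ
        obtain ⟨s1, s2, -, -⟩ := perm_stat hIJ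
        unfold P2
        split_ifs with hc
        · apply Finset.sum_eq_zero
          intro mn hmn
          have h3 := Finset.HasAntidiagonal.mem_antidiagonal.mp hmn
          have h4 : psi0 (mn.1 :: I.map Prod.snd) * psi0 (mn.2 :: J.map Prod.snd) = 0 := by
            unfold psi0
            simp only [List.sum_cons, List.length_cons, List.length_map, sm_def]
            by_cases h5 : mn.1 + sm I + 3 = I.length + 1
            · rw [if_neg (c := mn.2 + sm J + 3 = J.length + 1) (by omega), mul_zero]
            · rw [if_neg h5, zero_mul]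
          rw [h4]; ring
        · rfl
      rw [this]; exact shuf_zero l
    have e4 : ¬ (K = i ∧ l.map Prod.snd = [0, 0]) := by
      rintro ⟨h1, h2⟩
      apply h
      have h3 := congrArg List.length h2
      have h4 : sm l = 0 := by unfold sm; rw [h2]; rfl
      simp at h3
      omega
    rw [e1, e2, e3, if_neg e4]; ring

end Vale.Agent.P269.H598
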