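import Vale.Agent.P269.H598.CIDefs

/-!
The identity of Libgober and Wood for the Hodge numbers of complete intersections.
-/

set_option linter.unusedSectionVars false

namespace Vale.Agent.P269.H598

open Finset

/-! ### Expansion in `ε` -/

/-- the coefficient of `ε^j` -/
noncomputable def ec (j : ℕ) (U : PowerSeries (Polynomial ℚ)) : PowerSeries ℚ :=
  PowerSeries.mk fun n => (PowerSeries.coeff n U).coeff j

lemma ec_mul0 (U V : PowerSeries (Polynomial ℚ)) : ec 0 (U * V) = ec 0 U * ec 0 V := by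
  ext n
  simp only [ec, PowerSeries.coeff_mk, PowerSeries.coeff_mul, Polynomial.finsetSum_coeff]
  apply Finset.sum_congr rfl; intro x _
  rw [Polynomial.mul_coeff_zero]

lemma ec_mul1 (U V : PowerSeries (Polynomial ℚ)) :
    ec 1 (U * V) = ec 0 U * ec 1 V + ec 1 U * ec 0 V := by
  ext n
  simp only [ec, PowerSeries.coeff_mk, PowerSeries.coeff_mul, Polynomial.finsetSum_coeff,
    map_add]
  rw [← Finset.sum_add_distrib]
  apply Finset.sum_congr rfl; intro x _
  rw [Polynomial.coeff_mul, Finset.Nat.sum_antidiagonal_eq_sum_range_succ_mk]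
  simp [Finset.sum_range_succ]

lemma ec_mul2 (U V : PowerSeries (Polynomial ℚ)) :
    ec 2 (U * V) = ec 0 U * ec 2 V + ec 1 U * ec 1 V + ec 2 U * ec 0 V := by
  ext n
  simp only [ec, PowerSeries.coeff_mk, PowerSeries.coeff_mul, Polynomial.finsetSum_coeff,
    map_add]
  rw [← Finset.sum_add_distrib, ← Finset.sum_add_distrib]
  apply Finset.sum_congr rfl; intro x _
  rw [Polynomial.coeff_mul, Finset.Nat.sum_antidiagonal_eq_sum_range_succ_mk]
  simp [Finset.sum_range_succ]

lemma ec_one0 : ec 0 1 = 1 := by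
  ext n; simp only [ec, PowerSeries.coeff_mk, PowerSeries.coeff_one]; split_ifs <;> simp

lemma ec_one (j : ℕ) (hj : j ≠ 0) : ec j 1 = 0 := by
  ext n; simp only [ec, PowerSeries.coeff_mk, PowerSeries.coeff_one]
  split_ifs
  · rw [Polynomial.coeff_one]; simp [hj]
  · simp

lemma ec_add (j : ℕ) (U V : PowerSeries (Polynomial ℚ)) : ec j (U + V) = ec j U + ec j V := by
  ext n; simp [ec]

lemma ec_X0 : ec 0 PowerSeries.X = PowerSeries.X := by
  ext n; simp only [ec, PowerSeries.coeff_mk, PowerSeries.coeff_X]; split_ifs <;> simp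

lemma ec_X (j : ℕ) (hj : j ≠ 0) : ec j PowerSeries.X = 0 := by
  ext n; simp only [ec, PowerSeries.coeff_mk, PowerSeries.coeff_X]
  split_ifs
  · rw [Polynomial.coeff_one]; simp [hj]
  · simp

lemma recip_mul {f : PowerSeries (Polynomial ℚ)} (h : PowerSeries.constantCoeff f = 1) :
    f * recip f = 1 := PowerSeries.mul_invOfUnit f 1 (by simpa using h)

lemma PP_const (k : ℕ) : PowerSeries.constantCoeff (PP k) = 0 := by
  rw [← PowerSeries.coeff_zero_eq_constantCoeff_apply]; simp [PP]

lemma one_PP (k : ℕ) : (1 + PP k) * recip (1 + PP k) = 1 :=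
  recip_mul (by simp [PP_const])

open PowerSeries in
/-- `1 / (1 + k s)` -/
noncomputable def vv (k : ℕ) : PowerSeries ℚ := (1 + PowerSeries.C (k : ℚ) * PowerSeries.X)⁻¹

lemma vv_mul (k : ℕ) : (1 + PowerSeries.C (k : ℚ) * PowerSeries.X) * vv k = 1 :=
  PowerSeries.mul_inv_cancel _ (by simp)

lemma ec_PP0 (k : ℕ) : ec 0 (PP k) = PowerSeries.C (k : ℚ) * PowerSeries.X := by
  ext n
  simp only [ec, PP, PowerSeries.coeff_mk, PowerSeries.coeff_C_mul, PowerSeries.coeff_X]
  rcases n with _ | _ | n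
  · simp
  · simp
  · simp [Polynomial.coeff_X_pow]

lemma ec_PP1 (k : ℕ) : ec 1 (PP k) = PowerSeries.C (k.choose 2 : ℚ) * PowerSeries.X ^ 2 := by
  ext n
  simp only [ec, PP, PowerSeries.coeff_mk, PowerSeries.coeff_C_mul, PowerSeries.coeff_X_pow]
  rcases n with _ | _ | _ | n
  · simp
  · simp
  · simp
  · simp [Polynomial.coeff_X_pow]

lemma ec_PP2 (k : ℕ) : ec 2 (PP k) = PowerSeries.C (k.choose 3 : ℚ) * PowerSeries.X ^ 3 := by
  ext n
  simp only [ec, PP, PowerSeries.coeff_mk, PowerSeries.coeff_C_mul, PowerSeries.coeff_X_pow]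
  rcases n with _ | _ | _ | _ | n
  · simp
  · simp
  · simp
  · simp
  · simp [Polynomial.coeff_X_pow]

lemma choose_three (k : ℕ) : ((k.choose 3 : ℕ) : ℚ) = k * (k - 1) * (k - 2) / 6 := by
  induction k with
  | zero => simp
  | succ k ih =>
    rw [Nat.choose_succ_succ' k 2, Nat.cast_add, ih, Nat.cast_choose_two]
    push_cast; ring


/-- the expansions of `P_k / (1 + P_k)` -/
lemma W_expand (k : ℕ) :
    ec 0 (PP k * recip (1 + PP k)) = PowerSeries.C (k : ℚ) * PowerSeries.X * vv k ∧
    ec 1 (PP k * recip (1 + PP k)) =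
      PowerSeries.C (k.choose 2 : ℚ) * PowerSeries.X ^ 2 * vv k ^ 2 ∧
    ec 2 (PP k * recip (1 + PP k)) =
      PowerSeries.C (k.choose 3 : ℚ) * PowerSeries.X ^ 3 * vv k ^ 2 -
        PowerSeries.C (k.choose 2 : ℚ) ^ 2 * PowerSeries.X ^ 4 * vv k ^ 3 := by
  set I := recip (1 + PP k) with hI
  have h := one_PP k
  rw [← hI] at h
  have h0 := congrArg (ec 0) h
  have h1 := congrArg (ec 1) h
  have h2 := congrArg (ec 2) h
  rw [ec_mul0, ec_add, ec_one0, ec_PP0] at h0
  rw [ec_mul1, ec_add, ec_add, ec_one0, ec_one 1 (by norm_num), ec_PP0, ec_PP1] at h1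
  rw [ec_mul2, ec_add, ec_add, ec_add, ec_one0, ec_one 1 (by norm_num),
    ec_one 2 (by norm_num), ec_PP0, ec_PP1, ec_PP2] at h2
  have hv := vv_mul k
  have e0 : ec 0 I = vv k := by
    linear_combination (vv k) * h0 - (ec 0 I) * hv
  have e1 : ec 1 I = - (PowerSeries.C (k.choose 2 : ℚ) * PowerSeries.X ^ 2 * vv k ^ 2) := by
    rw [e0] at h1
    linear_combination (vv k) * h1 - (ec 1 I) * hv
  have e2 : ec 2 I = - (PowerSeries.C (k.choose 3 : ℚ) * PowerSeries.X ^ 3 * vv k ^ 2) +
      PowerSeries.C (k.choose 2 : ℚ) ^ 2 * PowerSeries.X ^ 4 * vv k ^ 3 := by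
    rw [e0, e1] at h2
    linear_combination (vv k) * h2 - (ec 2 I) * hv
  refine ⟨?_, ?_, ?_⟩
  · rw [ec_mul0, ec_PP0, e0]
  · rw [ec_mul1, ec_PP0, ec_PP1, e0, e1]
    linear_combination (- PowerSeries.C (k.choose 2 : ℚ) * PowerSeries.X ^ 2 * vv k) * hv
  · rw [ec_mul2, ec_PP0, ec_PP1, ec_PP2, e0, e1, e2]
    linear_combination (- PowerSeries.C (k.choose 3 : ℚ) * PowerSeries.X ^ 3 * vv k +
      PowerSeries.C (k.choose 2 : ℚ) ^ 2 * PowerSeries.X ^ 4 * vv k ^ 2) * hv


lemma ec_epsX0 : ec 0 (PowerSeries.C (Polynomial.X : Polynomial ℚ) * PowerSeries.X) = 0 := by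
  ext n
  simp only [ec, PowerSeries.coeff_mk, PowerSeries.coeff_C_mul, PowerSeries.coeff_X]
  split_ifs <;> simp

lemma ec_epsX1 : ec 1 (PowerSeries.C (Polynomial.X : Polynomial ℚ) * PowerSeries.X) =
    PowerSeries.X := by
  ext n
  simp only [ec, PowerSeries.coeff_mk, PowerSeries.coeff_C_mul, PowerSeries.coeff_X]
  split_ifs <;> simp

lemma ec_epsX2 : ec 2 (PowerSeries.C (Polynomial.X : Polynomial ℚ) * PowerSeries.X) = 0 := by
  ext n
  simp only [ec, PowerSeries.coeff_mk, PowerSeries.coeff_C_mul, PowerSeries.coeff_X]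
  split_ifs <;> simp [Polynomial.coeff_X]

lemma ec_pow (n : ℕ) : ec 0 ((1 + PowerSeries.X) ^ n) = (1 + PowerSeries.X) ^ n ∧
    ec 1 ((1 + PowerSeries.X) ^ n) = 0 ∧ ec 2 ((1 + PowerSeries.X) ^ n) = 0 := by
  induction n with
  | zero =>
    simp only [pow_zero]
    exact ⟨ec_one0, ec_one 1 (by norm_num), ec_one 2 (by norm_num)⟩
  | succ n ih =>
    obtain ⟨i0, i1, i2⟩ := ih
    simp only [pow_succ]
    rw [ec_mul0, ec_mul1, ec_mul2, i0, i1, i2, ec_add, ec_add, ec_add, ec_one0,
      ec_one 1 (by norm_num), ec_one 2 (by norm_num), ec_X0, ec_X 1 (by norm_num),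
      ec_X 2 (by norm_num)]
    refine ⟨rfl, by ring, by ring⟩

lemma recip_expand :
    ec 0 (recip (1 + PowerSeries.C (Polynomial.X : Polynomial ℚ) * PowerSeries.X)) = 1 ∧
    ec 1 (recip (1 + PowerSeries.C (Polynomial.X : Polynomial ℚ) * PowerSeries.X)) =
      - PowerSeries.X ∧
    ec 2 (recip (1 + PowerSeries.C (Polynomial.X : Polynomial ℚ) * PowerSeries.X)) =
      PowerSeries.X ^ 2 := by
  set J := recip (1 + PowerSeries.C (Polynomial.X : Polynomial ℚ) * PowerSeries.X) with hJ
  have h : (1 + PowerSeries.C (Polynomial.X : Polynomial ℚ) * PowerSeries.X) * J = 1 :=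
    recip_mul (by simp)
  have h0 := congrArg (ec 0) h
  have h1 := congrArg (ec 1) h
  have h2 := congrArg (ec 2) h
  rw [ec_mul0, ec_add, ec_one0, ec_epsX0] at h0
  rw [ec_mul1, ec_add, ec_add, ec_one0, ec_one 1 (by norm_num), ec_epsX0, ec_epsX1] at h1
  rw [ec_mul2, ec_add, ec_add, ec_add, ec_one0, ec_one 1 (by norm_num),
    ec_one 2 (by norm_num), ec_epsX0, ec_epsX1, ec_epsX2] at h2
  have e0 : ec 0 J = 1 := by linear_combination h0
  have e1 : ec 1 J = - PowerSeries.X := by rw [e0] at h1; linear_combination h1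
  refine ⟨e0, e1, ?_⟩
  rw [e0, e1] at h2
  linear_combination h2

/-- the leading coefficient `k s / (1 + k s)` -/
noncomputable def ww (k : ℕ) : PowerSeries ℚ := PowerSeries.C (k : ℚ) * PowerSeries.X * vv k

/-- `(k - 1) s / (2 (1 + k s))` -/
noncomputable def xx (k : ℕ) : PowerSeries ℚ :=
  PowerSeries.C (((k : ℚ) - 1) / 2) * PowerSeries.X * vv k

/-- `∑ (k - 1)` -/
def dd (d : List ℕ) : ℚ := (d.map fun k : ℕ => (k : ℚ) - 1).sum

lemma factor_expand (k : ℕ) :
    ec 0 (PP k * recip (1 + PP k)) = ww k ∧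
    ec 1 (PP k * recip (1 + PP k)) = ww k * xx k ∧
    2 * ec 2 (PP k * recip (1 + PP k)) = ww k * (2 * xx k ^ 2 - PowerSeries.C (1 / 6) *
      (PowerSeries.C ((k : ℚ) - 1) * PowerSeries.X - 2 * xx k +
        2 * PowerSeries.X * xx k)) := by
  obtain ⟨h0, h1, h2⟩ := W_expand k
  have c2 : (PowerSeries.C (k.choose 2 : ℚ) : PowerSeries ℚ) =
      PowerSeries.C (k : ℚ) * (PowerSeries.C (k : ℚ) - 1) * PowerSeries.C (1 / 2) := by
    rw [Nat.cast_choose_two, ← map_one PowerSeries.C, ← map_sub, ← map_mul, ← map_mul]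
    congr 1; ring
  have c3 : (PowerSeries.C (k.choose 3 : ℚ) : PowerSeries ℚ) =
      PowerSeries.C (k : ℚ) * (PowerSeries.C (k : ℚ) - 1) * (PowerSeries.C (k : ℚ) - 2) *
        PowerSeries.C (1 / 6) := by
    rw [choose_three, ← map_one PowerSeries.C, show (2 : PowerSeries ℚ) = PowerSeries.C 2 from
      (map_ofNat _ 2).symm, ← map_sub, ← map_sub, ← map_mul, ← map_mul, ← map_mul]
    congr 1; ring
  have hx : xx k = (PowerSeries.C (k : ℚ) - 1) * PowerSeries.C (1 / 2) * PowerSeries.X * vv k := by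
    unfold xx
    rw [← map_one PowerSeries.C, ← map_sub, ← map_mul]
    congr 3; ring
  have hk : (PowerSeries.C ((k : ℚ) - 1) : PowerSeries ℚ) = PowerSeries.C (k : ℚ) - 1 := by
    rw [map_sub, map_one]
  have h6 : (PowerSeries.C (1 / 2) : PowerSeries ℚ) = 3 * PowerSeries.C (1 / 6) := by
    rw [show (3 : PowerSeries ℚ) = PowerSeries.C 3 from (map_ofNat _ 3).symm, ← map_mul]
    congr 1; norm_num
  have h7 : (6 : PowerSeries ℚ) * PowerSeries.C (1 / 6) = 1 := by
    rw [show (6 : PowerSeries ℚ) = PowerSeries.C 6 from (map_ofNat _ 6).symm, ← map_mul]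
    norm_num
  have hv := vv_mul k
  refine ⟨h0, ?_, ?_⟩
  · rw [h1, c2, hx]; unfold ww; ring
  · rw [h2, c2, c3, hx, hk, h6]; unfold ww
    generalize PowerSeries.C (k : ℚ) = kk at *
    generalize PowerSeries.C (1 / 6 : ℚ) = six at *
    generalize vv k = v at *
    generalize (PowerSeries.X : PowerSeries ℚ) = X at *
    linear_combination (kk * (kk - 1) * X ^ 2 * v * (-(kk - 1) * X * v * 3 * six - six)) * hv +
      (-3 * six * (kk ^ 2 * (kk - 1) ^ 2 * X ^ 4 * v ^ 3) -
        3 * six * (kk * (kk - 1) ^ 2 * X ^ 3 * v ^ 3) - six * (kk * (kk - 1) * X ^ 2 * v ^ 2) +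
        six * (kk * (kk - 1) * X ^ 3 * v ^ 2)) * h7

lemma prod_expand (d : List ℕ) :
    ec 0 (d.map fun k => PP k * recip (1 + PP k)).prod = (d.map ww).prod ∧
    ec 1 (d.map fun k => PP k * recip (1 + PP k)).prod = (d.map ww).prod * (d.map xx).sum ∧
    2 * ec 2 (d.map fun k => PP k * recip (1 + PP k)).prod =
      (d.map ww).prod * ((d.map xx).sum ^ 2 + (d.map fun k => xx k ^ 2).sum -
        PowerSeries.C (1 / 6) * (PowerSeries.C (dd d) * PowerSeries.X - 2 * (d.map xx).sum +
        2 * PowerSeries.X * (d.map xx).sum)) := by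
  induction d with
  | nil =>
    simp only [List.map_nil, List.prod_nil, List.sum_nil, dd]
    refine ⟨ec_one0, ?_, ?_⟩
    · rw [ec_one 1 (by norm_num)]; ring
    · rw [ec_one 2 (by norm_num)]; simp
  | cons k d ih =>
    obtain ⟨h0, h1, h2⟩ := factor_expand k
    obtain ⟨i0, i1, i2⟩ := ih
    have hd : (PowerSeries.C (dd (k :: d)) : PowerSeries ℚ) =
        PowerSeries.C ((k : ℚ) - 1) + PowerSeries.C (dd d) := by
      rw [← map_add]; congr 1
    simp only [List.map_cons, List.prod_cons, List.sum_cons]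
    rw [ec_mul0, ec_mul1, ec_mul2, mul_add, mul_add, h0, h1, i0, i1, hd]
    refine ⟨rfl, by ring, ?_⟩
    linear_combination (ww k) * i2 + (d.map ww).prod * h2

/-- the leading coefficient of the generating series -/
noncomputable def Thh (n : ℕ) (d : List ℕ) : PowerSeries ℚ :=
  (1 + PowerSeries.X) ^ n * (d.map ww).prod

lemma hirz_expand (N : ℕ) (d : List ℕ) :
    ec 0 (hirz N d) = Thh (N + 1) d ∧
    ec 1 (hirz N d) = Thh (N + 1) d * (- PowerSeries.X + (d.map xx).sum) ∧
    2 * ec 2 (hirz N d) = Thh (N + 1) d * (2 * PowerSeries.X ^ 2 -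
      2 * PowerSeries.X * (d.map xx).sum +
      ((d.map xx).sum ^ 2 + (d.map fun k => xx k ^ 2).sum -
        PowerSeries.C (1 / 6) * (PowerSeries.C (dd d) * PowerSeries.X - 2 * (d.map xx).sum +
        2 * PowerSeries.X * (d.map xx).sum))) := by
  obtain ⟨h0, h1, h2⟩ := prod_expand d
  obtain ⟨i0, i1, i2⟩ := ec_pow (N + 1)
  obtain ⟨j0, j1, j2⟩ := recip_expand
  unfold hirz Thh
  refine ⟨?_, ?_, ?_⟩
  · rw [ec_mul0, ec_mul0, h0, i0, j0]; ring
  · rw [ec_mul1, ec_mul1, ec_mul0, h0, h1, i0, i1, j0, j1]; ring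
  · rw [ec_mul2, ec_mul2, ec_mul1, ec_mul0, h0, h1, i0, i1, i2, j0, j1, j2]
    linear_combination ((1 + PowerSeries.X) ^ (N + 1)) * h2

/-! ### Integration by parts -/

/-- the derivation `s d/ds` -/
noncomputable def eul (F : PowerSeries ℚ) : PowerSeries ℚ :=
  PowerSeries.X * PowerSeries.derivative ℚ F

lemma eul_coeff (n : ℕ) (F : PowerSeries ℚ) :
    PowerSeries.coeff n (eul F) = n * PowerSeries.coeff n F := by
  unfold eul
  rcases n with _ | n
  · simp
  · rw [PowerSeries.coeff_succ_X_mul, PowerSeries.coeff_derivative]; push_cast; ring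

lemma eul_mul (F G : PowerSeries ℚ) : eul (F * G) = eul F * G + F * eul G := by
  unfold eul
  rw [Derivation.leibniz]; simp only [smul_eq_mul]; ring

lemma eul_add (F G : PowerSeries ℚ) : eul (F + G) = eul F + eul G := by
  unfold eul; rw [map_add]; ring

lemma eul_neg (F : PowerSeries ℚ) : eul (-F) = - eul F := by
  unfold eul; rw [map_neg]; ring

lemma eul_X : eul PowerSeries.X = PowerSeries.X := by
  unfold eul; rw [PowerSeries.derivative_X]; ring

lemma eul_one : eul 1 = 0 := by
  unfold eul; rw [Derivation.map_one_eq_zero]; ring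

lemma eul_C (c : ℚ) : eul (PowerSeries.C c) = 0 := by
  unfold eul; rw [PowerSeries.derivative_C]; ring

lemma eul_vv (k : ℕ) : eul (vv k) = - (PowerSeries.C (k : ℚ) * PowerSeries.X * vv k ^ 2) := by
  have hv := vv_mul k
  have h := congrArg eul hv
  rw [eul_mul, eul_add, eul_mul, eul_one, eul_C, eul_X] at h
  linear_combination (vv k) * h - (eul (vv k)) * hv

lemma eul_ww (k : ℕ) : eul (ww k) = ww k * vv k := by
  have hv := vv_mul k
  unfold ww
  rw [eul_mul, eul_mul, eul_C, eul_X, eul_vv]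
  linear_combination (- PowerSeries.C (k : ℚ) * PowerSeries.X * vv k) * hv

lemma eul_prod (d : List ℕ) : eul (d.map ww).prod = (d.map ww).prod * (d.map vv).sum := by
  induction d with
  | nil => simp [eul_one]
  | cons k d ih =>
    simp only [List.map_cons, List.prod_cons, List.sum_cons]
    rw [eul_mul, ih, eul_ww]; ring

lemma eul_pow (n : ℕ) : (1 + PowerSeries.X) * eul ((1 + PowerSeries.X) ^ n) =
    (n : PowerSeries ℚ) * PowerSeries.X * (1 + PowerSeries.X) ^ n := by
  induction n with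
  | zero => simp [eul_one]
  | succ n ih =>
    rw [pow_succ, eul_mul, mul_add, ← mul_assoc, ih, eul_add, eul_one, eul_X]; push_cast; ring

lemma eul_Thh (n : ℕ) (d : List ℕ) : (1 + PowerSeries.X) * eul (Thh n d) =
    Thh n d * ((n : PowerSeries ℚ) * PowerSeries.X + (1 + PowerSeries.X) * (d.map vv).sum) := by
  unfold Thh
  rw [eul_mul, eul_prod]
  linear_combination (d.map ww).prod * eul_pow n

lemma sum_vv (d : List ℕ) : (1 + PowerSeries.X) * (d.map vv).sum =
    (d.length : PowerSeries ℚ) - 2 * (d.map xx).sum := by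
  induction d with
  | nil => simp
  | cons k d ih =>
    simp only [List.map_cons, List.sum_cons, List.length_cons]
    have hx : 2 * xx k = (PowerSeries.C (k : ℚ) - 1) * PowerSeries.X * vv k := by
      unfold xx
      rw [show (PowerSeries.C (k : ℚ) - 1 : PowerSeries ℚ) =
        2 * PowerSeries.C (((k : ℚ) - 1) / 2) from ?_]
      · ring
      · rw [← map_one PowerSeries.C, ← map_sub, show (2 : PowerSeries ℚ) = PowerSeries.C 2 from
          (map_ofNat _ 2).symm, ← map_mul]
        congr 1; ring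
    rw [mul_add, ih]; push_cast
    linear_combination vv_mul k + hx

/-- integration by parts -/
lemma ibp (N : ℕ) (d : List ℕ) (G : PowerSeries ℚ) :
    PowerSeries.coeff N (Thh (N + 1) d * (G * (2 * PowerSeries.X + ((d.length : PowerSeries ℚ) -
      2 * (d.map xx).sum) - (N : PowerSeries ℚ)) + (1 + PowerSeries.X) * eul G)) = 0 := by
  have h := eul_coeff N ((1 + PowerSeries.X) * Thh (N + 1) d * G)
  rw [eul_mul, eul_mul, eul_add, eul_one, eul_X] at h
  have h1 := eul_Thh (N + 1) d
  rw [sum_vv] at h1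
  have e : Thh (N + 1) d * (G * (2 * PowerSeries.X + ((d.length : PowerSeries ℚ) -
      2 * (d.map xx).sum) - (N : PowerSeries ℚ)) + (1 + PowerSeries.X) * eul G) =
      (((0 + PowerSeries.X) * Thh (N + 1) d + (1 + PowerSeries.X) * eul (Thh (N + 1) d)) * G +
        (1 + PowerSeries.X) * Thh (N + 1) d * eul G) -
        (N : PowerSeries ℚ) * ((1 + PowerSeries.X) * Thh (N + 1) d * G) := by
    push_cast at h1
    linear_combination (-G) * h1
  rw [e, map_sub, h, show (N : PowerSeries ℚ) = PowerSeries.C (N : ℚ) from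
    (map_natCast _ N).symm, PowerSeries.coeff_C_mul, sub_self]

lemma sum_thxx (d : List ℕ) : (1 + PowerSeries.X) * eul (d.map xx).sum =
    (d.map xx).sum - 2 * (d.map fun k => xx k ^ 2).sum := by
  induction d with
  | nil =>
    simp only [List.map_nil, List.sum_nil]
    rw [show (0 : PowerSeries ℚ) = PowerSeries.C 0 by simp, eul_C]; simp
  | cons k d ih =>
    simp only [List.map_cons, List.sum_cons]
    rw [eul_add, mul_add, ih]
    have hv := vv_mul k
    have hx : xx k = PowerSeries.C (((k : ℚ) - 1) / 2) * PowerSeries.X * vv k := rfl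
    have hk : (PowerSeries.C (k : ℚ) : PowerSeries ℚ) =
        1 + 2 * PowerSeries.C (((k : ℚ) - 1) / 2) := by
      rw [← map_one PowerSeries.C, show (2 : PowerSeries ℚ) = PowerSeries.C 2 from
        (map_ofNat _ 2).symm, ← map_mul, ← map_add]
      congr 1; ring
    have ht : eul (xx k) = PowerSeries.C (((k : ℚ) - 1) / 2) * PowerSeries.X * vv k ^ 2 := by
      rw [hx, eul_mul, eul_mul, eul_C, eul_X, eul_vv]
      linear_combination (- PowerSeries.C (((k : ℚ) - 1) / 2) * PowerSeries.X * vv k) * hv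
    rw [ht, hx]
    rw [hk] at hv
    linear_combination (PowerSeries.C (((k : ℚ) - 1) / 2) * PowerSeries.X * vv k) * hv

/-- The three coefficient identities. -/
theorem coeff_identities (r : ℕ) (d : List ℕ) :
    (PowerSeries.coeff (r + d.length) (hirz (r + d.length) d)).coeff 1 =
      - (r : ℚ) / 2 * (PowerSeries.coeff (r + d.length) (hirz (r + d.length) d)).coeff 0 ∧
    2 * (PowerSeries.coeff (r + d.length) (hirz (r + d.length) d)).coeff 2 =
      (r : ℚ) * (3 * r - 5) / 12 *
        (PowerSeries.coeff (r + d.length) (hirz (r + d.length) d)).coeff 0 +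
      ((r : ℚ) + 1 - dd d) / 6 *
        PowerSeries.coeff (r + d.length) (Thh (r + d.length + 1) d * PowerSeries.X) := by
  obtain ⟨h0, h1, h2⟩ := hirz_expand (r + d.length) d
  have f0 : (PowerSeries.coeff (r + d.length) (hirz (r + d.length) d)).coeff 0 =
      PowerSeries.coeff (r + d.length) (Thh (r + d.length + 1) d) := by
    rw [← h0]; simp [ec]
  have f1 : (PowerSeries.coeff (r + d.length) (hirz (r + d.length) d)).coeff 1 =
      PowerSeries.coeff (r + d.length) (ec 1 (hirz (r + d.length) d)) := by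
    simp [ec]
  have f2 : 2 * (PowerSeries.coeff (r + d.length) (hirz (r + d.length) d)).coeff 2 =
      PowerSeries.coeff (r + d.length) (2 * ec 2 (hirz (r + d.length) d)) := by
    rw [show (2 : PowerSeries ℚ) = PowerSeries.C 2 from (map_ofNat _ 2).symm,
      PowerSeries.coeff_C_mul]
    simp [ec]
  rw [f0, f1, f2, h1, h2]
  have g1 := ibp (r + d.length) d 1
  have g2 := ibp (r + d.length) d PowerSeries.X
  have g3 := ibp (r + d.length) d (- PowerSeries.X + (d.map xx).sum)
  rw [eul_one] at g1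
  rw [eul_X] at g2
  rw [eul_add, mul_add (1 + PowerSeries.X), sum_thxx, eul_neg, eul_X] at g3
  push_cast at g1 g2 g3
  generalize (d.map xx).sum = sx at *
  generalize (d.map fun k => xx k ^ 2).sum = sq at *
  generalize Thh (r + d.length + 1) d = T at *
  generalize hρ : (r : PowerSeries ℚ) = ρ at *
  generalize hn : (d.length : PowerSeries ℚ) = n at *
  have hr : (PowerSeries.C (r : ℚ) : PowerSeries ℚ) = ρ := by rw [← hρ]; exact map_natCast _ r
  generalize hq : (PowerSeries.C (1 / 12 : ℚ) : PowerSeries ℚ) = q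
  have h12 : 12 * q = 1 := by
    rw [← hq, show (12 : PowerSeries ℚ) = PowerSeries.C 12 from (map_ofNat _ 12).symm, ← map_mul]
    norm_num
  have hc (a b : ℚ) (h : a = b / 12) :
      (PowerSeries.C a : PowerSeries ℚ) = PowerSeries.C b * q := by
    rw [← hq, ← map_mul, h]; congr 1; ring
  have key1 : T * (- PowerSeries.X + sx) = PowerSeries.C (-1 / 2) *
      (T * (1 * (2 * PowerSeries.X + (n - 2 * sx) - (ρ + n)) + (1 + PowerSeries.X) * 0)) +
      PowerSeries.C (- (r : ℚ) / 2) * T := by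
    rw [hc (-1 / 2) (-6) (by norm_num), hc (-(r : ℚ) / 2) (-6 * r) (by ring), map_mul, hr,
      show (PowerSeries.C (-6 : ℚ) : PowerSeries ℚ) = -6 by rw [map_neg]; rfl]
    linear_combination (-T * (- PowerSeries.X + sx)) * h12
  have key2 : T * (2 * PowerSeries.X ^ 2 - 2 * PowerSeries.X * sx +
      (sx ^ 2 + sq - PowerSeries.C (1 / 6) * (PowerSeries.C (dd d) * PowerSeries.X - 2 * sx +
        2 * PowerSeries.X * sx))) =
      PowerSeries.C (-1 / 2) * (T * ((- PowerSeries.X + sx) *
        (2 * PowerSeries.X + (n - 2 * sx) - (ρ + n)) +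
        ((1 + PowerSeries.X) * -PowerSeries.X + (sx - 2 * sq)))) +
      PowerSeries.C ((r : ℚ) / 4 - 5 / 12) *
        (T * (1 * (2 * PowerSeries.X + (n - 2 * sx) - (ρ + n)) + (1 + PowerSeries.X) * 0)) +
      PowerSeries.C (1 / 6) * (T * (PowerSeries.X * (2 * PowerSeries.X + (n - 2 * sx) -
        (ρ + n)) + (1 + PowerSeries.X) * PowerSeries.X)) +
      PowerSeries.C ((r : ℚ) * (3 * r - 5) / 12) * T +
      PowerSeries.C (((r : ℚ) + 1 - dd d) / 6) * (T * PowerSeries.X) := by
    rw [hc (-1 / 2) (-6) (by norm_num), hc (1 / 6) 2 (by norm_num),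
      hc ((r : ℚ) / 4 - 5 / 12) (3 * r - 5) (by ring),
      hc ((r : ℚ) * (3 * r - 5) / 12) (r * (3 * r - 5)) (by ring),
      hc (((r : ℚ) + 1 - dd d) / 6) (2 * (r + 1 - dd d)) (by ring)]
    simp only [map_mul, map_sub, map_add, hr, map_one]
    rw [show (PowerSeries.C (-6 : ℚ) : PowerSeries ℚ) = -6 by rw [map_neg]; rfl,
      show (PowerSeries.C (2 : ℚ) : PowerSeries ℚ) = 2 from rfl,
      show (PowerSeries.C (3 : ℚ) : PowerSeries ℚ) = 3 from rfl,
      show (PowerSeries.C (5 : ℚ) : PowerSeries ℚ) = 5 from rfl]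
    linear_combination (-T * (2 * PowerSeries.X ^ 2 - 2 * PowerSeries.X * sx +
      sx ^ 2 + sq)) * h12
  refine ⟨?_, ?_⟩
  · rw [key1, map_add, PowerSeries.coeff_C_mul, PowerSeries.coeff_C_mul, g1]; ring
  · rw [key2, map_add, map_add, map_add, map_add, PowerSeries.coeff_C_mul,
      PowerSeries.coeff_C_mul, PowerSeries.coeff_C_mul, PowerSeries.coeff_C_mul,
      PowerSeries.coeff_C_mul, g1, g2, g3]; ring

/-! ### The degree in `ε` -/

/-- the coefficient of `s^n` has degree at most `n - k` in `ε` -/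
def Dg (k : ℕ) (U : PowerSeries (Polynomial ℚ)) : Prop :=
  ∀ n j : ℕ, n < j + k → (PowerSeries.coeff n U).coeff j = 0

lemma Dg.mul {k l : ℕ} {U V : PowerSeries (Polynomial ℚ)} (hU : Dg k U) (hV : Dg l V) :
    Dg (k + l) (U * V) := by
  intro n j h
  rw [PowerSeries.coeff_mul, Polynomial.finsetSum_coeff]
  apply Finset.sum_eq_zero; intro x hx
  rw [Polynomial.coeff_mul]
  apply Finset.sum_eq_zero; intro y hy
  rw [HasAntidiagonal.mem_antidiagonal] at hx hy
  by_cases h1 : x.1 < y.1 + k
  · rw [hU _ _ h1]; ring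
  · rw [hV x.2 y.2 (by omega)]; ring

lemma Dg.one : Dg 0 1 := by
  intro n j h
  rw [PowerSeries.coeff_one]
  split_ifs with h1
  · rw [Polynomial.coeff_one, if_neg (by omega)]
  · simp

lemma Dg.mono {k l : ℕ} {U : PowerSeries (Polynomial ℚ)} (h : Dg l U) (hkl : k ≤ l) : Dg k U :=
  fun n j hn => h n j (by omega)

lemma Dg.add {k : ℕ} {U V : PowerSeries (Polynomial ℚ)} (hU : Dg k U) (hV : Dg k V) :
    Dg k (U + V) := by
  intro n j h
  rw [map_add, Polynomial.coeff_add, hU n j h, hV n j h, add_zero]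

lemma Dg.X : Dg 0 PowerSeries.X := by
  intro n j h
  rw [PowerSeries.coeff_X]
  split_ifs with h1
  · rw [Polynomial.coeff_one, if_neg (by omega)]
  · simp

lemma Dg.pow {U : PowerSeries (Polynomial ℚ)} (h : Dg 0 U) (n : ℕ) : Dg 0 (U ^ n) := by
  induction n with
  | zero => rw [pow_zero]; exact Dg.one
  | succ n ih => rw [pow_succ]; exact ih.mul h

lemma Dg.recip {V : PowerSeries (Polynomial ℚ)} (h : Dg 0 V)
    (hc : PowerSeries.constantCoeff V = 1) : Dg 0 (recip V) := by
  intro n
  induction n using Nat.strong_induction_on with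
  | _ n ih =>
    intro j hj
    have h1 := congrArg (PowerSeries.coeff n) (recip_mul hc)
    rw [PowerSeries.coeff_mul, Finset.Nat.sum_antidiagonal_eq_sum_range_succ_mk,
      Finset.sum_range_succ'] at h1
    simp only [Nat.sub_zero, PowerSeries.coeff_zero_eq_constantCoeff, hc, one_mul] at h1
    have h2 := congrArg (fun q => Polynomial.coeff q j) h1
    simp only [Polynomial.coeff_add, Polynomial.finsetSum_coeff] at h2
    have h3 : (PowerSeries.coeff n (1 : PowerSeries (Polynomial ℚ))).coeff j = 0 :=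
      Dg.one n j hj
    rw [h3, Finset.sum_eq_zero, zero_add] at h2
    · exact h2
    · intro i hi
      rw [Finset.mem_range] at hi
      rw [Polynomial.coeff_mul]
      apply Finset.sum_eq_zero; intro y hy
      rw [HasAntidiagonal.mem_antidiagonal] at hy
      by_cases h4 : i + 1 < y.1
      · rw [h (i + 1) y.1 (by omega)]; ring
      · rw [ih (n - (i + 1)) (by omega) y.2 (by omega)]; ring

lemma Dg.PP (k : ℕ) : Dg 1 (PP k) := by
  intro n j h
  simp only [H598.PP, PowerSeries.coeff_mk]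
  split_ifs with h1
  · simp
  · rw [Polynomial.coeff_C_mul, Polynomial.coeff_X_pow, if_neg (by omega)]; ring

lemma Dg.factors (d : List ℕ) :
    Dg d.length (d.map fun k => H598.PP k * H598.recip (1 + H598.PP k)).prod := by
  induction d with
  | nil => exact Dg.one
  | cons k d ih =>
    simp only [List.map_cons, List.prod_cons, List.length_cons]
    rw [add_comm]
    exact ((Dg.PP k).mul ((Dg.one.add ((Dg.PP k).mono (by omega))).recip
      (by simp [PP_const]))).mul ih

lemma Dg.hirz (N : ℕ) (d : List ℕ) : Dg d.length (hirz N d) := by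
  have h1 : Dg 0 (1 + PowerSeries.C (Polynomial.X : Polynomial ℚ) * PowerSeries.X) := by
    apply Dg.one.add
    intro n j h
    rw [PowerSeries.coeff_C_mul, PowerSeries.coeff_X]
    split_ifs with h1
    · rw [mul_one, Polynomial.coeff_X, if_neg (by omega)]
    · simp
  have := (((Dg.one.add Dg.X).pow (N + 1)).mul (h1.recip (by simp))).mul (Dg.factors d)
  simpa [H598.hirz] using this

lemma natDegree_hirz (r : ℕ) (d : List ℕ) :
    (PowerSeries.coeff (r + d.length) (hirz (r + d.length) d)).natDegree < r + 1 := by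
  rw [Nat.lt_succ_iff, Polynomial.natDegree_le_iff_coeff_eq_zero]
  intro n hn
  exact Dg.hirz (r + d.length) d _ _ (by omega)

lemma natDegree_chiy (r : ℕ) (d : List ℕ) : (chiy r d).natDegree < r + 1 := by
  unfold chiy
  have h := natDegree_hirz r d
  have h1 := Polynomial.natDegree_comp_le (p := PowerSeries.coeff (r + d.length)
    (hirz (r + d.length) d)) (q := 1 + Polynomial.X)
  have h2 : (1 + Polynomial.X : Polynomial ℚ).natDegree = 1 := by
    rw [add_comm, ← Polynomial.C_1]; exact Polynomial.natDegree_X_add_C 1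
  rw [h2, mul_one] at h1
  omega

lemma chiy_sums (r : ℕ) (d : List ℕ) :
    ∑ p ∈ range (r + 1), (-1) ^ p * (chiy r d).coeff p =
      (PowerSeries.coeff (r + d.length) (hirz (r + d.length) d)).coeff 0 ∧
    ∑ p ∈ range (r + 1), (-1) ^ p * (chiy r d).coeff p * p =
      - (PowerSeries.coeff (r + d.length) (hirz (r + d.length) d)).coeff 1 ∧
    ∑ p ∈ range (r + 1), (-1) ^ p * (chiy r d).coeff p * (p * (p - 1)) =
      2 * (PowerSeries.coeff (r + d.length) (hirz (r + d.length) d)).coeff 2 := by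
  have hdeg := natDegree_chiy r d
  have hA : chiy r d = (PowerSeries.coeff (r + d.length) (hirz (r + d.length) d)).comp
    (1 + Polynomial.X) := rfl
  generalize PowerSeries.coeff (r + d.length) (hirz (r + d.length) d) = A at *
  generalize chiy r d = B at *
  have e0 : B.eval (-1) = A.coeff 0 := by
    rw [hA, Polynomial.eval_comp]; simp [Polynomial.coeff_zero_eq_eval_zero]
  have d1 : Polynomial.derivative B = (Polynomial.derivative A).comp (1 + Polynomial.X) := by
    rw [hA, Polynomial.derivative_comp]; simp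
  have e1 : (Polynomial.derivative B).eval (-1) = A.coeff 1 := by
    rw [d1, Polynomial.eval_comp]
    simp only [Polynomial.eval_add, Polynomial.eval_one, Polynomial.eval_X, add_neg_cancel]
    rw [← Polynomial.coeff_zero_eq_eval_zero, Polynomial.coeff_derivative]; simp
  have d2 : Polynomial.derivative (Polynomial.derivative B) =
      (Polynomial.derivative (Polynomial.derivative A)).comp (1 + Polynomial.X) := by
    rw [d1, Polynomial.derivative_comp]; simp
  have e2 : (Polynomial.derivative (Polynomial.derivative B)).eval (-1) = 2 * A.coeff 2 := by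
    rw [d2, Polynomial.eval_comp]
    simp only [Polynomial.eval_add, Polynomial.eval_one, Polynomial.eval_X, add_neg_cancel]
    rw [← Polynomial.coeff_zero_eq_eval_zero, Polynomial.coeff_derivative,
      Polynomial.coeff_derivative]; norm_num; ring
  refine ⟨?_, ?_, ?_⟩
  · rw [← e0, Polynomial.eval_eq_sum_range' hdeg]
    apply Finset.sum_congr rfl; intro p _; ring
  · rw [← e1, Polynomial.derivative_eval, Polynomial.sum_over_range' _ (by simp) _ hdeg,
      ← Finset.sum_neg_distrib]
    apply Finset.sum_congr rfl; intro p _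
    rcases p with _ | p
    · simp
    · rw [Nat.add_sub_cancel, pow_succ]; ring
  · have hdeg' : (Polynomial.derivative B).natDegree < r + 1 := by
      have := Polynomial.natDegree_derivative_le B
      omega
    rw [← e2, Polynomial.derivative_eval, Polynomial.sum_over_range' _ (by simp) _ hdeg']
    have h3 : B.coeff (r + 1) = 0 := Polynomial.coeff_eq_zero_of_natDegree_lt (by omega)
    have h4 := Finset.sum_range_succ' (fun p => (-1 : ℚ) ^ p * B.coeff p * (p * (p - 1))) (r + 1)
    rw [Finset.sum_range_succ, h3] at h4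
    simp only [mul_zero, zero_mul, add_zero, Nat.cast_zero] at h4
    rw [h4]
    apply Finset.sum_congr rfl; intro p _
    rw [Polynomial.coeff_derivative]
    rcases p with _ | p
    · simp
    · rw [Nat.add_sub_cancel, pow_succ, pow_succ]; push_cast; ring

end Vale.Agent.P269.H598
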