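import Vale.Agent.P269.H598.Super
import Vale.Agent.P269.H598.Bracket

/-!
The numerical identity behind the genus zero Virasoro constraints in degree zero.
-/

namespace Vale.Agent.P269.H598

open Finset Polynomial

/-- falling factorial -/
noncomputable def ff (x : ℂ) (n : ℕ) : ℂ := ∏ t ∈ Finset.range n, (x - (t : ℂ))

lemma ff_zero (x : ℂ) : ff x 0 = 1 := by simp [ff]

lemma ff_succ (x : ℂ) (n : ℕ) : ff x (n + 1) = ff x n * (x - n) := by
  unfold ff; rw [Finset.prod_range_succ]

lemma ff_succ' (x : ℂ) (n : ℕ) : ff (x + 1) (n + 1) = (x + 1) * ff x n := by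
  unfold ff
  rw [Finset.prod_range_succ', mul_comm]
  congr 1
  · simp
  · apply Finset.prod_congr rfl; intro t _; push_cast; ring

lemma ff_diff (x : ℂ) (n : ℕ) : ff (x + 1) n - ff x n = (n : ℂ) * ff x (n - 1) := by
  rcases n with _ | n
  · simp [ff_zero]
  · rw [ff_succ', ff_succ]
    simp only [Nat.add_sub_cancel]
    push_cast; ring

lemma ff_nat_zero {a n : ℕ} (h : a < n) : ff (a : ℂ) n = 0 := by
  unfold ff
  apply Finset.prod_eq_zero (Finset.mem_range.mpr h)
  ring

lemma ff_nat {a n : ℕ} (h : n ≤ a) : ff (a : ℂ) n = (a.factorial : ℂ) / ((a - n).factorial : ℂ) := by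
  induction n with
  | zero => rw [ff_zero, Nat.sub_zero, div_self]; exact_mod_cast Nat.factorial_ne_zero a
  | succ n ih =>
    rw [ff_succ, ih (by omega)]
    have h1 : a - n = (a - (n + 1)) + 1 := by omega
    have h2 : ((a : ℂ) - n) = ((a - (n + 1) : ℕ) : ℂ) + 1 := by
      have : ((a - (n + 1) : ℕ) : ℂ) = (a : ℂ) - (n + 1) := by
        rw [Nat.cast_sub h]; push_cast; ring
      rw [this]; ring
    rw [h1, Nat.factorial_succ, h2]
    have h3 : (((a - (n + 1)).factorial : ℕ) : ℂ) ≠ 0 := by
      exact_mod_cast Nat.factorial_ne_zero _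
    have h4 : ((a - (n + 1) : ℕ) : ℂ) + 1 ≠ 0 := by
      exact_mod_cast Nat.succ_ne_zero (a - (n + 1))
    push_cast
    field_simp

lemma ff_neg_one (n : ℕ) : ff (-1) n = (-1) ^ n * (n.factorial : ℂ) := by
  induction n with
  | zero => simp [ff_zero]
  | succ n ih =>
    rw [ff_succ, ih, Nat.factorial_succ, pow_succ]; push_cast; ring

/-- total descendant index -/
def sm (l : List (ℂ × ℕ)) : ℕ := (l.map Prod.snd).sum

/-- total first Hodge degree -/
noncomputable def sp (l : List (ℂ × ℕ)) : ℂ := (l.map Prod.fst).sum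

lemma sm_cons (x : ℂ × ℕ) (l : List (ℂ × ℕ)) : sm (x :: l) = x.2 + sm l := by
  simp [sm]

lemma sp_cons (x : ℂ × ℕ) (l : List (ℂ × ℕ)) : sp (x :: l) = x.1 + sp l := by
  simp [sp]

lemma sm_nil : sm [] = 0 := rfl
lemma sp_nil : sp [] = 0 := rfl

/-- the sign-free splitting sum -/
noncomputable def ush (l : List (ℂ × ℕ)) (Φ : List (ℂ × ℕ) → List (ℂ × ℕ) → ℂ) : ℂ :=
  shuf (fun _ => false) l Φ

lemma ush_nil (Φ : List (ℂ × ℕ) → List (ℂ × ℕ) → ℂ) : ush [] Φ = Φ [] [] := rfl

lemma ush_cons (x : ℂ × ℕ) (l : List (ℂ × ℕ)) (Φ : List (ℂ × ℕ) → List (ℂ × ℕ) → ℂ) :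
    ush (x :: l) Φ = ush l (fun I J => Φ (x :: I) J) + ush l (fun I J => Φ I (x :: J)) := by
  unfold ush
  simp only [shuf]
  congr 1; congr 1; funext I J
  rw [kl_even rfl, one_mul]

/-- the summand of the numerical identity -/
noncomputable def th (K i : ℕ) (I J : List (ℂ × ℕ)) : ℂ :=
  (-1) ^ (I.length + sm I + 1) *
    br K i ((sp I - sp J) / 2 - (1 + (i : ℂ)) / 2 - I.length + 2 + sm I) *
    ff ((I.length : ℂ) - 2) (sm I) * ff ((J.length : ℂ) - 2) (sm J)

/-- `g ↦ m g(p, m - 1)` -/
noncomputable def opL : ((ℂ × ℕ) → ℂ) →ₗ[ℂ] ((ℂ × ℕ) → ℂ) where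
  toFun g x := (x.2 : ℂ) * g (x.1, x.2 - 1)
  map_add' g g' := by funext x; simp only [Pi.add_apply]; ring
  map_smul' r g := by
    funext x; simp only [Pi.smul_apply, smul_eq_mul, RingHom.id_apply]; ring

lemma opL_apply (g : (ℂ × ℕ) → ℂ) (x : ℂ × ℕ) : opL g x = (x.2 : ℂ) * g (x.1, x.2 - 1) := rfl

lemma even_false {X : Type} (A : (X → ℂ) →ₗ[ℂ] (X → ℂ)) : EvenOp (fun _ => false) A := by
  intro z g x
  simp [ks]

lemma der_opL_stat (I : List (ℂ × ℕ)) (Φ : ℕ → ℕ → ℂ → ℂ) :
    der opL I (fun I' => Φ I'.length (sm I') (sp I')) =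
      (sm I : ℂ) * Φ I.length (sm I - 1) (sp I) := by
  induction I generalizing Φ with
  | nil => simp [der, sm_nil]
  | cons x l ih =>
    simp only [der]
    have e1 : (fun s => Φ (x :: s).length (sm (x :: s)) (sp (x :: s))) =
        fun s => (fun a b c => Φ (a + 1) (x.2 + b) (x.1 + c)) s.length (sm s) (sp s) := by
      funext s; simp only [List.length_cons, sm_cons, sp_cons]
    rw [e1]
    have ih' := ih (fun a b c => Φ (a + 1) (x.2 + b) (x.1 + c))
    rw [ih', opL_apply]
    simp only [List.length_cons, sm_cons, sp_cons]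
    rcases Nat.eq_zero_or_pos x.2 with h | h
    · rw [h]
      simp
    · have e2 : x.2 - 1 + sm l = x.2 + sm l - 1 := by omega
      rw [e2]
      rcases Nat.eq_zero_or_pos (sm l) with h' | h'
      · rw [h']; push_cast; ring
      · have e3 : x.2 + (sm l - 1) = x.2 + sm l - 1 := by omega
        rw [e3]; push_cast; ring

/-- the numerical sum -/
noncomputable def nf (K i : ℕ) (l : List (ℂ × ℕ)) : ℂ := ush l (th K i)

lemma nf_unit (K i : ℕ) (l : List (ℂ × ℕ)) :
    nf (K + 1) i ((0, 0) :: l) = der opL l (nf (K + 1) i) + ((K : ℂ) + 1) * nf K i l := by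
  have e1 : der opL l (nf (K + 1) i) = ush l (fun I J => der opL I (fun I' => th (K + 1) i I' J) +
      der opL J (fun J' => th (K + 1) i I J')) := by
    unfold nf ush
    exact der_shuf (even_false opL) l (th (K + 1) i)
  have e2 : ((K : ℂ) + 1) * nf K i l = ush l (fun I J => ((K : ℂ) + 1) * th K i I J) := by
    unfold nf ush; rw [shuf_smul]
  rw [e1, e2]
  unfold nf
  rw [ush_cons]
  unfold ush
  rw [← shuf_add, ← shuf_add]
  congr 1; funext I J
  have f1 : der opL I (fun I' => th (K + 1) i I' J) = (sm I : ℂ) *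
      ((-1) ^ (I.length + (sm I - 1) + 1) *
        br (K + 1) i ((sp I - sp J) / 2 - (1 + (i : ℂ)) / 2 - I.length + 2 + (sm I - 1 : ℕ)) *
        ff ((I.length : ℂ) - 2) (sm I - 1) * ff ((J.length : ℂ) - 2) (sm J)) :=
    der_opL_stat I (fun a b c => (-1) ^ (a + b + 1) *
        br (K + 1) i ((c - sp J) / 2 - (1 + (i : ℂ)) / 2 - a + 2 + b) *
        ff ((a : ℂ) - 2) b * ff ((J.length : ℂ) - 2) (sm J))
  have f2 : der opL J (fun J' => th (K + 1) i I J') = (sm J : ℂ) *
      ((-1) ^ (I.length + sm I + 1) *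
        br (K + 1) i ((sp I - sp J) / 2 - (1 + (i : ℂ)) / 2 - I.length + 2 + sm I) *
        ff ((I.length : ℂ) - 2) (sm I) * ff ((J.length : ℂ) - 2) (sm J - 1)) :=
    der_opL_stat J (fun a b c => (-1) ^ (I.length + sm I + 1) *
        br (K + 1) i ((sp I - c) / 2 - (1 + (i : ℂ)) / 2 - I.length + 2 + sm I) *
        ff ((I.length : ℂ) - 2) (sm I) * ff ((a : ℂ) - 2) b)
  rw [f1, f2]
  unfold th
  simp only [List.length_cons, sm_cons, sp_cons, zero_add]
  have g1 := ff_diff ((I.length : ℂ) - 2) (sm I)
  have g2 := ff_diff ((J.length : ℂ) - 2) (sm J)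
  have g3 := br_diff K i ((sp I - sp J) / 2 - (1 + (i : ℂ)) / 2 - I.length + 2 + sm I)
  have h1 : (((I.length + 1 : ℕ) : ℂ) - 2) = (I.length : ℂ) - 2 + 1 := by push_cast; ring
  have h2 : (((J.length + 1 : ℕ) : ℂ) - 2) = (J.length : ℂ) - 2 + 1 := by push_cast; ring
  have h3 : (sp I - sp J) / 2 - (1 + (i : ℂ)) / 2 - ((I.length + 1 : ℕ) : ℂ) + 2 + sm I =
      (sp I - sp J) / 2 - (1 + (i : ℂ)) / 2 - I.length + 2 + sm I - 1 := by push_cast; ring
  rw [h1, h2, h3]
  set x := (sp I - sp J) / 2 - (1 + (i : ℂ)) / 2 - I.length + 2 + sm I with hx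
  have h4 : (sm I : ℂ) * ((-1) ^ (I.length + (sm I - 1) + 1) *
        br (K + 1) i ((sp I - sp J) / 2 - (1 + (i : ℂ)) / 2 - I.length + 2 + (sm I - 1 : ℕ)) *
        ff ((I.length : ℂ) - 2) (sm I - 1) * ff ((J.length : ℂ) - 2) (sm J)) =
      (sm I : ℂ) * ((-1) ^ (I.length + sm I) * br (K + 1) i (x - 1) *
        ff ((I.length : ℂ) - 2) (sm I - 1) * ff ((J.length : ℂ) - 2) (sm J)) := by
    rcases Nat.eq_zero_or_pos (sm I) with h | h
    · rw [h]; simp
    · have e3 : I.length + (sm I - 1) + 1 = I.length + sm I := by omega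
      have e4 : ((sm I - 1 : ℕ) : ℂ) = (sm I : ℂ) - 1 := by
        rw [Nat.cast_sub h]; push_cast; ring
      rw [e3, e4, hx]
      congr 3
      congr 1
      ring_nf
  rw [h4]
  have h5 : (-1 : ℂ) ^ (I.length + 1 + sm I + 1) = (-1) ^ (I.length + sm I) := by
    rw [show I.length + 1 + sm I + 1 = I.length + sm I + 2 by ring, pow_add]; norm_num
  have h6 : (-1 : ℂ) ^ (I.length + sm I + 1) = - (-1) ^ (I.length + sm I) := by
    rw [pow_succ]; ring
  rw [h5, h6]
  linear_combination ((-1) ^ (I.length + sm I) * br (K + 1) i (x - 1) *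
      ff ((J.length : ℂ) - 2) (sm J)) * g1 - ((-1) ^ (I.length + sm I) * br (K + 1) i x *
      ff ((I.length : ℂ) - 2) (sm I)) * g2 - ((-1) ^ (I.length + sm I) *
      ff ((I.length : ℂ) - 2) (sm I) * ff ((J.length : ℂ) - 2) (sm J)) * g3

lemma br_zero_const (i : ℕ) (x y : ℂ) : br 0 i x = br 0 i y := by
  rcases i with _ | i
  · rw [br_zero, br_zero]
  · rw [br_gt (Nat.succ_pos i), br_gt (Nat.succ_pos i)]

lemma nf_unit_zero (i : ℕ) (l : List (ℂ × ℕ)) :
    nf 0 i ((0, 0) :: l) = der opL l (nf 0 i) := by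
  have e1 : der opL l (nf 0 i) = ush l (fun I J => der opL I (fun I' => th 0 i I' J) +
      der opL J (fun J' => th 0 i I J')) := by
    unfold nf ush
    exact der_shuf (even_false opL) l (th 0 i)
  rw [e1]
  unfold nf
  rw [ush_cons]
  unfold ush
  rw [← shuf_add]
  congr 1; funext I J
  have hth : ∀ I J, th 0 i I J = (-1) ^ (I.length + sm I + 1) * br 0 i 0 *
      ff ((I.length : ℂ) - 2) (sm I) * ff ((J.length : ℂ) - 2) (sm J) := by
    intro I J; unfold th; rw [br_zero_const i _ 0]
  simp only [hth]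
  have f1 : der opL I (fun I' => (-1) ^ (I'.length + sm I' + 1) * br 0 i 0 *
      ff ((I'.length : ℂ) - 2) (sm I') * ff ((J.length : ℂ) - 2) (sm J)) = (sm I : ℂ) *
      ((-1) ^ (I.length + (sm I - 1) + 1) * br 0 i 0 *
        ff ((I.length : ℂ) - 2) (sm I - 1) * ff ((J.length : ℂ) - 2) (sm J)) :=
    der_opL_stat I (fun a b c => (-1) ^ (a + b + 1) * br 0 i 0 *
        ff ((a : ℂ) - 2) b * ff ((J.length : ℂ) - 2) (sm J))
  have f2 : der opL J (fun J' => (-1) ^ (I.length + sm I + 1) * br 0 i 0 *
      ff ((I.length : ℂ) - 2) (sm I) * ff ((J'.length : ℂ) - 2) (sm J')) = (sm J : ℂ) *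
      ((-1) ^ (I.length + sm I + 1) * br 0 i 0 *
        ff ((I.length : ℂ) - 2) (sm I) * ff ((J.length : ℂ) - 2) (sm J - 1)) :=
    der_opL_stat J (fun a b c => (-1) ^ (I.length + sm I + 1) * br 0 i 0 *
        ff ((I.length : ℂ) - 2) (sm I) * ff ((a : ℂ) - 2) b)
  rw [f1, f2]
  simp only [List.length_cons, sm_cons, zero_add]
  have g1 := ff_diff ((I.length : ℂ) - 2) (sm I)
  have g2 := ff_diff ((J.length : ℂ) - 2) (sm J)
  have h1 : (((I.length + 1 : ℕ) : ℂ) - 2) = (I.length : ℂ) - 2 + 1 := by push_cast; ring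
  have h2 : (((J.length + 1 : ℕ) : ℂ) - 2) = (J.length : ℂ) - 2 + 1 := by push_cast; ring
  rw [h1, h2]
  have h4 : (sm I : ℂ) * ((-1) ^ (I.length + (sm I - 1) + 1) * br 0 i 0 *
        ff ((I.length : ℂ) - 2) (sm I - 1) * ff ((J.length : ℂ) - 2) (sm J)) =
      (sm I : ℂ) * ((-1) ^ (I.length + sm I) * br 0 i 0 *
        ff ((I.length : ℂ) - 2) (sm I - 1) * ff ((J.length : ℂ) - 2) (sm J)) := by
    rcases Nat.eq_zero_or_pos (sm I) with h | h
    · rw [h]; simp
    · have e3 : I.length + (sm I - 1) + 1 = I.length + sm I := by omega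
      rw [e3]
  rw [h4]
  have h5 : (-1 : ℂ) ^ (I.length + 1 + sm I + 1) = (-1) ^ (I.length + sm I) := by
    rw [show I.length + 1 + sm I + 1 = I.length + sm I + 2 by ring, pow_add]; norm_num
  have h6 : (-1 : ℂ) ^ (I.length + sm I + 1) = - (-1) ^ (I.length + sm I) := by
    rw [pow_succ]; ring
  rw [h5, h6]
  linear_combination ((-1) ^ (I.length + sm I) * br 0 i 0 *
      ff ((J.length : ℂ) - 2) (sm J)) * g1 - ((-1) ^ (I.length + sm I) * br 0 i 0 *
      ff ((I.length : ℂ) - 2) (sm I)) * g2

/-- The polynomial family version. -/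
noncomputable def UU (Φ : List ℕ → List ℕ → ℂ[X]) (l : List (ℂ × ℕ)) : ℂ :=
  ush l (fun I J => (Φ (I.map Prod.snd) (J.map Prod.snd)).eval ((sp I - sp J) / 2))

/-- number of insertions with descendant index zero -/
def nz (l : List (ℂ × ℕ)) : ℕ := (l.map Prod.snd).count 0

lemma degLT_comp {q : ℂ[X]} {s : ℕ} (h : q.degree < s) (r : ℂ) :
    (q.comp (X + C r)).degree < s := by
  by_cases h0 : q = 0
  · subst h0; simpa using h
  · rw [degree_eq_natDegree h0] at h
    have h1 : (q.comp (X + C r)).natDegree = q.natDegree := by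
      rw [natDegree_comp, natDegree_X_add_C, mul_one]
    refine lt_of_le_of_lt degree_le_natDegree ?_
    rw [h1]; exact h

lemma degLT_diff {q : ℂ[X]} {s : ℕ} (h : q.degree < (s + 1 : ℕ)) (r : ℂ) :
    (q.comp (X + C r) - q).degree < s := by
  by_cases h0 : q = 0
  · subst h0; simp
  · by_cases h1 : q.natDegree = 0
    · have : q = C (q.coeff 0) := eq_C_of_natDegree_eq_zero h1
      rw [this]; simp
    · have hd : (q.comp (X + C r)).degree = q.degree := by
        have hne : q.comp (X + C r) ≠ 0 := by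
          intro h2
          have h3 : (q.comp (X + C r)).natDegree = q.natDegree := by
            rw [natDegree_comp, natDegree_X_add_C, mul_one]
          rw [h2, natDegree_zero] at h3
          exact h1 h3.symm
        rw [degree_eq_natDegree hne, degree_eq_natDegree h0, natDegree_comp,
          natDegree_X_add_C, mul_one]
      have hl : (q.comp (X + C r)).leadingCoeff = q.leadingCoeff := by
        rw [leadingCoeff_comp (by rw [natDegree_X_add_C]; exact one_ne_zero),
          leadingCoeff_X_add_C, one_pow, mul_one]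
      have hne : q.comp (X + C r) ≠ 0 := by
        intro h2; rw [h2, degree_zero] at hd
        exact h0 (degree_eq_bot.mp hd.symm)
      have h4 := degree_sub_lt_left hd hne hl
      rw [hd] at h4
      have h5 : q.degree ≤ (s : WithBot ℕ) := by
        rw [degree_eq_natDegree h0] at h ⊢
        exact_mod_cast Nat.lt_succ_iff.mp (by exact_mod_cast h)
      exact lt_of_lt_of_le h4 h5

lemma UU_cons (Φ : List ℕ → List ℕ → ℂ[X]) (x : ℂ × ℕ) (l : List (ℂ × ℕ)) :
    UU Φ (x :: l) = UU (fun a b => (Φ (x.2 :: a) b).comp (X + C (x.1 / 2)) +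
      (Φ a (x.2 :: b)).comp (X + C (-(x.1 / 2)))) l := by
  unfold UU
  rw [ush_cons]
  unfold ush
  rw [← shuf_add]
  congr 1; funext I J
  simp only [List.map_cons, sp_cons, eval_add, eval_comp, eval_X, eval_C]
  congr 2 <;> ring

lemma UU_sub (Φ Ψ : List ℕ → List ℕ → ℂ[X]) (l : List (ℂ × ℕ)) :
    UU (fun a b => Φ a b - Ψ a b) l = UU Φ l - UU Ψ l := by
  unfold UU ush
  rw [← shuf_sub]
  congr 1; funext I J; rw [eval_sub]

/-- If a splitting sum with polynomial weights of degree `< s` in the `p_j` vanishes as soon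
as `(p_j, m_j) = (0, 0)` for some `j`, and at least `s` of the `m_j` are zero, then it
vanishes. -/
lemma UU_trick (l : List (ℂ × ℕ)) : ∀ (s : ℕ) (Φ : List ℕ → List ℕ → ℂ[X]),
    (∀ a b, (Φ a b).degree < s) → s ≤ nz l →
    (∀ l', l'.map Prod.snd = l.map Prod.snd → ((0 : ℂ), 0) ∈ l' → UU Φ l' = 0) →
    UU Φ l = 0 := by
  induction l with
  | nil =>
    intro s Φ h1 h2 _
    have hs : s = 0 := by simpa [nz] using h2
    subst hs
    have : Φ [] [] = 0 := by
      have := h1 [] []
      rw [← degree_eq_bot]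
      by_contra hb
      have h3 : Φ [] [] ≠ 0 := fun h => hb (by rw [h, degree_zero])
      rw [degree_eq_natDegree h3] at this
      have h4 : (Φ [] []).natDegree < 0 := by exact_mod_cast this
      omega
    simp [UU, ush_nil, this]
  | cons x l ih =>
    intro s Φ h1 h2 h3
    obtain ⟨p, m⟩ := x
    by_cases hm : m = 0
    · subst hm
      rcases s with _ | s
      · have h0 : ∀ a b, Φ a b = 0 := by
          intro a b
          have := h1 a b
          by_contra hb
          rw [degree_eq_natDegree hb] at this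
          have h4 : (Φ a b).natDegree < 0 := by exact_mod_cast this
          omega
        unfold UU ush
        simp only [h0, eval_zero, shuf_zero]
      · have e1 : UU Φ ((p, 0) :: l) = UU Φ ((p, 0) :: l) - UU Φ ((0, 0) :: l) := by
          rw [h3 ((0, 0) :: l) (by simp) (by simp), sub_zero]
        rw [e1, UU_cons, UU_cons, ← UU_sub]
        apply ih s
        · intro a b
          have d1 := degLT_diff (h1 (0 :: a) b) (p / 2)
          have d2 := degLT_diff (h1 a (0 :: b)) (-(p / 2))
          have e2 : (Φ (0 :: a) b).comp (X + C (p / 2)) + (Φ a (0 :: b)).comp (X + C (-(p / 2))) -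
              ((Φ (0 :: a) b).comp (X + C ((0 : ℂ) / 2)) +
                (Φ a (0 :: b)).comp (X + C (-((0 : ℂ) / 2)))) =
              ((Φ (0 :: a) b).comp (X + C (p / 2)) - Φ (0 :: a) b) +
                ((Φ a (0 :: b)).comp (X + C (-(p / 2))) - Φ a (0 :: b)) := by
            simp only [zero_div, neg_zero, C_0, add_zero, comp_X]
            ring
          simp only
          rw [e2]
          exact lt_of_le_of_lt (degree_add_le _ _) (max_lt d1 d2)
        · simp only [nz, List.map_cons, List.count_cons_self] at h2 ⊢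
          omega
        · intro l' hl' hmem
          rw [UU_sub, ← UU_cons Φ (p, 0), ← UU_cons Φ (0, 0)]
          rw [h3 ((p, 0) :: l') (by simp [hl']) (by simp [hmem]),
            h3 ((0, 0) :: l') (by simp [hl']) (by simp)]
          ring
    · rw [UU_cons]
      apply ih s
      · intro a b
        exact lt_of_le_of_lt (degree_add_le _ _)
          (max_lt (degLT_comp (h1 _ _) _) (degLT_comp (h1 _ _) _))
      · simp only [nz, List.map_cons] at h2 ⊢
        rw [List.count_cons_of_ne (by simpa using hm)] at h2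
        exact h2
      · intro l' hl' hmem
        rw [← UU_cons Φ (p, m)]
        exact h3 ((p, m) :: l') (by simp [hl']) (by simp [hmem])

lemma nz_ge (l : List (ℂ × ℕ)) : l.length ≤ nz l + sm l := by
  induction l with
  | nil => simp
  | cons x l ih =>
    rw [sm_cons, List.length_cons]
    by_cases h : x.2 = 0
    · have : nz (x :: l) = nz l + 1 := by
        simp [nz, h]
      omega
    · have : nz (x :: l) = nz l := by
        simp only [nz, List.map_cons]
        rw [List.count_cons_of_ne (by simpa using h)]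
      omega

lemma der_opL_zero {F : List (ℂ × ℕ) → ℂ} (l : List (ℂ × ℕ))
    (h : ∀ l', l'.length = l.length → sm l' + 1 = sm l → F l' = 0) : der opL l F = 0 := by
  induction l generalizing F with
  | nil => rfl
  | cons x l ih =>
    simp only [der]
    rw [opL_apply, ih, add_zero]
    · rcases Nat.eq_zero_or_pos x.2 with h0 | h0
      · rw [h0]; simp
      · rw [h, mul_zero]
        · simp
        · simp only [sm_cons]; omega
    · intro l' h1 h2
      apply h
      · simp [h1]
      · simp only [sm_cons]; omega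

lemma th_SS1 (K i : ℕ) (J : List (ℂ × ℕ)) : SS (fun _ => false) (fun I => th K i I J) := by
  intro l x y l'
  have h1 : (l ++ x :: y :: l').length = (l ++ y :: x :: l').length := by simp
  have h2 : sm (l ++ x :: y :: l') = sm (l ++ y :: x :: l') := by
    simp only [sm, List.map_append, List.map_cons, List.sum_append, List.sum_cons]; ring
  have h3 : sp (l ++ x :: y :: l') = sp (l ++ y :: x :: l') := by
    simp only [sp, List.map_append, List.map_cons, List.sum_append, List.sum_cons]; ring
  have h4 : ks (fun _ => false) x y = 1 := ks_even rfl y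
  rw [h4, one_mul]
  simp only [th, h1, h2, h3]

lemma th_SS2 (K i : ℕ) (I : List (ℂ × ℕ)) : SS (fun _ => false) (fun J => th K i I J) := by
  intro l x y l'
  have h1 : (l ++ x :: y :: l').length = (l ++ y :: x :: l').length := by simp
  have h2 : sm (l ++ x :: y :: l') = sm (l ++ y :: x :: l') := by
    simp only [sm, List.map_append, List.map_cons, List.sum_append, List.sum_cons]; ring
  have h3 : sp (l ++ x :: y :: l') = sp (l ++ y :: x :: l') := by
    simp only [sp, List.map_append, List.map_cons, List.sum_append, List.sum_cons]; ring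
  have h4 : ks (fun _ => false) x y = 1 := ks_even rfl y
  rw [h4, one_mul]
  simp only [th, h1, h2, h3]

lemma nf_SS (K i : ℕ) : SS (fun _ => false) (nf K i) := by
  unfold nf ush
  exact shuf_SS (th_SS1 K i) (th_SS2 K i)

/-- The numerical identity. -/
theorem nf_eq_zero (l : List (ℂ × ℕ)) (K i : ℕ) (h : i + l.length = sm l + K + 2) :
    nf K i l = 0 := by
  obtain ⟨n, hn⟩ : ∃ n, l.length = n := ⟨_, rfl⟩
  induction n using Nat.strong_induction_on generalizing l K i with
  | _ n ih =>
    by_cases hiK : K < i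
    · unfold nf
      have : th K i = fun _ _ => 0 := by
        funext I J; unfold th; rw [br_gt hiK]; ring
      rw [this]; unfold ush; rw [shuf_zero]
    · obtain ⟨q, hq, hd⟩ := br_poly K i
      -- express `nf` as a polynomial family
      let Φ : List ℕ → List ℕ → ℂ[X] := fun a b =>
        C ((-1) ^ (a.length + a.sum + 1) * ff ((a.length : ℂ) - 2) a.sum *
          ff ((b.length : ℂ) - 2) b.sum) *
          q.comp (X + C (-(1 + (i : ℂ)) / 2 - a.length + 2 + a.sum))
      have hΦ : ∀ l, nf K i l = UU Φ l := by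
        intro l
        unfold nf UU
        congr 1; funext I J
        simp only [Φ, eval_mul, eval_C, eval_comp, eval_add, eval_X, hq, th, List.length_map]
        have e1 : (I.map Prod.snd).sum = sm I := rfl
        have e2 : (J.map Prod.snd).sum = sm J := rfl
        rw [e1, e2]
        have e3 : (sp I - sp J) / 2 - (1 + (i : ℂ)) / 2 - I.length + 2 + sm I =
            (sp I - sp J) / 2 + (-(1 + (i : ℂ)) / 2 - I.length + 2 + sm I) := by ring
        rw [e3]; ring
      rw [hΦ]
      apply UU_trick l (K - i + 1) Φ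
      · intro a b
        have hq' : q.degree < ((K - i + 1 : ℕ) : WithBot ℕ) := by
          rcases hd with hd | hd
          · refine lt_of_le_of_lt degree_le_natDegree ?_
            have : q.natDegree < K - i + 1 := by omega
            exact_mod_cast this
          · rw [hd, degree_zero]; exact WithBot.bot_lt_coe _
        have h2 := degLT_comp hq' (-(1 + (i : ℂ)) / 2 - a.length + 2 + a.sum)
        refine lt_of_le_of_lt ?_ h2
        refine le_trans (degree_mul_le _ _) ?_
        calc _ ≤ 0 + _ := add_le_add_left degree_C_le _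
          _ = _ := zero_add _
      · have := nz_ge l
        omega
      · intro l' hl' hmem
        rw [← hΦ]
        obtain ⟨l1, l2, rfl⟩ := List.append_of_mem hmem
        have hlen : (l1 ++ (0, 0) :: l2).length = l.length := by
          have := congrArg List.length hl'
          simpa using this
        have hsm : sm (l1 ++ (0, 0) :: l2) = sm l := by
          unfold sm; rw [hl']
        have hfront := (nf_SS K i).front l1 (0, 0) l2
        rw [hfront, kl_even rfl, one_mul]
        have hlen2 : (l1 ++ l2).length + 1 = n := by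
          rw [← hn, ← hlen]; simp; ring
        have hsm2 : sm (l1 ++ l2) = sm l := by
          rw [← hsm]; simp [sm]
        rcases K with _ | K
        · rw [nf_unit_zero]
          apply der_opL_zero
          intro l'' h1 h2
          exact ih l''.length (by omega) l'' 0 i (by omega) rfl
        · rw [nf_unit, der_opL_zero, ih (l1 ++ l2).length (by omega) (l1 ++ l2) K i (by omega) rfl]
          · ring
          · intro l'' h1 h2
            exact ih l''.length (by omega) l'' (K + 1) i (by omega) rfl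

end Vale.Agent.P269.H598
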