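import Vale.Agent.P269.H598.Defs
import Vale.Agent.P269.H598.Super
import Vale.Agent.P269.H598.Bracket

/-!
Operators on insertions: parity, commutators with the lowering operator.
-/

set_option linter.unusedSectionVars false

namespace Vale.Agent.P269.H598

open Finset

namespace Coh

variable {ι : Type} [Fintype ι] [DecidableEq ι] {D : Coh ι}

variable (D) in
/-- Properties of the classical data. -/
structure Good : Prop where
  one_type : D.p D.one = 0 ∧ D.q D.one = 0
  h_type : D.p D.h = 1 ∧ D.q D.h = 1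
  type_one : ∀ a, D.p a + D.q a < 2 → a = D.one
  η_type : ∀ a c, D.η a c ≠ 0 → D.p a + D.p c = D.dim ∧ D.q a + D.q c = D.dim
  η_symm : ∀ a c, D.η a c = ks D.par a c * D.η c a
  η_unit : IsUnit D.η.det
  H_one : ∀ a, D.H D.one a = if a = D.h then 1 else 0
  H_type : ∀ a c, D.H a c ≠ 0 → D.p c = D.p a + 1 ∧ D.q c = D.q a + 1
  H_symm : ∀ a c, (D.H * D.η) a c = ks D.par a c * (D.H * D.η) c a

variable (D) in
/-- `fA` as a linear map -/
noncomputable def opA (K : ℕ) : ((ι × ℕ) → ℂ) →ₗ[ℂ] ((ι × ℕ) → ℂ) where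
  toFun g := D.fA K g
  map_add' g g' := by
    funext x
    simp only [fA, Pi.add_apply]
    rw [← Finset.sum_add_distrib]
    apply Finset.sum_congr rfl
    intro i _
    split_ifs
    · rw [← mul_add, ← Finset.sum_add_distrib]
      congr 1
      apply Finset.sum_congr rfl
      intro c _; ring
    · ring
  map_smul' r g := by
    funext x
    simp only [fA, Pi.smul_apply, smul_eq_mul, RingHom.id_apply]
    rw [Finset.mul_sum]
    apply Finset.sum_congr rfl
    intro i _
    split_ifs
    · rw [mul_left_comm r]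
      congr 1
      rw [Finset.mul_sum]
      apply Finset.sum_congr rfl
      intro c _; ring
    · ring

/-- `fT` as a linear map -/
def opT : ((ι × ℕ) → ℂ) →ₗ[ℂ] ((ι × ℕ) → ℂ) where
  toFun g := fT g
  map_add' g g' := by
    funext x; simp only [fT, Pi.add_apply]; split_ifs <;> simp
  map_smul' r g := by
    funext x; simp only [fT, Pi.smul_apply, smul_eq_mul, RingHom.id_apply]; split_ifs <;> simp

variable (D) in
/-- `fTH` as a linear map -/
noncomputable def opTH : ((ι × ℕ) → ℂ) →ₗ[ℂ] ((ι × ℕ) → ℂ) where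
  toFun g := D.fTH g
  map_add' g g' := by
    funext x; simp only [fTH, Pi.add_apply]; split_ifs
    · simp
    · rw [← Finset.sum_add_distrib]; apply Finset.sum_congr rfl; intro c _; ring
  map_smul' r g := by
    funext x; simp only [fTH, Pi.smul_apply, smul_eq_mul, RingHom.id_apply]; split_ifs
    · simp
    · rw [Finset.mul_sum]; apply Finset.sum_congr rfl; intro c _; ring

lemma lin_der (K : ℕ) (G : List (ι × ℕ) → ℂ) (S : List (ι × ℕ)) :
    D.lin K G S = der (D.opA K) S G - D.opA K (fun y => G (y :: S)) (D.one, 1) := by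
  unfold lin
  rw [der_eq_dr]; rfl

lemma lin_fun (K : ℕ) (G : List (ι × ℕ) → ℂ) :
    D.lin K G = fun S => der (D.opA K) S G - D.opA K (fun y => G (y :: S)) (D.one, 1) := by
  funext S; exact lin_der K G S

lemma Axioms.string' {inv : ℕ → ℕ → List (ι × ℕ) → ℂ} (h : D.Axioms inv) (g e : ℕ)
    (S : List (ι × ℕ)) : inv g e ((D.one, 0) :: S) =
    der opT S (inv g e) + (if g = 0 ∧ e = 0 then pairing D.η S else 0) := by
  rw [h.string, der_eq_dr]; rfl

lemma Axioms.divisor' {inv : ℕ → ℕ → List (ι × ℕ) → ℂ} (h : D.Axioms inv) (g e : ℕ)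
    (S : List (ι × ℕ)) : inv g e ((D.h, 0) :: S) =
    (e : ℂ) * inv g e S + der D.opTH S (inv g e) +
      (if g = 0 ∧ e = 0 then pairing (D.H * D.η) S else 0) -
      (if g = 1 ∧ e = 0 ∧ S = [] then D.hc / 24 else 0) := by
  rw [h.divisor, der_eq_dr]; rfl

lemma b_def (a : ι) : D.b a = (D.p a : ℂ) - (D.dim : ℂ) / 2 + 1 / 2 := rfl

lemma Good.η_par (hD : D.Good) {a c : ι} (h : D.η a c ≠ 0) : D.par a = D.par c := by
  obtain ⟨h1, h2⟩ := hD.η_type a c h
  unfold par
  congr 1
  apply propext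
  constructor <;> intro _ <;> omega

lemma Good.H_par (hD : D.Good) {a c : ι} (h : D.H a c ≠ 0) : D.par a = D.par c := by
  obtain ⟨h1, h2⟩ := hD.H_type a c h
  unfold par
  congr 1
  apply propext
  constructor <;> intro _ <;> omega

lemma Good.R_type (hD : D.Good) {a c : ι} (h : D.R a c ≠ 0) :
    D.p c = D.p a + 1 ∧ D.q c = D.q a + 1 := by
  apply hD.H_type
  intro h'
  apply h
  simp [R, h']

lemma Good.Rpow_type (hD : D.Good) (i : ℕ) {a c : ι} (h : (D.R ^ i) a c ≠ 0) :
    D.p c = D.p a + i ∧ D.q c = D.q a + i := by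
  induction i generalizing c with
  | zero =>
    simp only [pow_zero, Matrix.one_apply] at h
    split_ifs at h with h'
    · subst h'; simp
    · exact absurd rfl h
  | succ i ih =>
    rw [pow_succ, Matrix.mul_apply] at h
    obtain ⟨e, _, he⟩ := Finset.exists_ne_zero_of_sum_ne_zero h
    have h1 := ih (left_ne_zero_of_mul he)
    have h2 := hD.R_type (right_ne_zero_of_mul he)
    constructor <;> omega

lemma Good.Rpow_par (hD : D.Good) (i : ℕ) {a c : ι} (h : (D.R ^ i) a c ≠ 0) :
    D.par a = D.par c := by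
  obtain ⟨h1, h2⟩ := hD.Rpow_type i h
  unfold par
  congr 1
  apply propext
  constructor <;> intro _ <;> omega

lemma Good.η_b (hD : D.Good) {a c : ι} (h : D.η a c ≠ 0) : D.b a + D.b c = 1 := by
  obtain ⟨h1, h2⟩ := hD.η_type a c h
  rw [b_def, b_def]
  have : (D.p a : ℂ) + (D.p c : ℂ) = D.dim := by exact_mod_cast h1
  linear_combination this

lemma Good.Rpow_b (hD : D.Good) (i : ℕ) {a c : ι} (h : (D.R ^ i) a c ≠ 0) :
    D.b c = D.b a + i := by
  obtain ⟨h1, h2⟩ := hD.Rpow_type i h
  rw [b_def, b_def]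
  have : (D.p c : ℂ) = (D.p a : ℂ) + i := by exact_mod_cast h1
  rw [this]; ring

lemma Good.inv_mul (hD : D.Good) : D.η⁻¹ * D.η = 1 := Matrix.nonsing_inv_mul _ hD.η_unit

lemma Good.mul_inv (hD : D.Good) : D.η * D.η⁻¹ = 1 := Matrix.mul_nonsing_inv _ hD.η_unit

/-- The inverse of the pairing is homogeneous for every grading for which the pairing is. -/
lemma inv_homog (hD : D.Good) (w : ι → ℂ) (s : ℂ) (h : ∀ a c, D.η a c ≠ 0 → w a + w c = s)
    {a c : ι} (hac : D.η⁻¹ a c ≠ 0) : w a + w c = s := by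
  have h1 : Matrix.diagonal w * D.η = D.η * Matrix.diagonal (fun c => s - w c) := by
    ext a c
    rw [Matrix.diagonal_mul, Matrix.mul_diagonal]
    by_cases h0 : D.η a c = 0
    · simp [h0]
    · rw [← h a c h0]; ring
  have h2 : D.η⁻¹ * Matrix.diagonal w = Matrix.diagonal (fun c => s - w c) * D.η⁻¹ := by
    have := congrArg (fun M => D.η⁻¹ * M * D.η⁻¹) h1
    beta_reduce at this
    rw [← Matrix.mul_assoc, Matrix.mul_assoc (D.η⁻¹ * Matrix.diagonal w), hD.mul_inv,
      Matrix.mul_one, ← Matrix.mul_assoc (D.η⁻¹) (D.η), hD.inv_mul, Matrix.one_mul] at this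
    exact this
  have h3 := congrFun (congrFun h2 a) c
  rw [Matrix.mul_diagonal, Matrix.diagonal_mul] at h3
  have h4 : D.η⁻¹ a c * (w a + w c - s) = 0 := by linear_combination h3
  rcases mul_eq_zero.mp h4 with h5 | h5
  · exact absurd h5 hac
  · linear_combination h5

lemma Good.inv_type (hD : D.Good) {a c : ι} (h : D.η⁻¹ a c ≠ 0) :
    D.p a + D.p c = D.dim ∧ D.q a + D.q c = D.dim := by
  constructor
  · have := inv_homog hD (fun a => (D.p a : ℂ)) D.dim
      (fun a c h => by exact_mod_cast (hD.η_type a c h).1) h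
    exact_mod_cast this
  · have := inv_homog hD (fun a => (D.q a : ℂ)) D.dim
      (fun a c h => by exact_mod_cast (hD.η_type a c h).2) h
    exact_mod_cast this

/-- the types of the pairs of classes which occur in `(R^i)^{ac}` -/
lemma Good.B_type (hD : D.Good) (i : ℕ) {a c : ι} (h : (D.η⁻¹ * D.R ^ i) a c ≠ 0) :
    D.p a + D.p c = D.dim + i ∧ D.q a + D.q c = D.dim + i := by
  rw [Matrix.mul_apply] at h
  obtain ⟨e, _, he⟩ := Finset.exists_ne_zero_of_sum_ne_zero h
  have h1 := hD.inv_type (left_ne_zero_of_mul he)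
  have h2 := hD.Rpow_type i (right_ne_zero_of_mul he)
  constructor <;> omega

lemma Good.B_par (hD : D.Good) (i : ℕ) {a c : ι} (h : (D.η⁻¹ * D.R ^ i) a c ≠ 0) :
    D.par a = D.par c := by
  obtain ⟨h1, h2⟩ := hD.B_type i h
  unfold par
  congr 1
  apply propext
  constructor <;> intro _ <;> omega

lemma Good.Rη (hD : D.Good) : D.R * D.η = D.η * D.R.transpose := by
  ext a c
  have h0 : (D.R * D.η) a c = ks D.par a c * (D.R * D.η) c a := by
    have := hD.H_symm a c
    simp only [R, Matrix.smul_mul, Matrix.smul_apply, smul_eq_mul]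
    rw [this]; ring
  rw [h0, Matrix.mul_apply, Matrix.mul_apply, Finset.mul_sum]
  apply Finset.sum_congr rfl
  intro e _
  rw [Matrix.transpose_apply]
  by_cases h1 : D.R c e = 0
  · simp [h1]
  · have h2 : D.par c = D.par e := hD.Rpow_par 1 (by simpa using h1)
    rw [hD.η_symm e a]
    calc ks D.par a c * (D.R c e * (ks D.par e a * D.η a e))
        = (ks D.par a c * ks D.par e a) * (D.η a e * D.R c e) := by ring
      _ = D.η a e * D.R c e := by
        rw [ks_comm e a, ks_congr' h2, ks_mul_self, one_mul]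

lemma Good.Rpowη (hD : D.Good) (i : ℕ) : D.R ^ i * D.η = D.η * (D.R ^ i).transpose := by
  induction i with
  | zero => simp
  | succ i ih =>
    rw [pow_succ, Matrix.mul_assoc, hD.Rη, ← Matrix.mul_assoc, ih, Matrix.mul_assoc,
      ← Matrix.transpose_mul, ← pow_succ', ← pow_succ]

lemma Good.B_η (hD : D.Good) (i : ℕ) :
    D.η⁻¹ * D.R ^ i * D.η = (D.R ^ i).transpose := by
  rw [Matrix.mul_assoc, hD.Rpowη, ← Matrix.mul_assoc, hD.inv_mul, Matrix.one_mul]

lemma Good.η_B (hD : D.Good) (i : ℕ) :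
    D.η * (D.η⁻¹ * D.R ^ i) = D.R ^ i := by
  rw [← Matrix.mul_assoc, hD.mul_inv, Matrix.one_mul]

lemma Good.Rpowη_symm (hD : D.Good) (i : ℕ) (a c : ι) :
    (D.R ^ i * D.η) a c = ks D.par a c * (D.R ^ i * D.η) c a := by
  conv_lhs => rw [hD.Rpowη]
  rw [Matrix.mul_apply, Matrix.mul_apply, Finset.mul_sum]
  apply Finset.sum_congr rfl
  intro e _
  rw [Matrix.transpose_apply]
  by_cases h1 : (D.R ^ i) c e = 0
  · simp [h1]
  · have h2 : D.par c = D.par e := hD.Rpow_par i h1
    rw [hD.η_symm a e, ks_congr' h2]; ring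

lemma opA_apply (K : ℕ) (g : (ι × ℕ) → ℂ) (x : ι × ℕ) : D.opA K g x =
    ∑ i ∈ range (K + 1), if i + 1 ≤ x.2 + K then
    br K i (D.b x.1 + x.2) * ∑ c, (D.R ^ i) x.1 c * g (c, x.2 + K - 1 - i) else 0 := rfl

lemma opT_zero (g : (ι × ℕ) → ℂ) (a : ι) : opT g (a, 0) = 0 := rfl

lemma opT_succ (g : (ι × ℕ) → ℂ) (a : ι) (m : ℕ) : opT g (a, m + 1) = g (a, m) := rfl

lemma opT_apply (g : (ι × ℕ) → ℂ) (x : ι × ℕ) :
    opT g x = if x.2 = 0 then 0 else g (x.1, x.2 - 1) := rfl

lemma opTH_apply (g : (ι × ℕ) → ℂ) (x : ι × ℕ) :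
    D.opTH g x = if x.2 = 0 then 0 else ∑ c, D.H x.1 c * g (c, x.2 - 1) := rfl

lemma opT_even : EvenOp D.pr (opT (ι := ι)) := by
  intro z g x
  rw [opT_apply, opT_apply]
  split_ifs
  · simp
  · rfl

lemma opTH_even (hD : D.Good) : EvenOp D.pr D.opTH := by
  intro z g x
  rw [opTH_apply, opTH_apply]
  split_ifs
  · simp
  · rw [Finset.mul_sum]
    apply Finset.sum_congr rfl
    intro c _
    by_cases h : D.H x.1 c = 0
    · simp [h]
    · have : D.par x.1 = D.par c := hD.H_par h
      have : ks D.pr z (c, x.2 - 1) = ks D.pr z x := ks_congr' (by simp [pr, this]) z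
      rw [this]; ring

lemma opA_even (hD : D.Good) (K : ℕ) : EvenOp D.pr (D.opA K) := by
  intro z g x
  rw [opA_apply, opA_apply, Finset.mul_sum]
  apply Finset.sum_congr rfl
  intro i _
  split_ifs
  · rw [mul_left_comm]
    congr 1
    rw [Finset.mul_sum]
    apply Finset.sum_congr rfl
    intro c _
    by_cases h : (D.R ^ i) x.1 c = 0
    · simp [h]
    · have h' : D.par x.1 = D.par c := hD.Rpow_par i h
      have : ks D.pr z (c, x.2 + K - 1 - i) = ks D.pr z x := ks_congr' (by simp [pr, h']) z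
      rw [this]; ring
  · simp

/-- the defect of the commutation of `opA` and `opT` -/
noncomputable def opKr (D : Coh ι) (K : ℕ) : ((ι × ℕ) → ℂ) →ₗ[ℂ] ((ι × ℕ) → ℂ) where
  toFun g x := if x.2 = 0 then ∑ i ∈ range (K - 1),
    br K i (D.b x.1 - 1) * ∑ c, (D.R ^ i) x.1 c * g (c, K - 2 - i) else 0
  map_add' g g' := by
    funext x
    simp only [Pi.add_apply]
    split_ifs
    · rw [← Finset.sum_add_distrib]
      apply Finset.sum_congr rfl
      intro i _
      rw [← mul_add, ← Finset.sum_add_distrib]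
      congr 1
      apply Finset.sum_congr rfl
      intro c _; ring
    · simp
  map_smul' r g := by
    funext x
    simp only [Pi.smul_apply, smul_eq_mul, RingHom.id_apply]
    split_ifs
    · rw [Finset.mul_sum]
      apply Finset.sum_congr rfl
      intro i _
      rw [mul_left_comm r]
      congr 1
      rw [Finset.mul_sum]
      apply Finset.sum_congr rfl
      intro c _; ring
    · simp

lemma opKr_apply (K : ℕ) (g : (ι × ℕ) → ℂ) (x : ι × ℕ) : D.opKr K g x =
    if x.2 = 0 then ∑ i ∈ range (K - 1),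
    br K i (D.b x.1 - 1) * ∑ c, (D.R ^ i) x.1 c * g (c, K - 2 - i) else 0 := rfl

lemma opA_comm (K : ℕ) (g : (ι × ℕ) → ℂ) (x : ι × ℕ) :
    D.opA (K + 1) (opT g) x - opT (D.opA (K + 1) g) x =
      ((K : ℂ) + 1) * D.opA K g x + D.opKr (K + 1) g x := by
  obtain ⟨a, m⟩ := x
  rcases m with _ | m
  · rw [opT_zero, sub_zero, opKr_apply, if_pos rfl, opA_apply, opA_apply,
      Finset.sum_range_succ, Finset.sum_range_succ, Finset.sum_range_succ (n := K)]
    have e1 : (if K + 1 + 1 ≤ 0 + (K + 1) then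
        br (K + 1) (K + 1) (D.b a + ((0 : ℕ) : ℂ)) *
          ∑ c, (D.R ^ (K + 1)) a c * opT g (c, 0 + (K + 1) - 1 - (K + 1)) else 0) = 0 :=
      if_neg (by omega)
    have e2 : (if K + 1 ≤ 0 + (K + 1) then
        br (K + 1) K (D.b a + ((0 : ℕ) : ℂ)) *
          ∑ c, (D.R ^ K) a c * opT g (c, 0 + (K + 1) - 1 - K) else 0) = 0 := by
      rw [if_pos (by omega)]
      have : 0 + (K + 1) - 1 - K = 0 := by omega
      simp [this, opT_zero]
    have e3 : (if K + 1 ≤ 0 + K then
        br K K (D.b a + ((0 : ℕ) : ℂ)) *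
          ∑ c, (D.R ^ K) a c * g (c, 0 + K - 1 - K) else 0) = 0 := if_neg (by omega)
    simp only at e1 e2 e3 ⊢
    rw [e1, e2, e3, add_zero, add_zero, add_zero, Finset.mul_sum]
    simp only [Nat.add_sub_cancel]
    rw [← Finset.sum_add_distrib]
    apply Finset.sum_congr rfl
    intro i hi
    have hi' : i < K := Finset.mem_range.mp hi
    rw [if_pos (by omega), if_pos (by omega)]
    have e4 : 0 + (K + 1) - 1 - i = (0 + K - 1 - i) + 1 := by omega
    have e5 : K + 1 - 2 - i = 0 + K - 1 - i := by omega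
    rw [e4, e5]
    simp only [opT_succ]
    have := br_diff K i (D.b a)
    push_cast
    rw [add_zero]
    linear_combination (∑ c, (D.R ^ i) a c * g (c, 0 + K - 1 - i)) * this
  · rw [opT_succ, opKr_apply, if_neg (by simp), add_zero, opA_apply, opA_apply, opA_apply]
    have e0 : (∑ i ∈ range (K + 1), if i + 1 ≤ (a, m + 1).2 + K then
        br K i (D.b (a, m + 1).1 + ((a, m + 1).2 : ℂ)) *
          ∑ c, (D.R ^ i) (a, m + 1).1 c * g (c, (a, m + 1).2 + K - 1 - i) else 0) =
        ∑ i ∈ range (K + 1 + 1), if i + 1 ≤ m + (K + 1) then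
        br K i (D.b a + ((m : ℂ) + 1)) *
          ∑ c, (D.R ^ i) a c * g (c, m + K - i) else 0 := by
      rw [Finset.sum_range_succ (n := K + 1), br_gt (Nat.lt_succ_self K)]
      simp only [zero_mul, ite_self, add_zero]
      apply Finset.sum_congr rfl
      intro i hi
      have hi' : i < K + 1 := Finset.mem_range.mp hi
      rw [if_pos (by omega), if_pos (by omega)]
      have : m + 1 + K - 1 - i = m + K - i := by omega
      rw [this]; push_cast; rfl
    rw [e0, Finset.mul_sum, ← Finset.sum_sub_distrib]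
    apply Finset.sum_congr rfl
    intro i hi
    have hi' : i < K + 1 + 1 := Finset.mem_range.mp hi
    simp only
    by_cases hc : i + 1 ≤ m + (K + 1)
    · rw [if_pos (by omega), if_pos hc, if_pos hc]
      have e1 : m + 1 + (K + 1) - 1 - i = (m + K - i) + 1 := by omega
      have e2 : m + (K + 1) - 1 - i = m + K - i := by omega
      rw [e1, e2]
      simp only [opT_succ]
      have := br_diff K i (D.b a + ((m : ℂ) + 1))
      have h3 : D.b a + ((m : ℂ) + 1) - 1 = D.b a + m := by ring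
      rw [h3] at this
      push_cast
      linear_combination (∑ c, (D.R ^ i) a c * g (c, m + K - i)) * this
    · rw [if_neg hc, if_neg hc, if_pos (by omega)]
      have e1 : m + 1 + (K + 1) - 1 - i = 0 := by omega
      rw [e1]
      simp [opT_zero]

end Coh

end Vale.Agent.P269.H598
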