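import Vale.Agent.P269.H598.Defs

/-!
The topological recursion relations in genus zero.
-/

namespace Vale.Agent.P269.H598

open Finset

namespace Coh

variable {ι : Type} [Fintype ι] [DecidableEq ι] (D : Coh ι)

/-- The topological recursion relations in genus zero,
`⟨τ_{m+1}(φ_a) y z S⟩_{0,e} = ∑ ± ⟨τ_m(φ_a) φ_c I⟩_{0,e₁} η^{cc'} ⟨φ_{c'} y z J⟩_{0,e₂}`,
summed over `e₁ + e₂ = e`, `c`, `c'` and the splittings of `S` into `I` and `J`. -/
def TRR (inv : ℕ → ℕ → List (ι × ℕ) → ℂ) : Prop :=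
  ∀ (e : ℕ) (a : ι) (m : ℕ) (y z : ι × ℕ) (S : List (ι × ℕ)),
    inv 0 e ((a, m + 1) :: y :: z :: S) =
      ∑ ee ∈ antidiagonal e, ∑ c, ∑ c', D.η⁻¹ c c' * shuf D.pr S (fun I J =>
        kl D.pr y I * kl D.pr z I * kl D.pr (c', 0) I *
          (inv 0 ee.1 ((a, m) :: (c, 0) :: I) * inv 0 ee.2 ((c', 0) :: y :: z :: J)))

end Coh

end Vale.Agent.P269.H598
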