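import Vale.Agent.P269.H598.CI
import Vale.Agent.P269.H598.Exist

/-!
Uniqueness of the invariants when all virtual dimensions are nonpositive, and the Virasoro
constraints.
-/

set_option linter.unusedSectionVars false

namespace Vale.Agent.P269.H598

open Finset

namespace Coh

variable {ι : Type} [Fintype ι] [DecidableEq ι] {D : Coh ι}

/-- A supersymmetric function which satisfies homogeneous string, dilaton and divisor
equations, is of nonpositive degree and vanishes at the empty list, is zero. -/
lemma vanish' (hD : D.Good) (h2 : ∀ a, D.p a + D.q a = 2 → a = D.h)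
    {F : List (ι × ℕ) → ℂ} (hF : SS D.pr F) {c : ℤ}
    (hH : Hom D.wt F c) (hc : c ≤ 0) (h0 : F [] = 0)
    (hs : ∀ S, F ((D.one, 0) :: S) = der opT S F)
    (hd : ∀ S, ∃ r : ℂ, F ((D.one, 1) :: S) = r * F S)
    (hv : ∀ S, ∃ r : ℂ, F ((D.h, 0) :: S) = r * F S + der D.opTH S F)
    (S : List (ι × ℕ)) : F S = 0 := by
  have key : ∀ (n : ℕ) (S : List (ι × ℕ)), S.length = n → F S = 0 := by
    intro n
    induction n using Nat.strong_induction_on with
    | _ n ih =>
      intro S hn
      by_contra hne
      have h1 := hH S hne
      by_cases hneg : ∃ x ∈ S, D.wt x < 0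
      · obtain ⟨x, hx, hw⟩ := hneg
        have hx2 : x.2 = 0 := by unfold wt at hw; omega
        have hx1 : x.1 = D.one := by
          apply hD.type_one
          unfold wt at hw; omega
        obtain ⟨l, l', rfl⟩ := List.append_of_mem hx
        rw [hF.front] at hne
        apply right_ne_zero_of_mul hne
        have hx3 : x = (D.one, 0) := by ext <;> simp [hx1, hx2]
        rw [hx3, hs]
        apply der_length (n - 1)
        · intro S hS
          exact ih (n - 1) (by simp at hn; omega) S hS
        · simp at hn ⊢; omega
      · push Not at hneg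
        rcases S with _ | ⟨x, S⟩
        · exact hne h0
        · have h3 : 0 ≤ (S.map D.wt).sum := by
            apply List.sum_nonneg
            intro y hy
            obtain ⟨z, hz, rfl⟩ := List.mem_map.mp hy
            exact hneg z (List.mem_cons_of_mem _ hz)
          have h4 := hneg x List.mem_cons_self
          rw [List.map_cons, List.sum_cons] at h1
          have h5 : D.wt x = 0 := by omega
          rw [List.length_cons] at hn
          have hS : F S = 0 := ih (n - 1) (by omega) S (by omega)
          obtain ⟨a, m⟩ := x
          unfold wt at h5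
          simp only at h5
          rcases m with _ | _ | m
          · have ha : a = D.h := h2 a (by omega)
            subst ha
            obtain ⟨r, hr⟩ := hv S
            apply hne
            rw [hr, hS, mul_zero, zero_add]
            apply der_length (n - 1)
            · intro S' hS'
              exact ih (n - 1) (by omega) S' hS'
            · omega
          · have ha : a = D.one := hD.type_one a (by omega)
            subst ha
            obtain ⟨r, hr⟩ := hd S
            apply hne
            show F ((D.one, 1) :: S) = 0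
            rw [hr, hS, mul_zero]
          · omega
  exact key S.length S rfl

/-- Uniqueness. -/
theorem unique (hD : D.Good) (h2 : ∀ a, D.p a + D.q a = 2 → a = D.h) (h3 : 3 ≤ D.dim)
    (hκ : D.κ ≤ 2 - D.dim) {C : ℕ → ℂ} {inv inv' : ℕ → ℕ → List (ι × ℕ) → ℂ}
    (h : D.IsGW C inv) (h' : D.IsGW C inv') : inv = inv' := by
  funext g e S
  by_cases hge : g = 0 ∧ e = 0
  · rw [hge.1, hge.2, h.deg0, h'.deg0]
  · have hdim1 : ∀ g e : ℕ, ¬ (g = 0 ∧ e = 0) →
        (1 - (g : ℤ)) * ((D.dim : ℤ) - 3) + D.κ * e ≤ 0 ∧
        (e ≠ 0 → (1 - (g : ℤ)) * ((D.dim : ℤ) - 3) + D.κ * e < 0) := by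
      intro g e hge
      have a1 : (3 : ℤ) ≤ D.dim := by exact_mod_cast h3
      rcases g with _ | g
      · have he : 1 ≤ e := by
          rcases e with _ | e
          · exact absurd ⟨rfl, rfl⟩ hge
          · omega
        have a2 : (1 : ℤ) ≤ e := by exact_mod_cast he
        have a3 : D.κ * e ≤ D.κ := by nlinarith
        push_cast
        constructor
        · linarith
        · intro _; linarith
      · have a4 : (1 - ((g + 1 : ℕ) : ℤ)) * ((D.dim : ℤ) - 3) ≤ 0 := by
          push_cast
          nlinarith [(by positivity : (0 : ℤ) ≤ g)]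
        rcases e with _ | e
        · constructor
          · push_cast at a4 ⊢; linarith
          · intro h; exact absurd rfl h
        · have a5 : D.κ * ((e + 1 : ℕ) : ℤ) ≤ -1 := by
            push_cast
            nlinarith [(by positivity : (0 : ℤ) ≤ e)]
          constructor
          · linarith
          · intro _; linarith
    obtain ⟨hle, hlt⟩ := hdim1 g e hge
    have hz := vanish' hD h2 (F := fun s => inv g e s - inv' g e s)
      ((h.symm g e).sub (h'.symm g e))
      (c := 2 * ((1 - (g : ℤ)) * ((D.dim : ℤ) - 3) + D.κ * e)) ?_ (by linarith) ?_ ?_ ?_ ?_ S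
    · exact sub_eq_zero.mp hz
    · intro S hS
      by_cases h1 : inv g e S = 0
      · by_cases h2 : inv' g e S = 0
        · exact absurd (by simp only [h1, h2, sub_zero]) hS
        · exact h'.toAxioms.hom g e S h2
      · exact h.toAxioms.hom g e S h1
    · show inv g e [] - inv' g e [] = 0
      rcases Nat.eq_zero_or_pos e with he | he
      · subst he
        rcases g with _ | _ | g
        · exact absurd ⟨rfl, rfl⟩ hge
        · rw [h.gen1, h'.gen1, sub_zero]
        · rw [h.gen2 _ (by omega), h'.gen2 _ (by omega), sub_self]
      · have z1 : inv g e [] = 0 := by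
          by_contra hne
          have := h.dimp g e [] hne
          simp only [List.map_nil, List.sum_nil] at this
          have := hlt (by omega)
          omega
        have z2 : inv' g e [] = 0 := by
          by_contra hne
          have := h'.dimp g e [] hne
          simp only [List.map_nil, List.sum_nil] at this
          have := hlt (by omega)
          omega
        rw [z1, z2, sub_zero]
    · intro S
      show inv g e ((D.one, 0) :: S) - inv' g e ((D.one, 0) :: S) = _
      rw [h.toAxioms.string', h'.toAxioms.string', der_sub]; ring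
    · intro S
      refine ⟨2 * (g : ℂ) - 2 + S.length, ?_⟩
      show inv g e ((D.one, 1) :: S) - inv' g e ((D.one, 1) :: S) = _
      rw [h.dilaton, h'.dilaton]; ring
    · intro S
      refine ⟨(e : ℂ), ?_⟩
      show inv g e ((D.h, 0) :: S) - inv' g e ((D.h, 0) :: S) = _
      rw [h.toAxioms.divisor', h'.toAxioms.divisor', der_sub]; ring

/-- The Virasoro constraints where the virtual dimension is nonpositive. -/
theorem vir_nonpos (hD : D.Good)
    (hLW : D.chi / 16 - D.str (fun a => D.μ a ^ 2) / 4 =
      ((3 - (D.dim : ℂ)) * D.chi - 2 * D.κ * D.hc) / 48)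
    {inv : ℕ → ℕ → List (ι × ℕ) → ℂ} (h : D.Axioms inv) (g e : ℕ)
    (hdim : (1 - (g : ℤ)) * ((D.dim : ℤ) - 3) + D.κ * e ≤ 0) (K : ℕ) (S : List (ι × ℕ)) :
    D.vir inv K g e S = 0 := by
  rcases K with _ | K
  · exact vir_zero hD h g e S
  · induction K generalizing S with
    | zero => exact vir_one hD h hLW g e S
    | succ K ih => exact vir_step hD h (K + 1) g e ih (by push_cast; omega) S

/-- The Virasoro constraints when all virtual dimensions are nonpositive. -/
theorem virasoro_of (hD : D.Good) (hI : D.IntGood)
    (hLW : D.chi / 16 - D.str (fun a => D.μ a ^ 2) / 4 =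
      ((3 - (D.dim : ℂ)) * D.chi - 2 * D.κ * D.hc) / 48)
    (h3 : 3 ≤ D.dim) (hκ : D.κ ≤ 3 - D.dim) {C : ℕ → ℂ} {inv : ℕ → ℕ → List (ι × ℕ) → ℂ}
    (h : D.IsGW C inv) : D.Virasoro inv := by
  intro K g e S
  by_cases hge : g = 0 ∧ e = 0
  · rw [hge.1, hge.2]
    exact vir_genus0 hD hI h.deg0 K S
  · apply vir_nonpos hD hLW h.toAxioms
    have a1 : (3 : ℤ) ≤ D.dim := by exact_mod_cast h3
    have a0 : D.κ ≤ 0 := by linarith
    rcases g with _ | g
    · have he : 1 ≤ e := by
        rcases e with _ | e
        · exact absurd ⟨rfl, rfl⟩ hge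
        · omega
      have a2 : (1 : ℤ) ≤ e := by exact_mod_cast he
      have a3 : D.κ * e ≤ D.κ := by nlinarith
      push_cast; linarith
    · have a4 : (1 - ((g + 1 : ℕ) : ℤ)) * ((D.dim : ℤ) - 3) ≤ 0 := by
        push_cast
        nlinarith [(by positivity : (0 : ℤ) ≤ g)]
      have a5 : D.κ * (e : ℤ) ≤ 0 := by
        nlinarith [(by positivity : (0 : ℤ) ≤ e)]
      linarith

end Coh

end Vale.Agent.P269.H598
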