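import Vale.Agent.P269.H598.RStep3
import Vale.Agent.P269.H598.TRRDef
import Vale.Agent.P269.H598.Unique

/-!
The genus zero Virasoro constraints for systems of numbers with the topological recursion
relations.
-/

set_option linter.unusedSectionVars false

namespace Vale.Agent.P269.H598.R

noncomputable section

open Finset Coh

variable {ι : Type} [Fintype ι] [DecidableEq ι] {D : Coh ι}

/-- the genus zero potential -/
def GS (inv : ℕ → ℕ → List (ι × ℕ) → ℂ) (S : List (ι × ℕ)) : PS :=
  PowerSeries.mk (fun e => inv 0 e S)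

lemma GS_coeff (inv : ℕ → ℕ → List (ι × ℕ) → ℂ) (S : List (ι × ℕ)) (e : ℕ) :
    PowerSeries.coeff e (GS inv S) = inv 0 e S := by
  unfold GS; rw [PowerSeries.coeff_mk]

lemma conn (inv : ℕ → ℕ → List (ι × ℕ) → ℂ) (K e : ℕ) (S : List (ι × ℕ)) :
    PowerSeries.coeff e (zR D (GS inv) K S) = D.vir inv K 0 e S := by
  unfold zR vir
  rw [map_add, map_add, map_sub, der_coeff, RA_coeff, PowerSeries.coeff_C_mul, RBS_coeff]
  rw [if_pos (rfl : (0 : ℕ) = 0), add_zero, Finset.Nat.antidiagonal_zero, Finset.sum_singleton]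
  simp only [GS_coeff, true_and]
  have e1 : H598.der (D.opA K) S (fun s => inv 0 e s) -
      D.opA K (fun y => inv 0 e (y :: S)) (D.one, 1) = D.lin K (inv 0 e) S := by
    rw [lin_eq]; rfl
  rw [e1]
  have e2 : (1 / 2 : ℂ) * D.BS K (fun u v => PowerSeries.coeff e (shuf D.pr S (fun I J =>
      kl D.pr v I * (GS inv (u :: I) * GS inv (v :: J))))) =
      ∑ ee ∈ antidiagonal e, D.quad2 K (inv 0 ee.1) (inv 0 ee.2) S := by
    unfold quad2
    rw [← Finset.mul_sum, ← BS_sum]
    congr 2; funext u v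
    rw [shuf_coeff, ← H598.shuf_sum]
    congr 1; funext I J
    rw [kl_coeff, PowerSeries.coeff_mul, Finset.mul_sum]
    simp only [GS_coeff]
  rw [e2]
  have e3 : PowerSeries.coeff e (PowerSeries.C (pairing (D.R ^ K * D.η) S)) =
      if e = 0 then pairing (D.R ^ K * D.η) S else 0 := by
    rw [PowerSeries.coeff_C]
  have e4 : D.scal K 0 e S = 0 := by unfold scal; simp
  rw [e3, e4, add_zero]

lemma ev_of {inv : ℕ → ℕ → List (ι × ℕ) → ℂ} (h : D.Axioms inv) (L : List (ι × ℕ))
    (hL : tp D.pr L = true) : GS inv L = 0 := by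
  ext e
  rw [GS_coeff, map_zero]
  by_contra h0
  have h1 := h.dimp 0 e L h0
  have h2 := h.dimq 0 e L h0
  have h3 : (L.map fun x => (x.2 : ℤ) + (D.p x.1 : ℤ) - 1).sum =
      (L.map fun x => (x.2 : ℤ) + (D.q x.1 : ℤ) - 1).sum := by rw [h1, h2]
  have h4 : ∀ L : List (ι × ℕ), (tp D.pr L = true ↔
      ((L.map fun x => (x.2 : ℤ) + (D.p x.1 : ℤ) - 1).sum +
      (L.map fun x => (x.2 : ℤ) + (D.q x.1 : ℤ) - 1).sum) % 2 = 1) := by
    intro L
    induction L with
    | nil => simp [tp]
    | cons x L ih =>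
      simp only [tp, List.map_cons, List.sum_cons]
      have h5 : D.pr x = true ↔ ((D.p x.1 : ℤ) + (D.q x.1 : ℤ)) % 2 = 1 := by
        unfold pr par
        rw [decide_eq_true_iff]; omega
      by_cases h6 : D.pr x = true
      · rw [h6, Bool.true_xor]
        have h7 := h5.mp h6
        by_cases h8 : tp D.pr L = true
        · have h9 := ih.mp h8
          rw [h8]; simp only [Bool.not_true]
          constructor
          · intro h; exact absurd h (by simp)
          · intro h; omega
        · have h9 : ¬ _ := fun h => h8 (ih.mpr h)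
          rw [Bool.not_eq_true] at h8
          rw [h8]; simp only [Bool.not_false, true_iff]
          omega
      · have h7 : ¬ _ := fun h => h6 (h5.mpr h)
        rw [Bool.not_eq_true] at h6
        rw [h6, Bool.false_xor, ih]
        constructor
        · intro h; omega
        · intro h; omega
  have h5 := (h4 L).mp hL
  omega

lemma Th_coeff (inv : ℕ → ℕ → List (ι × ℕ) → ℂ) (x : ι × ℕ) (I L : List (ι × ℕ)) (e : ℕ) :
    PowerSeries.coeff e (Th D (GS inv) x I L) = ∑ ee ∈ antidiagonal e, ∑ c, ∑ c', D.η⁻¹ c c' *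
      (H598.kl D.pr (c', 0) I * (inv 0 ee.1 (x :: (c, 0) :: I) * inv 0 ee.2 ((c', 0) :: L))) := by
  unfold Th
  rw [RC_coeff, Finset.sum_comm]
  rw [Finset.sum_comm (s := antidiagonal e)]
  rw [Finset.sum_comm]
  apply Finset.sum_congr rfl; intro c _
  rw [Finset.sum_comm (s := antidiagonal e)]
  apply Finset.sum_congr rfl; intro c' _
  rw [kl_coeff, PowerSeries.coeff_mul, Finset.mul_sum, Finset.mul_sum]
  simp only [GS_coeff]

lemma trr_of {inv : ℕ → ℕ → List (ι × ℕ) → ℂ} (h : D.TRR inv) (x y z : ι × ℕ)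
    (S : List (ι × ℕ)) : GS inv (up x :: y :: z :: S) =
    shuf D.pr S (fun I J => kl D.pr y I * (kl D.pr z I * Th D (GS inv) x I (y :: z :: J))) := by
  ext e
  rw [GS_coeff, shuf_coeff]
  have := h e x.1 x.2 y z S
  rw [show up x = (x.1, x.2 + 1) from rfl, this]
  have e1 : (fun I J => PowerSeries.coeff e (kl D.pr y I * (kl D.pr z I *
      Th D (GS inv) x I (y :: z :: J)))) =
      fun I J => ∑ ee ∈ antidiagonal e, ∑ c, ∑ c', D.η⁻¹ c c' *
        (H598.kl D.pr y I * H598.kl D.pr z I * H598.kl D.pr (c', 0) I *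
          (inv 0 ee.1 ((x.1, x.2) :: (c, 0) :: I) * inv 0 ee.2 ((c', 0) :: y :: z :: J))) := by
    funext I J
    rw [kl_coeff, kl_coeff, Th_coeff, Finset.mul_sum, Finset.mul_sum]
    apply Finset.sum_congr rfl; intro ee _
    rw [Finset.mul_sum, Finset.mul_sum]
    apply Finset.sum_congr rfl; intro c _
    rw [Finset.mul_sum, Finset.mul_sum]
    apply Finset.sum_congr rfl; intro c' _
    ring
  rw [e1, H598.shuf_sum]
  apply Finset.sum_congr rfl; intro ee _
  rw [H598.shuf_sum]
  apply Finset.sum_congr rfl; intro c _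
  rw [H598.shuf_sum]
  apply Finset.sum_congr rfl; intro c' _
  rw [H598.shuf_smul]

lemma string_GS (hD : D.Good) {inv : ℕ → ℕ → List (ι × ℕ) → ℂ} (h : D.Axioms inv)
    (x y : ι × ℕ) : GS inv [(D.one, 0), x, up y] =
      (if x.2 = 0 then 0 else GS inv [(x.1, x.2 - 1), up y]) + GS inv [x, y] := by
  ext e
  rw [map_add, GS_coeff, h.string]
  have e1 : pairing D.η [x, up y] = 0 := pairing_snd_ne _ _ _ _ (by simp [up])
  have e2 : fT (fun w => inv 0 e [x, w]) (up y) = inv 0 e [x, y] := by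
    unfold fT
    rw [if_neg (by simp [up])]
    simp only [up, Nat.add_sub_cancel]
  rw [e1, ite_self, add_zero]
  simp only [dr, add_zero]
  rw [e2, GS_coeff]
  congr 1
  unfold fT
  by_cases hx : x.2 = 0
  · rw [if_pos hx, if_pos hx, map_zero]
  · rw [if_neg hx, if_neg hx, GS_coeff]

lemma perm3 {par : (ι × ℕ) → Bool} {F : List (ι × ℕ) → PS} (hF : SS par F)
    {o : ι × ℕ} (ho : par o = false) (x y : ι × ℕ) : F [x, y, o] = F [o, x, y] := by
  have h1 := hF.front [x, y] o []
  simp only [List.cons_append, List.nil_append, List.append_nil] at h1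
  rw [h1, kl_even ho, one_mul]

lemma SS_GS {inv : ℕ → ℕ → List (ι × ℕ) → ℂ} (h : D.Axioms inv) : SS D.pr (GS inv) := by
  intro l x y l'
  ext e
  rw [GS_coeff, ks_coeff, GS_coeff]
  exact h.symm 0 e l x y l'

/-- the genus zero potential has the properties `RG` -/
lemma RG_of (hD : D.Good) {inv : ℕ → ℕ → List (ι × ℕ) → ℂ} (h : D.Axioms inv)
    (ht : D.TRR inv) : RG D (GS inv) where
  ss := SS_GS h
  ev := ev_of h
  trr := trr_of ht
  two := by
    intro x y
    have h1 := string_GS hD h (up x) y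
    rw [if_neg (by simp [up])] at h1
    have h2 := trr_of ht x (up y) (D.one, 0) []
    rw [perm3 (SS_GS h) (hD.pr_one 0)] at h2
    simp only [shuf, kl, one_mul] at h2
    have h3 : Th D (GS inv) x [] [up y, (D.one, 0)] = Th D (GS inv) x [] [y] := by
      unfold Th
      apply RC_congr'; intro c c'
      rw [perm3 (SS_GS h) (hD.pr_one 0), string_GS hD h (c', 0) y, if_pos rfl, zero_add]
    rw [← h3, ← h2, h1, add_comm]
    simp only [up, Nat.add_sub_cancel]
  dil := by
    intro S
    ext e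
    rw [GS_coeff, h.dilaton, if_neg (by simp), add_zero]
    rw [show ((S.length : PS) - 2) = PowerSeries.C ((S.length : ℂ) - 2) by
      rw [map_sub, map_natCast, map_ofNat], PowerSeries.coeff_C_mul, GS_coeff]
    congr 1
    push_cast; ring

end

end Vale.Agent.P269.H598.R

namespace Vale.Agent.P269.H598.Coh

open Finset

variable {ι : Type} [Fintype ι] [DecidableEq ι] {D : Coh ι}

/-- **Genus zero Virasoro constraints** -/
theorem vir_genus_zero (hD : D.Good)
    (hLW : D.chi / 16 - D.str (fun a => D.μ a ^ 2) / 4 =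
      ((3 - (D.dim : ℂ)) * D.chi - 2 * D.κ * D.hc) / 48)
    {inv : ℕ → ℕ → List (ι × ℕ) → ℂ} (h : D.Axioms inv) (ht : D.TRR inv) (K e : ℕ)
    (S : List (ι × ℕ)) : D.vir inv K 0 e S = 0 := by
  have h0 : ∀ L, R.zR D (R.GS inv) 0 L = 0 := by
    intro L; ext e
    rw [R.conn, map_zero]; exact vir_zero hD h 0 e L
  have h1 : ∀ L, R.zR D (R.GS inv) 1 L = 0 := by
    intro L; ext e
    rw [R.conn, map_zero]; exact vir_one hD h hLW 0 e L
  rw [← R.conn, (R.RG_of hD h ht).main hD h0 h1 K S, map_zero]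

end Vale.Agent.P269.H598.Coh
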