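import Vale.Agent.P269.H598.RSuper

/-!
Signs, associativity and commutativity of splittings, lists with one marked element.
-/

set_option linter.unusedSectionVars false

namespace Vale.Agent.P269.H598.R

noncomputable section

variable {X : Type} (par : X → Bool)

/-- total parity of a list -/
def tp : List X → Bool
  | [] => false
  | x :: l => xor (par x) (tp l)

/-- sign of a parity -/
def sg (b : Bool) : PS := if b then -1 else 1

variable {par}

lemma sg_mul (a b : Bool) : sg a * sg b = sg (xor a b) := by
  cases a <;> cases b <;> simp [sg]

lemma sg_sq (a : Bool) : sg a * sg a = 1 := by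
  cases a <;> simp [sg]

lemma ks_eq (x y : X) : ks par x y = sg (par x && par y) := rfl

lemma kl_eq (x : X) (l : List X) : kl par x l = sg (par x && tp par l) := by
  induction l with
  | nil => simp [kl, tp, sg]
  | cons y l ih =>
    simp only [kl, tp]
    rw [ih, ks_eq, sg_mul]
    congr 1
    cases par x <;> cases par y <;> cases tp par l <;> rfl

lemma tp_append (l l' : List X) : tp par (l ++ l') = xor (tp par l) (tp par l') := by
  induction l with
  | nil => simp [tp]
  | cons x l ih => simp only [List.cons_append, tp, ih, Bool.xor_assoc]

/-- congruence for splittings, using that the parities of the parts add up -/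
lemma shuf_congr (S : List X) {Φ Ψ : List X → List X → PS}
    (h : ∀ I J, xor (tp par I) (tp par J) = tp par S → Φ I J = Ψ I J) :
    shuf par S Φ = shuf par S Ψ := by
  induction S generalizing Φ Ψ with
  | nil => simp only [shuf]; exact h [] [] (by simp [tp])
  | cons x S ih =>
    simp only [shuf]
    rw [ih (Φ := fun I J => Φ (x :: I) J) (Ψ := fun I J => Ψ (x :: I) J),
      ih (Φ := fun I J => kl par x I * Φ I (x :: J)) (Ψ := fun I J => kl par x I * Ψ I (x :: J))]
    · intro I J hIJ
      rw [h I (x :: J)]
      simp only [tp, ← hIJ]
      cases tp par I <;> cases par x <;> cases tp par J <;> rfl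
    · intro I J hIJ
      exact h (x :: I) J (by simp only [tp, ← hIJ, Bool.xor_assoc])

lemma shuf_congr' (S : List X) {Φ Ψ : List X → List X → PS}
    (h : ∀ I J, Φ I J = Ψ I J) : shuf par S Φ = shuf par S Ψ :=
  shuf_congr S (fun I J _ => h I J)

lemma shuf_swap (S : List X) (Φ : List X → List X → PS) :
    shuf par S Φ = shuf par S (fun I J => sg (tp par I && tp par J) * Φ J I) := by
  induction S generalizing Φ with
  | nil => simp [shuf, tp, sg]
  | cons x S ih =>
    simp only [shuf]
    rw [add_comm, ih (fun I J => Φ (x :: I) J), ih (fun I J => kl par x I * Φ I (x :: J))]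
    congr 1
    · apply shuf_congr'; intro I J
      rw [kl_eq, ← mul_assoc, sg_mul]
      congr 2
      simp only [tp]
      cases tp par I <;> cases par x <;> cases tp par J <;> rfl
    · apply shuf_congr'; intro I J
      rw [kl_eq, ← mul_assoc, sg_mul]
      congr 2
      simp only [tp]
      cases tp par I <;> cases par x <;> cases tp par J <;> rfl

lemma shuf_kl (x : X) (S : List X) (Φ : List X → List X → PS) :
    shuf par S (fun I J => kl par x I * kl par x J * Φ I J) = kl par x S * shuf par S Φ := by
  rw [← shuf_smul]
  apply shuf_congr; intro I J h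
  rw [kl_eq, kl_eq, kl_eq, sg_mul, ← h]
  congr 2
  cases tp par I <;> cases par x <;> cases tp par J <;> rfl

lemma shuf_assoc (S : List X) (Φ : List X → List X → List X → PS) :
    shuf par S (fun I J => shuf par J (fun J1 J2 => Φ I J1 J2)) =
      shuf par S (fun I J => shuf par I (fun I1 I2 => Φ I1 I2 J)) := by
  induction S generalizing Φ with
  | nil => simp [shuf]
  | cons x S ih =>
    simp only [shuf]
    have e1 := ih (fun I J1 J2 => Φ (x :: I) J1 J2)
    have e2 := ih (fun I J1 J2 => kl par x I * Φ I (x :: J1) J2)
    have e3 := ih (fun I J1 J2 => kl par x I * (kl par x J1 * Φ I J1 (x :: J2)))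
    rw [e1]
    have f1 : shuf par S (fun I J => kl par x I * (shuf par J (fun J1 J2 => Φ I (x :: J1) J2) +
        shuf par J (fun J1 J2 => kl par x J1 * Φ I J1 (x :: J2)))) =
        shuf par S (fun I J => shuf par J (fun J1 J2 => kl par x I * Φ I (x :: J1) J2)) +
        shuf par S (fun I J => shuf par J (fun J1 J2 =>
          kl par x I * (kl par x J1 * Φ I J1 (x :: J2)))) := by
      rw [← shuf_add]; apply shuf_congr'; intro I J
      rw [shuf_smul, shuf_smul]; ring
    rw [f1, e2, e3]
    have f2 : shuf par S (fun I J => shuf par I (fun I1 I2 => Φ (x :: I1) I2 J) +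
        shuf par I (fun I1 I2 => kl par x I1 * Φ I1 (x :: I2) J)) =
        shuf par S (fun I J => shuf par I (fun I1 I2 => Φ (x :: I1) I2 J)) +
        shuf par S (fun I J => shuf par I (fun I1 I2 => kl par x I1 * Φ I1 (x :: I2) J)) := by
      rw [← shuf_add]
    have f3 : shuf par S (fun I J => kl par x I * shuf par I (fun I1 I2 => Φ I1 I2 (x :: J))) =
        shuf par S (fun I J => shuf par I (fun I1 I2 =>
          kl par x I1 * (kl par x I2 * Φ I1 I2 (x :: J)))) := by
      apply shuf_congr'; intro I J
      rw [← shuf_kl]
      apply shuf_congr'; intro I1 I2; ring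
    rw [f2, f3]; ring

/-! ### Lists with a marked element -/

/-- the sum over the elements `w` of the list, moved to the front, of `Ψ w L`, where `L` is the
list of the other elements, with the Koszul sign -/
def mark (par : X → Bool) : List X → (X → List X → PS) → PS
  | [], _ => 0
  | s :: S, Ψ => Ψ s S + mark par S (fun w L => ks par w s * Ψ w (s :: L))

lemma mark_congr (S : List X) {Φ Ψ : X → List X → PS}
    (h : ∀ w L, xor (par w) (tp par L) = tp par S → Φ w L = Ψ w L) :
    mark par S Φ = mark par S Ψ := by
  induction S generalizing Φ Ψ with
  | nil => rfl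
  | cons s S ih =>
    simp only [mark]
    rw [h s S rfl, ih (Φ := fun w L => ks par w s * Φ w (s :: L))
      (Ψ := fun w L => ks par w s * Ψ w (s :: L))]
    intro w L hw
    rw [h w (s :: L)]
    simp only [tp, ← hw]
    cases par w <;> cases par s <;> cases tp par L <;> rfl

lemma mark_congr' (S : List X) {Φ Ψ : X → List X → PS} (h : ∀ w L, Φ w L = Ψ w L) :
    mark par S Φ = mark par S Ψ := mark_congr S (fun w L _ => h w L)

lemma mark_add (S : List X) (Φ Ψ : X → List X → PS) :
    mark par S (fun w L => Φ w L + Ψ w L) = mark par S Φ + mark par S Ψ := by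
  induction S generalizing Φ Ψ with
  | nil => simp [mark]
  | cons s S ih =>
    simp only [mark]
    have : mark par S (fun w L => ks par w s * (Φ w (s :: L) + Ψ w (s :: L))) =
        mark par S (fun w L => ks par w s * Φ w (s :: L)) +
        mark par S (fun w L => ks par w s * Ψ w (s :: L)) := by
      rw [← ih]; apply mark_congr'; intro w L; ring
    rw [this]; ring

lemma mark_smul (S : List X) (c : PS) (Φ : X → List X → PS) :
    mark par S (fun w L => c * Φ w L) = c * mark par S Φ := by
  induction S generalizing Φ with
  | nil => simp [mark]
  | cons s S ih =>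
    simp only [mark]
    have : mark par S (fun w L => ks par w s * (c * Φ w (s :: L))) =
        c * mark par S (fun w L => ks par w s * Φ w (s :: L)) := by
      rw [← ih]; apply mark_congr'; intro w L; ring
    rw [this]; ring

lemma mark_kl (x : X) (S : List X) (Φ : X → List X → PS) :
    mark par S (fun w L => ks par x w * kl par x L * Φ w L) = kl par x S * mark par S Φ := by
  rw [← mark_smul]
  apply mark_congr; intro w L h
  rw [kl_eq, kl_eq, ks_eq, sg_mul, ← h]
  congr 2
  cases par w <;> cases par x <;> cases tp par L <;> rfl

lemma mark_shuf (S : List X) (Φ : X → List X → List X → PS) :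
    mark par S (fun w L => shuf par L (fun I J => Φ w I J)) =
      shuf par S (fun I J => mark par I (fun w L => Φ w L J)) := by
  induction S generalizing Φ with
  | nil => simp [mark, shuf]
  | cons s S ih =>
    simp only [mark, shuf]
    have e1 := ih (fun w I J => ks par w s * Φ w (s :: I) J)
    have e2 := ih (fun w I J => ks par w s * (kl par s I * Φ w I (s :: J)))
    have f1 : mark par S (fun w L => ks par w s * (shuf par L (fun I J => Φ w (s :: I) J) +
        shuf par L (fun I J => kl par s I * Φ w I (s :: J)))) =
        mark par S (fun w L => shuf par L (fun I J => ks par w s * Φ w (s :: I) J)) +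
        mark par S (fun w L => shuf par L (fun I J => ks par w s * (kl par s I *
          Φ w I (s :: J)))) := by
      rw [← mark_add]; apply mark_congr'; intro w L
      rw [shuf_smul, shuf_smul]; ring
    rw [f1, e1, e2, shuf_add]
    have f2 : shuf par S (fun I J => mark par I (fun w L => ks par w s *
        (kl par s L * Φ w L (s :: J)))) =
        shuf par S (fun I J => kl par s I * mark par I (fun w L => Φ w L (s :: J))) := by
      apply shuf_congr'; intro I J
      rw [← mark_kl]
      apply mark_congr'; intro w L; rw [ks_comm w s]; ring
    rw [f2]; ring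

lemma mark_shuf_right (S : List X) (Φ : X → List X → List X → PS) :
    mark par S (fun w L => shuf par L (fun I J => kl par w I * Φ w I J)) =
      shuf par S (fun I J => mark par J (fun w L => Φ w I L)) := by
  induction S generalizing Φ with
  | nil => simp [mark, shuf]
  | cons s S ih =>
    simp only [mark, shuf]
    have e1 := ih (fun w I J => Φ w (s :: I) J)
    have e2 := ih (fun w I J => ks par w s * (kl par s I * Φ w I (s :: J)))
    have f1 : mark par S (fun w L => ks par w s * (shuf par L (fun I J =>
        kl par w (s :: I) * Φ w (s :: I) J) +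
        shuf par L (fun I J => kl par s I * (kl par w I * Φ w I (s :: J))))) =
        mark par S (fun w L => shuf par L (fun I J => kl par w I * Φ w (s :: I) J)) +
        mark par S (fun w L => shuf par L (fun I J => kl par w I * (ks par w s *
          (kl par s I * Φ w I (s :: J))))) := by
      rw [← mark_add]; apply mark_congr'; intro w L
      rw [mul_add, ← shuf_smul, ← shuf_smul]
      congr 1
      · apply shuf_congr'; intro I J
        simp only [kl]
        calc ks par w s * (ks par w s * kl par w I * Φ w (s :: I) J)
            = (ks par w s * ks par w s) * (kl par w I * Φ w (s :: I) J) := by ring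
          _ = _ := by rw [ks_mul_self, one_mul]
      · apply shuf_congr'; intro I J; ring
    rw [f1, e1, e2]
    have f2 : shuf par S (fun I J => kl par s I * mark par J (fun w L =>
        ks par w s * Φ w I (s :: L))) =
        shuf par S (fun I J => mark par J (fun w L => ks par w s * (kl par s I *
          Φ w I (s :: L)))) := by
      apply shuf_congr'; intro I J
      rw [← mark_smul]
      apply mark_congr'; intro w L; ring
    have f3 : shuf par S (fun I J => kl par s I * (Φ s I J +
        mark par J (fun w L => ks par w s * Φ w I (s :: L)))) =
        shuf par S (fun I J => kl par s I * Φ s I J) +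
        shuf par S (fun I J => kl par s I * mark par J (fun w L =>
          ks par w s * Φ w I (s :: L))) := by
      rw [← shuf_add]; apply shuf_congr'; intro I J; ring
    rw [f3, f2]; ring

lemma der_mark {A : (X → PS) →ₗ[PS] (X → PS)} (hA : EvenOp par A) (S : List X)
    {F : List X → PS} (hF : SS par F) :
    der A S F = mark par S (fun w L => A (fun u => F (u :: L)) w) := by
  induction S generalizing F with
  | nil => rfl
  | cons s S ih =>
    simp only [der, mark]
    rw [ih (hF.cons s)]
    congr 1
    apply mark_congr'; intro w L
    have : (fun u => F (s :: u :: L)) = fun u => ks par s u * F (u :: s :: L) := by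
      funext u; exact hF.swap s u L
    rw [this, hA, ks_comm s w]

/-- splittings with one element in the left part -/
lemma shuf_single (S : List X) (Φ : List X → List X → PS)
    (h : ∀ I J, I.length ≠ 1 → Φ I J = 0) :
    shuf par S Φ = mark par S (fun w L => Φ [w] L) := by
  have h0 : ∀ (S : List X) (Φ : List X → List X → PS), (∀ I J, I ≠ [] → Φ I J = 0) →
      shuf par S Φ = Φ [] S := by
    intro S
    induction S with
    | nil => intro Φ _; rfl
    | cons s S ih =>
      intro Φ hΦ
      simp only [shuf]
      rw [ih (fun I J => kl par s I * Φ I (s :: J)) (fun I J hI => by rw [hΦ I _ hI, mul_zero])]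
      have : shuf par S (fun I J => Φ (s :: I) J) = 0 := by
        rw [show (fun I J => Φ (s :: I) J) = fun _ _ => 0 from ?_, shuf_zero]
        funext I J; exact hΦ _ _ (by simp)
      rw [this]; simp [kl]
  induction S generalizing Φ with
  | nil => simp only [shuf, mark]; exact h [] [] (by simp)
  | cons s S ih =>
    simp only [shuf, mark]
    rw [h0 S (fun I J => Φ (s :: I) J) (fun I J hI => h _ _ (by
      rw [List.length_cons]; intro h1; apply hI; exact List.length_eq_zero_iff.mp (by omega)))]
    rw [ih (fun I J => kl par s I * Φ I (s :: J)) (fun I J hI => by rw [h I _ hI, mul_zero])]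
    congr 1
    apply mark_congr'; intro w L
    simp only [kl]; rw [ks_comm w s]; ring

/-- splittings with empty right part -/
lemma shuf_right_nil (S : List X) (Φ : List X → List X → PS) (h : ∀ I J, J ≠ [] → Φ I J = 0) :
    shuf par S Φ = Φ S [] := by
  induction S generalizing Φ with
  | nil => rfl
  | cons s S ih =>
    simp only [shuf]
    rw [ih (fun I J => Φ (s :: I) J) (fun I J hJ => h _ _ hJ)]
    have : (fun I J => kl par s I * Φ I (s :: J)) = fun _ _ => 0 := by
      funext I J; rw [h I (s :: J) (by simp), mul_zero]
    rw [this, shuf_zero, add_zero]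

/-- splittings with empty left part -/
lemma shuf_left_nil (S : List X) (Φ : List X → List X → PS) (h : ∀ I J, I ≠ [] → Φ I J = 0) :
    shuf par S Φ = Φ [] S := by
  induction S generalizing Φ with
  | nil => rfl
  | cons s S ih =>
    simp only [shuf]
    rw [ih (fun I J => kl par s I * Φ I (s :: J)) (fun I J hI => by rw [h I _ hI, mul_zero])]
    have : (fun I J => Φ (s :: I) J) = fun _ _ => 0 := by
      funext I J; exact h _ _ (by simp)
    rw [this, shuf_zero]; simp [kl]

end

end Vale.Agent.P269.H598.R
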