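import Vale.Agent.P269.H598.Vanish

/-!
Recursions for the coefficients of the Virasoro operators: `L_k = L_0 z L_{k-1}`.
-/

set_option linter.unusedSectionVars false

namespace Vale.Agent.P269.H598

open Finset

lemma br_front (K i : ℕ) (x : ℂ) :
    br (K + 1) (i + 1) x = br K i (x + 1) + x * br K (i + 1) (x + 1) := by
  unfold br
  rw [Finset.prod_range_succ']
  have e : ∏ k ∈ range K, ((Polynomial.X : Polynomial ℂ) + Polynomial.C (x + ((k + 1 : ℕ) : ℂ))) =
      ∏ k ∈ range K, ((Polynomial.X : Polynomial ℂ) + Polynomial.C (x + 1 + (k : ℂ))) := by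
    apply Finset.prod_congr rfl; intro k _
    congr 2; push_cast; ring
  rw [e, Nat.cast_zero, add_zero, mul_add, Polynomial.coeff_add, Polynomial.coeff_mul_X,
    Polynomial.coeff_mul_C]
  ring

lemma br_front_zero (K : ℕ) (x : ℂ) : br (K + 1) 0 x = x * br K 0 (x + 1) := by
  unfold br
  rw [Finset.prod_range_succ']
  have e : ∏ k ∈ range K, ((Polynomial.X : Polynomial ℂ) + Polynomial.C (x + ((k + 1 : ℕ) : ℂ))) =
      ∏ k ∈ range K, ((Polynomial.X : Polynomial ℂ) + Polynomial.C (x + 1 + (k : ℂ))) := by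
    apply Finset.prod_congr rfl; intro k _
    congr 2; push_cast; ring
  rw [e, Nat.cast_zero, add_zero, mul_add, Polynomial.coeff_add, Polynomial.coeff_mul_X_zero,
    Polynomial.coeff_mul_C]
  ring

namespace Coh

variable {ι : Type} [Fintype ι] [DecidableEq ι] {D : Coh ι}

/-- raising of the descendant index -/
def up (x : ι × ℕ) : ι × ℕ := (x.1, x.2 + 1)

lemma opA_one_apply (g : (ι × ℕ) → ℂ) (x : ι × ℕ) :
    D.opA 1 g x = (D.b x.1 + x.2) * g x +
      (if x.2 = 0 then 0 else ∑ c, D.R x.1 c * g (c, x.2 - 1)) := by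
  rw [opA_one, LinearMap.add_apply, LinearMap.smul_apply, Pi.add_apply, Pi.smul_apply,
    opTH_apply]
  congr 1
  rw [smul_eq_mul]
  split_ifs
  · ring
  · rw [Finset.mul_sum]
    apply Finset.sum_congr rfl; intro c _
    simp only [R, Matrix.smul_apply, smul_eq_mul]; ring

lemma opA_one_up (g : (ι × ℕ) → ℂ) (x : ι × ℕ) :
    D.opA 1 g (up x) = (D.b x.1 + x.2 + 1) * g (up x) + ∑ c, D.R x.1 c * g (c, x.2) := by
  rw [opA_one_apply, if_neg (by simp [up])]
  simp only [up, Nat.add_sub_cancel]; push_cast; ring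

lemma R_mul_sum (hD : D.Good) (i : ℕ) (a : ι) (φ : ℂ → ℂ) (g : ι → ℂ) :
    ∑ e, D.R a e * (φ (D.b e) * ∑ c, (D.R ^ i) e c * g c) =
      φ (D.b a + 1) * ∑ c, (D.R ^ (i + 1)) a c * g c := by
  have h : ∀ e, D.R a e * (φ (D.b e) * ∑ c, (D.R ^ i) e c * g c) =
      φ (D.b a + 1) * ∑ c, D.R a e * (D.R ^ i) e c * g c := by
    intro e
    by_cases h0 : D.R a e = 0
    · simp [h0]
    · have h1 : D.b e = D.b a + 1 := by
        have := hD.Rpow_b 1 (a := a) (c := e) (by simpa using h0)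
        simpa using this
      rw [h1, Finset.mul_sum, Finset.mul_sum, Finset.mul_sum]
      apply Finset.sum_congr rfl; intro c _; ring
  rw [Finset.sum_congr rfl (fun e _ => h e), ← Finset.mul_sum, Finset.sum_comm]
  congr 1
  apply Finset.sum_congr rfl; intro c _
  rw [pow_succ', Matrix.mul_apply, Finset.sum_mul]

lemma opA_rec_left (hD : D.Good) (K : ℕ) (g : (ι × ℕ) → ℂ) (x : ι × ℕ) :
    D.opA (K + 1) g x = (D.b x.1 + x.2) * D.opA K g (up x) +
      ∑ e, D.R x.1 e * D.opA K g (e, x.2) := by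
  obtain ⟨a, m⟩ := x
  simp only [up]
  rw [opA_apply, opA_apply]
  have e2 : ∑ e, D.R a e * D.opA K g (e, m) = ∑ i ∈ range (K + 1), if i + 1 + 1 ≤ m + (K + 1) then
      br K i (D.b a + m + 1) * ∑ c, (D.R ^ (i + 1)) a c * g (c, m + (K + 1) - 1 - (i + 1))
      else 0 := by
    have : ∀ e, D.R a e * D.opA K g (e, m) = ∑ i ∈ range (K + 1), if i + 1 ≤ m + K then
        D.R a e * (br K i (D.b e + m) * ∑ c, (D.R ^ i) e c * g (c, m + K - 1 - i)) else 0 := by
      intro e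
      rw [opA_apply, Finset.mul_sum]
      apply Finset.sum_congr rfl; intro i _
      split_ifs <;> ring
    rw [Finset.sum_congr rfl (fun e _ => this e), Finset.sum_comm]
    apply Finset.sum_congr rfl; intro i _
    by_cases h : i + 1 ≤ m + K
    · simp only [if_pos h]
      rw [if_pos (by omega), R_mul_sum hD i a (fun y => br K i (y + m)) (fun c => g (c, m + K - 1 - i))]
      rw [show D.b a + 1 + (m : ℂ) = D.b a + m + 1 by ring,
        show m + (K + 1) - 1 - (i + 1) = m + K - 1 - i by omega]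
    · simp only [if_neg h]
      rw [if_neg (by omega), Finset.sum_const_zero]
  rw [e2, Finset.sum_range_succ']
  simp only [br_front, br_front_zero]
  have e3 : ∑ i ∈ range (K + 1), (if i + 1 ≤ m + 1 + K then
      br K i (D.b a + ((m + 1 : ℕ) : ℂ)) * ∑ c, (D.R ^ i) a c * g (c, m + 1 + K - 1 - i) else 0) =
      (∑ i ∈ range (K + 1), if i + 1 + 1 ≤ m + (K + 1) then
        br K (i + 1) (D.b a + m + 1) * ∑ c, (D.R ^ (i + 1)) a c *
          g (c, m + (K + 1) - 1 - (i + 1)) else 0) +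
      br K 0 (D.b a + m + 1) * ∑ c, (D.R ^ 0) a c * g (c, m + (K + 1) - 1 - 0) := by
    have e4 := Finset.sum_range_succ (fun i => if i + 1 ≤ m + 1 + K then
      br K i (D.b a + ((m + 1 : ℕ) : ℂ)) * ∑ c, (D.R ^ i) a c * g (c, m + 1 + K - 1 - i) else 0)
      (K + 1)
    rw [br_gt (Nat.lt_succ_self K), zero_mul, ite_self, add_zero] at e4
    rw [← e4, Finset.sum_range_succ', if_pos (by omega)]
    push_cast
    congr 1
    · apply Finset.sum_congr rfl; intro i _
      by_cases h : i + 1 + 1 ≤ m + (K + 1)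
      · rw [if_pos h, if_pos (by omega), show m + 1 + K - 1 - (i + 1) = m + (K + 1) - 1 - (i + 1)
          by omega, add_assoc (D.b a)]
      · rw [if_neg h, if_neg (by omega)]
    · rw [show m + 1 + K - 1 - 0 = m + (K + 1) - 1 - 0 by omega, add_assoc (D.b a)]
  rw [e3, if_pos (by omega)]
  have e5 : ∑ k ∈ range (K + 1), (if k + 1 + 1 ≤ m + (K + 1) then
      (br K k (D.b a + m + 1) + (D.b a + m) * br K (k + 1) (D.b a + m + 1)) *
        ∑ c, (D.R ^ (k + 1)) a c * g (c, m + (K + 1) - 1 - (k + 1)) else 0) =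
      (D.b a + m) * (∑ i ∈ range (K + 1), (if i + 1 + 1 ≤ m + (K + 1) then
        br K (i + 1) (D.b a + m + 1) * ∑ c, (D.R ^ (i + 1)) a c *
          g (c, m + (K + 1) - 1 - (i + 1)) else 0)) +
      ∑ i ∈ range (K + 1), if i + 1 + 1 ≤ m + (K + 1) then
      br K i (D.b a + m + 1) * ∑ c, (D.R ^ (i + 1)) a c * g (c, m + (K + 1) - 1 - (i + 1))
      else 0 := by
    rw [Finset.mul_sum, ← Finset.sum_add_distrib]
    apply Finset.sum_congr rfl; intro i _
    split_ifs <;> ring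
  linear_combination e5

lemma opA_rec_right (hD : D.Good) (K : ℕ) (g : (ι × ℕ) → ℂ) (x : ι × ℕ) :
    D.opA (K + 1) g x = D.opA K (fun w => D.opA 1 g (up w)) x +
      (if x.2 = 0 then ∑ c, (D.R ^ K) x.1 c * D.opA 1 g (c, 0) else 0) := by
  obtain ⟨a, m⟩ := x
  rw [opA_apply, opA_apply]
  simp only
  have e1 : ∀ i, i + 1 ≤ m + K → ∑ c, (D.R ^ i) a c * D.opA 1 g (up (c, m + K - 1 - i)) =
      (D.b a + m + K) * ∑ c, (D.R ^ i) a c * g (c, m + (K + 1) - 1 - i) +
        ∑ c, (D.R ^ (i + 1)) a c * g (c, m + (K + 1) - 1 - (i + 1)) := by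
    intro i hi
    have : ∀ c, (D.R ^ i) a c * D.opA 1 g (up (c, m + K - 1 - i)) =
        (D.b a + m + K) * ((D.R ^ i) a c * g (c, m + (K + 1) - 1 - i)) +
        ∑ e, (D.R ^ i) a c * D.R c e * g (e, m + (K + 1) - 1 - (i + 1)) := by
      intro c
      by_cases h0 : (D.R ^ i) a c = 0
      · simp [h0]
      · rw [opA_one_up, hD.Rpow_b i h0]
        simp only [up]
        rw [show m + K - 1 - i + 1 = m + (K + 1) - 1 - i by omega,
          show m + K - 1 - i = m + (K + 1) - 1 - (i + 1) by omega]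
        have h1 : ((m + (K + 1) - 1 - (i + 1) : ℕ) : ℂ) = (m : ℂ) + K - i - 1 := by
          rw [show m + (K + 1) - 1 - (i + 1) = m + K - (i + 1) by omega, Nat.cast_sub (by omega)]
          push_cast; ring
        rw [h1, mul_add, Finset.mul_sum]
        congr 1
        · ring
        · apply Finset.sum_congr rfl; intro e _; ring
    rw [Finset.sum_congr rfl (fun c _ => this c), Finset.sum_add_distrib, ← Finset.mul_sum,
      Finset.sum_comm]
    congr 1
    apply Finset.sum_congr rfl; intro e _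
    rw [pow_succ, Matrix.mul_apply, Finset.sum_mul]
  have e2 : ∑ i ∈ range (K + 1), (if i + 1 ≤ m + K then br K i (D.b a + m) *
      ∑ c, (D.R ^ i) a c * D.opA 1 g (up (c, m + K - 1 - i)) else 0) =
      (∑ i ∈ range (K + 1), if i + 1 ≤ m + K then br K i (D.b a + m) * ((D.b a + m + K) *
        ∑ c, (D.R ^ i) a c * g (c, m + (K + 1) - 1 - i)) else 0) +
      ∑ i ∈ range (K + 1), if i + 1 ≤ m + K then br K i (D.b a + m) *
        ∑ c, (D.R ^ (i + 1)) a c * g (c, m + (K + 1) - 1 - (i + 1)) else 0 := by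
    rw [← Finset.sum_add_distrib]
    apply Finset.sum_congr rfl; intro i _
    split_ifs with h
    · rw [e1 i h]; ring
    · ring
  rw [e2, Finset.sum_range_succ']
  simp only [br_succ, br_succ_zero]
  have e3 : ∑ k ∈ range (K + 1), (if k + 1 + 1 ≤ m + (K + 1) then
      (br K k (D.b a + m) + (D.b a + m + K) * br K (k + 1) (D.b a + m)) *
        ∑ c, (D.R ^ (k + 1)) a c * g (c, m + (K + 1) - 1 - (k + 1)) else 0) =
      (∑ i ∈ range (K + 1), if i + 1 ≤ m + K then br K i (D.b a + m) *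
        ∑ c, (D.R ^ (i + 1)) a c * g (c, m + (K + 1) - 1 - (i + 1)) else 0) +
      ∑ i ∈ range (K + 1), if i + 1 + 1 ≤ m + (K + 1) then (D.b a + m + K) *
        (br K (i + 1) (D.b a + m) *
        ∑ c, (D.R ^ (i + 1)) a c * g (c, m + (K + 1) - 1 - (i + 1))) else 0 := by
    rw [← Finset.sum_add_distrib]
    apply Finset.sum_congr rfl; intro i _
    by_cases h : i + 1 ≤ m + K
    · rw [if_pos h, if_pos (by omega), if_pos (by omega)]; ring
    · rw [if_neg h, if_neg (by omega), if_neg (by omega)]; ring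
  have e4 : (∑ i ∈ range (K + 1), if i + 1 + 1 ≤ m + (K + 1) then (D.b a + m + K) *
        (br K (i + 1) (D.b a + m) *
        ∑ c, (D.R ^ (i + 1)) a c * g (c, m + (K + 1) - 1 - (i + 1))) else 0) +
      (if 0 + 1 ≤ m + (K + 1) then (D.b a + m + K) * br K 0 (D.b a + m) *
        ∑ c, (D.R ^ 0) a c * g (c, m + (K + 1) - 1 - 0) else 0) =
      ∑ i ∈ range (K + 1), (D.b a + m + K) * (br K i (D.b a + m) *
        ∑ c, (D.R ^ i) a c * g (c, m + (K + 1) - 1 - i)) := by
    have e5 := Finset.sum_range_succ (fun i => if i + 1 ≤ m + (K + 1) then (D.b a + m + K) *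
      (br K i (D.b a + m) * ∑ c, (D.R ^ i) a c * g (c, m + (K + 1) - 1 - i)) else 0) (K + 1)
    rw [br_gt (Nat.lt_succ_self K), zero_mul, mul_zero, ite_self, add_zero] at e5
    rw [Finset.sum_range_succ'] at e5
    have e6 : ∑ i ∈ range (K + 1), (D.b a + m + K) * (br K i (D.b a + m) *
        ∑ c, (D.R ^ i) a c * g (c, m + (K + 1) - 1 - i)) =
        ∑ i ∈ range (K + 1), (if i + 1 ≤ m + (K + 1) then (D.b a + m + K) *
        (br K i (D.b a + m) * ∑ c, (D.R ^ i) a c * g (c, m + (K + 1) - 1 - i)) else 0) := by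
      apply Finset.sum_congr rfl; intro i hi
      rw [Finset.mem_range] at hi
      rw [if_pos (by omega)]
    rw [e6, ← e5]
    congr 1
    split_ifs <;> ring
  have e7 : ∑ i ∈ range (K + 1), (D.b a + m + K) * (br K i (D.b a + m) *
        ∑ c, (D.R ^ i) a c * g (c, m + (K + 1) - 1 - i)) =
      (∑ i ∈ range (K + 1), if i + 1 ≤ m + K then br K i (D.b a + m) * ((D.b a + m + K) *
        ∑ c, (D.R ^ i) a c * g (c, m + (K + 1) - 1 - i)) else 0) +
      (if m = 0 then ∑ c, (D.R ^ K) a c * D.opA 1 g (c, 0) else 0) := by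
    rw [Finset.sum_range_succ, Finset.sum_range_succ]
    have e8 : ∀ i ∈ range K, (D.b a + m + K) * (br K i (D.b a + m) *
        ∑ c, (D.R ^ i) a c * g (c, m + (K + 1) - 1 - i)) =
        (if i + 1 ≤ m + K then br K i (D.b a + m) * ((D.b a + m + K) *
        ∑ c, (D.R ^ i) a c * g (c, m + (K + 1) - 1 - i)) else 0) := by
      intro i hi
      rw [Finset.mem_range] at hi
      rw [if_pos (by omega)]; ring
    rw [Finset.sum_congr rfl e8]
    by_cases hm : m = 0
    · subst hm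
      rw [if_pos rfl, if_neg (by omega), br_self, add_zero]
      congr 1
      rw [one_mul, Finset.mul_sum]
      apply Finset.sum_congr rfl; intro c _
      by_cases h0 : (D.R ^ K) a c = 0
      · simp [h0]
      · rw [opA_one_apply, if_pos rfl, hD.Rpow_b K h0]
        rw [show 0 + (K + 1) - 1 - K = 0 by omega]
        push_cast; ring
    · rw [if_neg hm, if_pos (by omega)]; ring
  linear_combination e3 + e4 + e7

lemma Good.inv_par (hD : D.Good) {a c : ι} (h : D.η⁻¹ a c ≠ 0) : D.par a = D.par c := by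
  have := hD.B_par 0 (a := a) (c := c) (by simpa using h)
  exact this

lemma Good.inv_symm (hD : D.Good) (a c : ι) : D.η⁻¹ a c = ks D.par a c * D.η⁻¹ c a := by
  have h : D.η * (Matrix.of fun a c => ks D.par a c * D.η⁻¹ c a) = 1 := by
    ext a d
    rw [← hD.inv_mul, Matrix.mul_apply]
    have e : ∀ c, D.η a c * (Matrix.of fun a c => ks D.par a c * D.η⁻¹ c a) c d =
        D.η⁻¹ d c * D.η c a := by
      intro c
      simp only [Matrix.of_apply]
      by_cases h1 : D.η c a = 0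
      · rw [hD.η_symm a c, h1]; ring
      · by_cases h2 : D.η⁻¹ d c = 0
        · rw [h2]; ring
        · rw [hD.η_symm a c, ks_congr (hD.η_par h1).symm, ks_congr' (hD.inv_par h2)]
          calc ks D.par c c * D.η c a * (ks D.par c c * D.η⁻¹ d c)
              = (ks D.par c c * ks D.par c c) * (D.η⁻¹ d c * D.η c a) := by ring
            _ = _ := by rw [ks_mul_self, one_mul]
    rw [Finset.sum_congr rfl (fun c _ => e c), ← Matrix.mul_apply]
    by_cases h : a = d
    · rw [h]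
    · rw [hD.inv_mul, Matrix.one_apply_ne h, Matrix.one_apply_ne (Ne.symm h)]
  have h2 := congrFun (congrFun (Matrix.inv_eq_right_inv h) a) c
  simpa using h2

lemma Good.R_inv (hD : D.Good) (i : ℕ) (a c : ι) :
    ∑ e, (D.R ^ i) e a * D.η⁻¹ e c = (D.η⁻¹ * D.R ^ i) a c := by
  have h : D.η⁻¹ * D.R ^ i = (D.R ^ i).transpose * D.η⁻¹ := by
    calc D.η⁻¹ * D.R ^ i = D.η⁻¹ * (D.R ^ i * D.η) * D.η⁻¹ := by
          rw [Matrix.mul_assoc, Matrix.mul_assoc (D.R ^ i), hD.mul_inv, Matrix.mul_one]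
      _ = (D.R ^ i).transpose * D.η⁻¹ := by
          rw [hD.Rpowη, ← Matrix.mul_assoc, hD.inv_mul, Matrix.one_mul]
  rw [h, Matrix.mul_apply]; rfl

lemma Good.B_symm (hD : D.Good) (i : ℕ) (a c : ι) :
    (D.η⁻¹ * D.R ^ i) a c = ks D.par a c * (D.η⁻¹ * D.R ^ i) c a := by
  rw [← hD.R_inv, Matrix.mul_apply, Finset.mul_sum]
  apply Finset.sum_congr rfl; intro e _
  by_cases h : (D.R ^ i) e a = 0
  · rw [h]; ring
  · rw [hD.inv_symm e c, ks_congr (hD.Rpow_par i h)]; ring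

lemma Good.B_b (hD : D.Good) (i : ℕ) {a c : ι} (h : (D.η⁻¹ * D.R ^ i) a c ≠ 0) :
    D.b a + D.b c = 1 + i := by
  have h1 := (hD.B_type i h).1
  rw [b_def, b_def]
  have : (D.p a : ℂ) + (D.p c : ℂ) = D.dim + i := by exact_mod_cast h1
  linear_combination this

/-- symmetry of the second order part -/
lemma BS_symm (hD : D.Good) (K : ℕ) (f : (ι × ℕ) → (ι × ℕ) → ℂ) :
    D.BS K f = D.BS K (fun u v => ks D.pr u v * f v u) := by
  unfold BS
  apply Finset.sum_congr rfl; intro i hi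
  rw [Finset.mem_range] at hi
  rw [← Finset.Nat.sum_antidiagonal_swap]
  apply Finset.sum_congr rfl; intro mn hmn
  have h1 := Finset.HasAntidiagonal.mem_antidiagonal.mp hmn
  rw [Finset.sum_comm, Finset.mul_sum, Finset.mul_sum]
  apply Finset.sum_congr rfl; intro c _
  rw [Finset.mul_sum, Finset.mul_sum]
  apply Finset.sum_congr rfl; intro a _
  simp only [Prod.fst_swap, Prod.snd_swap]
  by_cases h0 : (D.η⁻¹ * D.R ^ i) c a = 0
  · rw [hD.B_symm i a c, h0]; ring
  · have h2 := hD.B_b i h0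
    have h3 : ((mn.2 : ℕ) : ℂ) = (K : ℂ) - 2 - i - mn.1 := by
      have : mn.2 = K - 2 - i - mn.1 := by omega
      rw [this, Nat.cast_sub (by omega), Nat.cast_sub (by omega), Nat.cast_sub (by omega)]
      norm_num
    have h4 : -D.b a - ((mn.2 : ℕ) : ℂ) = 1 - K - (-D.b c - ((mn.1 : ℕ) : ℂ)) := by
      rw [h3]; linear_combination -h2
    have h5 : ((-1 : ℂ)) ^ (mn.2 + 1) * (-1) ^ (K + i) = (-1) ^ (mn.1 + 1) := by
      rw [← pow_add, show mn.2 + 1 + (K + i) = (mn.1 + 1) + 2 * (K - 1 - mn.1) by omega, pow_add,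
        pow_mul]; simp
    rw [h4, br_reflect, hD.B_symm i a c]
    have h6 : ks D.pr (c, mn.1) (a, mn.2) = ks D.par a c := by
      rw [ks_comm]; rfl
    rw [h6]
    linear_combination (br K i (-D.b c - ((mn.1 : ℕ) : ℂ)) * ks D.par a c *
      (D.η⁻¹ * D.R ^ i) c a * f (a, mn.2) (c, mn.1)) * h5

lemma BS_recP (hD : D.Good) (k : ℕ) : ∀ (i : ℕ) (mn : ℕ × ℕ), i < k + 1 → mn.1 + mn.2 = k - i →
    ∀ a c, (D.η⁻¹ * D.R ^ i) a c ≠ 0 →
    -D.b a - ((mn.1 : ℕ) : ℂ) + ((k + 1 : ℕ) : ℂ) = D.b c + mn.2 := by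
  intro i mn hi hmn a c h0
  have h2 := hD.B_b i h0
  have h3 : ((mn.2 : ℕ) : ℂ) = (k : ℂ) - i - mn.1 := by
    have : mn.2 = k - i - mn.1 := by omega
    rw [this, Nat.cast_sub (by omega), Nat.cast_sub (by omega)]
  rw [h3]; push_cast; linear_combination -h2

lemma BS_rec2 (hD : D.Good) (k : ℕ) (f : (ι × ℕ) → (ι × ℕ) → ℂ) : ∑ c, ∑ c', D.η⁻¹ c c' *
    D.opA (k + 1) (fun u => D.opA 1 (f u) (c', 0)) (c, 0) =
    ∑ i ∈ range (k + 1), ∑ a, ∑ c', br (k + 1) i (D.b a - i) * D.b c' *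
      (D.η⁻¹ * D.R ^ i) a c' * f (a, k - i) (c', 0) := by
  have hb : ∀ c : ι, ∀ g : (ι × ℕ) → ℂ, D.opA 1 g (c, 0) = D.b c * g (c, 0) := by
    intro c g; rw [opA_one_apply, if_pos rfl]; simp
  have e3 : ∀ c c', D.η⁻¹ c c' *
      D.opA (k + 1) (fun u => D.opA 1 (f u) (c', 0)) (c, 0) =
      ∑ i ∈ range (k + 1), ∑ a, br (k + 1) i (D.b a - i) * D.b c' *
        ((D.R ^ i) c a * D.η⁻¹ c c') * f (a, k - i) (c', 0) := by
    intro c c'
    rw [opA_apply, Finset.sum_range_succ, if_neg (by simp), add_zero, Finset.mul_sum]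
    apply Finset.sum_congr rfl; intro i hi
    rw [Finset.mem_range] at hi
    rw [if_pos (by simp only; omega), Finset.mul_sum, Finset.mul_sum]
    apply Finset.sum_congr rfl; intro a _
    simp only
    rw [hb, show 0 + (k + 1) - 1 - i = k - i by omega]
    by_cases h0 : (D.R ^ i) c a = 0
    · rw [h0]; ring
    · have h1 := hD.Rpow_b i h0
      rw [show D.b c + ((0 : ℕ) : ℂ) = D.b a - i by rw [h1]; push_cast; ring]
      ring
  rw [Finset.sum_congr rfl (fun c _ => Finset.sum_congr rfl (fun c' _ => e3 c c'))]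
  have e4 : ∀ c, ∑ c', ∑ i ∈ range (k + 1), ∑ a, br (k + 1) i (D.b a - i) * D.b c' *
        ((D.R ^ i) c a * D.η⁻¹ c c') * f (a, k - i) (c', 0) =
      ∑ i ∈ range (k + 1), ∑ a, ∑ c', br (k + 1) i (D.b a - i) * D.b c' *
        ((D.R ^ i) c a * D.η⁻¹ c c') * f (a, k - i) (c', 0) := by
    intro c
    rw [Finset.sum_comm]
    apply Finset.sum_congr rfl; intro i _
    rw [Finset.sum_comm]
  rw [Finset.sum_congr rfl (fun c _ => e4 c), Finset.sum_comm]
  apply Finset.sum_congr rfl; intro i _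
  rw [Finset.sum_comm]
  apply Finset.sum_congr rfl; intro a _
  rw [Finset.sum_comm]
  apply Finset.sum_congr rfl; intro c' _
  rw [← hD.R_inv, Finset.mul_sum, Finset.sum_mul]

lemma BS_rec5 (hD : D.Good) (k : ℕ) (f : (ι × ℕ) → (ι × ℕ) → ℂ) : D.BS (k + 1 + 1) f =
    (∑ i ∈ range (k + 1), ∑ mn ∈ antidiagonal (k - i), (-1) ^ (mn.1 + 1) *
      ∑ a, ∑ c, br (k + 1) i (-D.b a - mn.1) * (D.b c + mn.2) *
        (D.η⁻¹ * D.R ^ i) a c * f (a, mn.1) (c, mn.2)) +
    ∑ i ∈ range k, ∑ mn ∈ antidiagonal (k - (i + 1)), (-1) ^ (mn.1 + 1) *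
      ∑ a, ∑ c, br (k + 1) i (-D.b a - mn.1) *
        (D.η⁻¹ * D.R ^ (i + 1)) a c * f (a, mn.1) (c, mn.2) := by
  unfold BS
  rw [show k + 1 + 1 - 1 = k + 1 by omega, show k + 1 + 1 - 2 = k by omega]
  have e6 : ∀ i ∈ range (k + 1), ∑ mn ∈ antidiagonal (k - i), (-1 : ℂ) ^ (mn.1 + 1) *
      ∑ a, ∑ c, br (k + 1 + 1) i (-D.b a - mn.1) * (D.η⁻¹ * D.R ^ i) a c *
        f (a, mn.1) (c, mn.2) =
      (∑ mn ∈ antidiagonal (k - i), (-1) ^ (mn.1 + 1) *
      ∑ a, ∑ c, br (k + 1) i (-D.b a - mn.1) * (D.b c + mn.2) *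
        (D.η⁻¹ * D.R ^ i) a c * f (a, mn.1) (c, mn.2)) +
      (if i = 0 then 0 else ∑ mn ∈ antidiagonal (k - i), (-1) ^ (mn.1 + 1) *
        ∑ a, ∑ c, br (k + 1) (i - 1) (-D.b a - mn.1) *
        (D.η⁻¹ * D.R ^ i) a c * f (a, mn.1) (c, mn.2)) := by
    intro i hi
    rw [Finset.mem_range] at hi
    by_cases h0 : i = 0
    · subst h0
      rw [if_pos rfl, add_zero]
      apply Finset.sum_congr rfl; intro mn hmn
      have h1 := Finset.HasAntidiagonal.mem_antidiagonal.mp hmn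
      congr 1
      apply Finset.sum_congr rfl; intro a _
      apply Finset.sum_congr rfl; intro c _
      by_cases h2 : (D.η⁻¹ * D.R ^ 0) a c = 0
      · rw [h2]; ring
      · rw [br_succ_zero, BS_recP hD k 0 mn hi h1 a c h2]; ring
    · rw [if_neg h0, ← Finset.sum_add_distrib]
      apply Finset.sum_congr rfl; intro mn hmn
      have h1 := Finset.HasAntidiagonal.mem_antidiagonal.mp hmn
      rw [← mul_add, ← Finset.sum_add_distrib]
      congr 1
      apply Finset.sum_congr rfl; intro a _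
      rw [← Finset.sum_add_distrib]
      apply Finset.sum_congr rfl; intro c _
      by_cases h2 : (D.η⁻¹ * D.R ^ i) a c = 0
      · rw [h2]; ring
      · obtain ⟨j, rfl⟩ := Nat.exists_eq_succ_of_ne_zero h0
        rw [Nat.succ_eq_add_one, br_succ, BS_recP hD k (j + 1) mn hi h1 a c h2, Nat.add_sub_cancel]
        ring
  rw [Finset.sum_congr rfl e6, Finset.sum_add_distrib]
  congr 1
  rw [Finset.sum_range_succ', if_pos rfl, add_zero]
  apply Finset.sum_congr rfl; intro i _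
  rw [if_neg (by omega), Nat.add_sub_cancel]

lemma BS_rec7 (k : ℕ) (f : (ι × ℕ) → (ι × ℕ) → ℂ) : D.BS (k + 1) (fun u v => D.opA 1 (f u) (up v)) =
    (∑ i ∈ range k, ∑ mn ∈ antidiagonal (k - (i + 1)), (-1) ^ (mn.1 + 1) *
      ∑ a, ∑ c, br (k + 1) i (-D.b a - mn.1) * (D.b c + mn.2 + 1) *
        (D.η⁻¹ * D.R ^ i) a c * f (a, mn.1) (c, mn.2 + 1)) +
    ∑ i ∈ range k, ∑ mn ∈ antidiagonal (k - (i + 1)), (-1) ^ (mn.1 + 1) *
      ∑ a, ∑ c, br (k + 1) i (-D.b a - mn.1) *
        (D.η⁻¹ * D.R ^ (i + 1)) a c * f (a, mn.1) (c, mn.2) := by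
  unfold BS
  rw [← Finset.sum_add_distrib, show k + 1 - 1 = k by omega]
  apply Finset.sum_congr rfl; intro i _
  rw [← Finset.sum_add_distrib, show k + 1 - 2 - i = k - (i + 1) by omega]
  apply Finset.sum_congr rfl; intro mn _
  rw [← mul_add, ← Finset.sum_add_distrib]
  congr 1
  apply Finset.sum_congr rfl; intro a _
  have e8 : ∀ c, br (k + 1) i (-D.b a - mn.1) * (D.η⁻¹ * D.R ^ i) a c *
      D.opA 1 (f (a, mn.1)) (up (c, mn.2)) =
      br (k + 1) i (-D.b a - mn.1) * (D.b c + mn.2 + 1) *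
        (D.η⁻¹ * D.R ^ i) a c * f (a, mn.1) (c, mn.2 + 1) +
      ∑ e, br (k + 1) i (-D.b a - mn.1) * ((D.η⁻¹ * D.R ^ i) a c * D.R c e) *
        f (a, mn.1) (e, mn.2) := by
    intro c
    rw [opA_one_up, mul_add, Finset.mul_sum]
    simp only [up]
    congr 1
    · ring
    · apply Finset.sum_congr rfl; intro e _; ring
  rw [Finset.sum_congr rfl (fun c _ => e8 c), Finset.sum_add_distrib]
  congr 1
  rw [Finset.sum_comm]
  apply Finset.sum_congr rfl; intro e _
  rw [pow_succ, ← Matrix.mul_assoc, Matrix.mul_apply (M := D.η⁻¹ * D.R ^ i), Finset.mul_sum,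
    Finset.sum_mul]

lemma BS_rec9 (k : ℕ) (f : (ι × ℕ) → (ι × ℕ) → ℂ) : ∑ i ∈ range (k + 1), ∑ mn ∈ antidiagonal (k - i), (-1) ^ (mn.1 + 1) *
      ∑ a, ∑ c, br (k + 1) i (-D.b a - mn.1) * (D.b c + mn.2) *
        (D.η⁻¹ * D.R ^ i) a c * f (a, mn.1) (c, mn.2) =
    (∑ i ∈ range k, ∑ mn ∈ antidiagonal (k - (i + 1)), (-1) ^ (mn.1 + 1) *
      ∑ a, ∑ c, br (k + 1) i (-D.b a - mn.1) * (D.b c + mn.2 + 1) *
        (D.η⁻¹ * D.R ^ i) a c * f (a, mn.1) (c, mn.2 + 1)) +
    ∑ i ∈ range (k + 1), (-1) ^ (k - i + 1) *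
      ∑ a, ∑ c, br (k + 1) i (-D.b a - (k - i : ℕ)) * D.b c *
        (D.η⁻¹ * D.R ^ i) a c * f (a, k - i) (c, 0) := by
  rw [Finset.sum_range_succ, Finset.sum_range_succ _ k, ← add_assoc,
    ← Finset.sum_add_distrib]
  congr 1
  · apply Finset.sum_congr rfl; intro i hi
    rw [Finset.mem_range] at hi
    obtain ⟨n, hn⟩ : ∃ n, k - i = n + 1 := ⟨k - i - 1, by omega⟩
    rw [hn, show k - (i + 1) = n by omega, Finset.Nat.sum_antidiagonal_succ', add_comm]
    congr 1
    · apply Finset.sum_congr rfl; intro mn _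
      simp only
      congr 1
      apply Finset.sum_congr rfl; intro a _
      apply Finset.sum_congr rfl; intro c _
      push_cast; ring
    · simp only
      congr 1
      apply Finset.sum_congr rfl; intro a _
      apply Finset.sum_congr rfl; intro c _
      push_cast; ring
  · rw [Nat.sub_self, Finset.Nat.antidiagonal_zero, Finset.sum_singleton]
    congr 1
    apply Finset.sum_congr rfl; intro a _
    apply Finset.sum_congr rfl; intro c _
    push_cast; ring

lemma BS_rec10 (k : ℕ) (f : (ι × ℕ) → (ι × ℕ) → ℂ) : ∑ i ∈ range (k + 1), (-1 : ℂ) ^ (k - i + 1) *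
      ∑ a, ∑ c, br (k + 1) i (-D.b a - (k - i : ℕ)) * D.b c *
        (D.η⁻¹ * D.R ^ i) a c * f (a, k - i) (c, 0) =
    ∑ i ∈ range (k + 1), ∑ a, ∑ c', br (k + 1) i (D.b a - i) * D.b c' *
      (D.η⁻¹ * D.R ^ i) a c' * f (a, k - i) (c', 0) := by
  apply Finset.sum_congr rfl; intro i hi
  rw [Finset.mem_range] at hi
  rw [Finset.mul_sum]
  apply Finset.sum_congr rfl; intro a _
  rw [Finset.mul_sum]
  apply Finset.sum_congr rfl; intro c _
  have h3 : -D.b a - ((k - i : ℕ) : ℂ) = 1 - ((k + 1 : ℕ) : ℂ) - (D.b a - i) := by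
    rw [Nat.cast_sub (by omega)]; push_cast; ring
  rw [h3, br_reflect]
  have h5 : ((-1 : ℂ)) ^ (k - i + 1) * (-1) ^ (k + 1 + i) = 1 := by
    rw [← pow_add, show k - i + 1 + (k + 1 + i) = 2 * (k + 1) by omega, pow_mul]; simp
  linear_combination (br (k + 1) i (D.b a - i) * D.b c * (D.η⁻¹ * D.R ^ i) a c *
    f (a, k - i) (c, 0)) * h5

/-- recursion for the second order part -/
lemma BS_rec (hD : D.Good) (K : ℕ) (f : (ι × ℕ) → (ι × ℕ) → ℂ) :
    D.BS (K + 1) f = D.BS K (fun u v => D.opA 1 (f u) (up v)) +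
      ∑ c, ∑ c', D.η⁻¹ c c' * D.opA K (fun u => D.opA 1 (f u) (c', 0)) (c, 0) := by
  rcases K with _ | k
  · have e1 : D.BS (0 + 1) f = 0 := by unfold BS; simp
    have e2 : D.BS 0 (fun u v => D.opA 1 (f u) (up v)) = 0 := by unfold BS; simp
    rw [e1, e2]
    simp [opA_zero, opT_zero]
  · rw [BS_rec2 hD k f, BS_rec5 hD k f, BS_rec7 k f, BS_rec9 k f, BS_rec10 k f]; ring

end Coh

end Vale.Agent.P269.H598
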