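import Vale.Agent.P269.H598.RMark
import Vale.Agent.P269.H598.Recur

/-!
The operators with coefficients in power series in the Novikov variable.
-/

set_option linter.unusedSectionVars false

namespace Vale.Agent.P269.H598.R

noncomputable section

open Finset Coh

/-! ### Linear functionals and splittings -/

section functionals

variable {X Y : Type} {par : X → Bool}

lemma lf_mark (ℓ : (Y → PS) →ₗ[PS] PS) (S : List X) (Φ : Y → X → List X → PS) :
    ℓ (fun y => mark par S (Φ y)) = mark par S (fun w L => ℓ (fun y => Φ y w L)) := by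
  induction S generalizing Φ with
  | nil => simp only [mark]; exact map_zero ℓ
  | cons s S ih =>
    simp only [mark]
    have e1 : (fun y => Φ y s S + mark par S (fun w L => ks par w s * Φ y w (s :: L))) =
        (fun y => Φ y s S) + fun y => mark par S (fun w L => ks par w s * Φ y w (s :: L)) := rfl
    rw [e1, map_add, ih]
    congr 1
    apply mark_congr'; intro w L
    have e2 : (fun y => ks par w s * Φ y w (s :: L)) = ks par w s • fun y => Φ y w (s :: L) := rfl
    rw [e2, map_smul]; rfl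

lemma lf_shuf (ℓ : (Y → PS) →ₗ[PS] PS) (S : List X) (Φ : Y → List X → List X → PS) :
    ℓ (fun y => shuf par S (Φ y)) = shuf par S (fun I J => ℓ (fun y => Φ y I J)) := by
  induction S generalizing Φ with
  | nil => rfl
  | cons s S ih =>
    simp only [shuf]
    have e1 : (fun y => shuf par S (fun I J => Φ y (s :: I) J) +
        shuf par S (fun I J => kl par s I * Φ y I (s :: J))) =
        (fun y => shuf par S (fun I J => Φ y (s :: I) J)) +
        fun y => shuf par S (fun I J => kl par s I * Φ y I (s :: J)) := rfl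
    rw [e1, map_add, ih, ih]
    congr 1
    apply shuf_congr'; intro I J
    have e2 : (fun y => kl par s I * Φ y I (s :: J)) = kl par s I • fun y => Φ y I (s :: J) := rfl
    rw [e2, map_smul]; rfl

lemma op_mark (A : (X → PS) →ₗ[PS] (X → PS)) (x : X) (S : List X) (Φ : X → X → List X → PS) :
    A (fun y => mark par S (Φ y)) x = mark par S (fun w L => A (fun y => Φ y w L) x) :=
  lf_mark ((LinearMap.proj x).comp A) S Φ

end functionals

lemma ks_coeff {X : Type} (par : X → Bool) (x y : X) (e : ℕ) (a : PS) :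
    PowerSeries.coeff e (ks par x y * a) = H598.ks par x y * PowerSeries.coeff e a := by
  unfold ks H598.ks
  split_ifs <;> simp

lemma kl_coeff {X : Type} (par : X → Bool) (x : X) (l : List X) (e : ℕ) (a : PS) :
    PowerSeries.coeff e (kl par x l * a) = H598.kl par x l * PowerSeries.coeff e a := by
  induction l generalizing a with
  | nil => simp [kl, H598.kl]
  | cons y l ih => simp only [kl, H598.kl]; rw [mul_assoc, ks_coeff, ih, mul_assoc]

lemma shuf_coeff {X : Type} (par : X → Bool) (S : List X) (e : ℕ) (Φ : List X → List X → PS) :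
    PowerSeries.coeff e (shuf par S Φ) =
      H598.shuf par S (fun I J => PowerSeries.coeff e (Φ I J)) := by
  induction S generalizing Φ with
  | nil => rfl
  | cons s S ih =>
    simp only [shuf, H598.shuf]
    rw [map_add, ih, ih]
    simp only [kl_coeff]

lemma ks_C {X : Type} (par : X → Bool) (x y : X) :
    PowerSeries.C (H598.ks par x y) = ks par x y := by
  unfold ks H598.ks
  split_ifs <;> simp

variable {ι : Type} [Fintype ι] [DecidableEq ι] (D : Coh ι)

/-- `opA` over `PS` -/
def RA (K : ℕ) : ((ι × ℕ) → PS) →ₗ[PS] ((ι × ℕ) → PS) where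
  toFun g x := ∑ i ∈ range (K + 1), if i + 1 ≤ x.2 + K then
    PowerSeries.C (br K i (D.b x.1 + x.2)) *
      ∑ c, PowerSeries.C ((D.R ^ i) x.1 c) * g (c, x.2 + K - 1 - i) else 0
  map_add' g g' := by
    funext x
    simp only [Pi.add_apply]
    rw [← Finset.sum_add_distrib]
    apply Finset.sum_congr rfl
    intro i _
    split_ifs
    · rw [← mul_add, ← Finset.sum_add_distrib]
      congr 1
      apply Finset.sum_congr rfl
      intro c _; ring
    · ring
  map_smul' r g := by
    funext x
    simp only [Pi.smul_apply, smul_eq_mul, RingHom.id_apply]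
    rw [Finset.mul_sum]
    apply Finset.sum_congr rfl
    intro i _
    split_ifs
    · rw [mul_left_comm r]
      congr 1
      rw [Finset.mul_sum]
      apply Finset.sum_congr rfl
      intro c _; ring
    · ring

/-- `BS` over `PS`, as a linear functional -/
def RBSl (K : ℕ) : ((ι × ℕ) × (ι × ℕ) → PS) →ₗ[PS] PS where
  toFun f := ∑ i ∈ range (K - 1), ∑ mn ∈ antidiagonal (K - 2 - i), PowerSeries.C ((-1) ^ (mn.1 + 1)) *
    ∑ a, ∑ c, PowerSeries.C (br K i (-D.b a - mn.1) * (D.η⁻¹ * D.R ^ i) a c) *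
      f ((a, mn.1), (c, mn.2))
  map_add' f g := by
    simp only [Pi.add_apply, mul_add, Finset.sum_add_distrib]
  map_smul' r f := by
    simp only [Pi.smul_apply, smul_eq_mul, RingHom.id_apply, Finset.mul_sum]
    apply Finset.sum_congr rfl; intro i _
    apply Finset.sum_congr rfl; intro mn _
    apply Finset.sum_congr rfl; intro a _
    apply Finset.sum_congr rfl; intro c _
    ring

/-- `BS` over `PS` -/
def RBS (K : ℕ) (f : (ι × ℕ) → (ι × ℕ) → PS) : PS := RBSl D K (fun p => f p.1 p.2)

/-- contraction with the inverse of the pairing -/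
def RC (f : ι → ι → PS) : PS := ∑ c, ∑ c', PowerSeries.C (D.η⁻¹ c c') * f c c'

variable {D}

lemma RA_apply (K : ℕ) (g : (ι × ℕ) → PS) (x : ι × ℕ) : RA D K g x =
    ∑ i ∈ range (K + 1), if i + 1 ≤ x.2 + K then
    PowerSeries.C (br K i (D.b x.1 + x.2)) *
      ∑ c, PowerSeries.C ((D.R ^ i) x.1 c) * g (c, x.2 + K - 1 - i) else 0 := rfl

lemma RA_coeff (K : ℕ) (g : (ι × ℕ) → PS) (x : ι × ℕ) (e : ℕ) :
    PowerSeries.coeff e (RA D K g x) = D.opA K (fun y => PowerSeries.coeff e (g y)) x := by
  rw [RA_apply, opA_apply, map_sum]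
  apply Finset.sum_congr rfl; intro i _
  split_ifs
  · rw [PowerSeries.coeff_C_mul, map_sum]
    congr 1
    apply Finset.sum_congr rfl; intro c _
    rw [PowerSeries.coeff_C_mul]
  · simp

lemma RBS_coeff (K : ℕ) (f : (ι × ℕ) → (ι × ℕ) → PS) (e : ℕ) :
    PowerSeries.coeff e (RBS D K f) = D.BS K (fun u v => PowerSeries.coeff e (f u v)) := by
  show PowerSeries.coeff e (∑ i ∈ range (K - 1), _) = _
  unfold BS
  rw [map_sum]
  apply Finset.sum_congr rfl; intro i _
  rw [map_sum]
  apply Finset.sum_congr rfl; intro mn _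
  rw [PowerSeries.coeff_C_mul, map_sum]
  congr 1
  apply Finset.sum_congr rfl; intro a _
  rw [map_sum]
  apply Finset.sum_congr rfl; intro c _
  rw [PowerSeries.coeff_C_mul]

lemma der_coeff (K : ℕ) (S : List (ι × ℕ)) (F : List (ι × ℕ) → PS) (e : ℕ) :
    PowerSeries.coeff e (der (RA D K) S F) =
      H598.der (D.opA K) S (fun s => PowerSeries.coeff e (F s)) := by
  induction S generalizing F with
  | nil => simp [der, H598.der]
  | cons s S ih => simp only [der, H598.der]; rw [map_add, RA_coeff, ih]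

lemma RA_even (hD : D.Good) (K : ℕ) : EvenOp D.pr (RA D K) := by
  intro z g x
  ext e
  rw [RA_coeff, ks_coeff, RA_coeff]
  simp only [ks_coeff]
  exact opA_even hD K z _ x

lemma RA_rec_left (hD : D.Good) (K : ℕ) (g : (ι × ℕ) → PS) (x : ι × ℕ) :
    RA D (K + 1) g x = PowerSeries.C (D.b x.1 + x.2) * RA D K g (up x) +
      ∑ c, PowerSeries.C (D.R x.1 c) * RA D K g (c, x.2) := by
  ext e
  rw [RA_coeff, map_add, PowerSeries.coeff_C_mul, map_sum, RA_coeff, opA_rec_left hD]
  congr 1
  apply Finset.sum_congr rfl; intro c _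
  rw [PowerSeries.coeff_C_mul, RA_coeff]

lemma RA_rec_right (hD : D.Good) (K : ℕ) (g : (ι × ℕ) → PS) (x : ι × ℕ) :
    RA D (K + 1) g x = RA D K (fun w => RA D 1 g (up w)) x +
      (if x.2 = 0 then ∑ c, PowerSeries.C ((D.R ^ K) x.1 c) * RA D 1 g (c, 0) else 0) := by
  ext e
  rw [RA_coeff, map_add, RA_coeff, opA_rec_right hD]
  congr 1
  · simp only [RA_coeff]
  · split_ifs
    · rw [map_sum]
      apply Finset.sum_congr rfl; intro c _
      rw [PowerSeries.coeff_C_mul, RA_coeff]
    · simp

lemma RA_one (g : (ι × ℕ) → PS) (x : ι × ℕ) :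
    RA D 1 g x = PowerSeries.C (D.b x.1 + x.2) * g x +
      (if x.2 = 0 then 0 else ∑ c, PowerSeries.C (D.R x.1 c) * g (c, x.2 - 1)) := by
  ext e
  rw [RA_coeff, map_add, PowerSeries.coeff_C_mul, opA_one_apply]
  congr 1
  split_ifs
  · simp
  · rw [map_sum]
    apply Finset.sum_congr rfl; intro c _
    rw [PowerSeries.coeff_C_mul]

lemma RC_coeff (f : ι → ι → PS) (e : ℕ) :
    PowerSeries.coeff e (RC D f) = ∑ c, ∑ c', D.η⁻¹ c c' * PowerSeries.coeff e (f c c') := by
  unfold RC
  rw [map_sum]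
  apply Finset.sum_congr rfl; intro c _
  rw [map_sum]
  apply Finset.sum_congr rfl; intro c' _
  rw [PowerSeries.coeff_C_mul]

lemma RBS_rec (hD : D.Good) (K : ℕ) (f : (ι × ℕ) → (ι × ℕ) → PS) :
    RBS D (K + 1) f = RBS D K (fun u v => RA D 1 (f u) (up v)) +
      RC D (fun c c' => RA D K (fun u => RA D 1 (f u) (c', 0)) (c, 0)) := by
  ext e
  rw [RBS_coeff, map_add, RBS_coeff, RC_coeff, BS_rec hD]
  simp only [RA_coeff]

lemma RBS_symm (hD : D.Good) (K : ℕ) (f : (ι × ℕ) → (ι × ℕ) → PS) :
    RBS D K f = RBS D K (fun u v => ks D.pr u v * f v u) := by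
  ext e
  rw [RBS_coeff, RBS_coeff, BS_symm hD]
  simp only [ks_coeff]

lemma RBS_congr (hD : D.Good) (K : ℕ) {f g : (ι × ℕ) → (ι × ℕ) → PS}
    (h : ∀ u v, D.pr u = D.pr v → f u v = g u v) : RBS D K f = RBS D K g := by
  ext e
  rw [RBS_coeff, RBS_coeff]
  apply hD.BS_congr
  intro _ u v _ huv _
  rw [h u v huv]

lemma RBS_add (K : ℕ) (f g : (ι × ℕ) → (ι × ℕ) → PS) :
    RBS D K (fun u v => f u v + g u v) = RBS D K f + RBS D K g := by
  unfold RBS; rw [← map_add]; rfl

lemma RBS_smul (K : ℕ) (r : PS) (f : (ι × ℕ) → (ι × ℕ) → PS) :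
    RBS D K (fun u v => r * f u v) = r * RBS D K f := by
  unfold RBS; rw [← smul_eq_mul, ← map_smul]; rfl

lemma RBS_shuf (K : ℕ) (S : List (ι × ℕ))
    (Φ : (ι × ℕ) → (ι × ℕ) → List (ι × ℕ) → List (ι × ℕ) → PS) :
    RBS D K (fun u v => shuf D.pr S (Φ u v)) =
      shuf D.pr S (fun I J => RBS D K (fun u v => Φ u v I J)) := by
  unfold RBS; rw [lf_shuf]

lemma RBS_zero (K : ℕ) : RBS D K (fun _ _ => 0) = 0 := by
  unfold RBS; exact map_zero _

lemma RC_congr (hD : D.Good) {f g : ι → ι → PS}
    (h : ∀ c c', D.par c = D.par c' → f c c' = g c c') : RC D f = RC D g := by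
  unfold RC
  apply Finset.sum_congr rfl; intro c _
  apply Finset.sum_congr rfl; intro c' _
  by_cases h0 : D.η⁻¹ c c' = 0
  · rw [h0]; simp
  · rw [h c c' (hD.inv_par h0)]

lemma RC_congr' {f g : ι → ι → PS} (h : ∀ c c', f c c' = g c c') : RC D f = RC D g := by
  unfold RC
  apply Finset.sum_congr rfl; intro c _
  apply Finset.sum_congr rfl; intro c' _
  rw [h c c']

lemma RC_add (f g : ι → ι → PS) : RC D (fun c c' => f c c' + g c c') = RC D f + RC D g := by
  unfold RC
  simp only [mul_add, Finset.sum_add_distrib]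

lemma RC_smul (r : PS) (f : ι → ι → PS) : RC D (fun c c' => r * f c c') = r * RC D f := by
  unfold RC
  simp only [Finset.mul_sum]
  apply Finset.sum_congr rfl; intro c _
  apply Finset.sum_congr rfl; intro c' _
  ring

lemma RC_shuf (S : List (ι × ℕ)) (Φ : ι → ι → List (ι × ℕ) → List (ι × ℕ) → PS) :
    RC D (fun c c' => shuf D.pr S (Φ c c')) =
      shuf D.pr S (fun I J => RC D (fun c c' => Φ c c' I J)) := by
  unfold RC
  rw [shuf_sum]
  apply Finset.sum_congr rfl; intro c _
  rw [shuf_sum]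
  apply Finset.sum_congr rfl; intro c' _
  rw [shuf_smul]

lemma RC_swap (hD : D.Good) (f : ι → ι → PS) :
    RC D f = RC D (fun c c' => ks D.par c c' * f c' c) := by
  unfold RC
  rw [Finset.sum_comm]
  apply Finset.sum_congr rfl; intro c _
  apply Finset.sum_congr rfl; intro c' _
  rw [hD.inv_symm c' c, map_mul, ks_C, ks_comm]; ring

lemma RA_RC (K : ℕ) (x : ι × ℕ) (f : (ι × ℕ) → ι → ι → PS) :
    RA D K (fun u => RC D (f u)) x = RC D (fun c c' => RA D K (fun u => f u c c') x) := by
  unfold RC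
  rw [A_sum]
  apply Finset.sum_congr rfl; intro c _
  rw [A_sum]
  apply Finset.sum_congr rfl; intro c' _
  rw [A_smul]

end

end Vale.Agent.P269.H598.R
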