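import Vale.Agent.P269.H598.RVir

/-!
The induction step for the genus zero Virasoro constraints.
-/

set_option linter.unusedSectionVars false

namespace Vale.Agent.P269.H598.R

noncomputable section

open Finset Coh

variable {ι : Type} [Fintype ι] [DecidableEq ι] {D : Coh ι} {G : List (ι × ℕ) → PS}

/-! ### Linearity -/

section lin

variable {Y : Type}

lemma lf_add (ℓ : (Y → PS) →ₗ[PS] PS) (f g : Y → PS) :
    ℓ (fun y => f y + g y) = ℓ f + ℓ g := map_add ℓ f g

lemma lf_smul (ℓ : (Y → PS) →ₗ[PS] PS) (c : PS) (f : Y → PS) :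
    ℓ (fun y => c * f y) = c * ℓ f := map_smul ℓ c f

lemma lf_zero (ℓ : (Y → PS) →ₗ[PS] PS) : ℓ (fun _ => 0) = 0 := map_zero ℓ

lemma lf_sum {α : Type} (ℓ : (Y → PS) →ₗ[PS] PS) (s : Finset α) (f : α → Y → PS) :
    ℓ (fun y => ∑ a ∈ s, f a y) = ∑ a ∈ s, ℓ (f a) := by
  have : (fun y => ∑ a ∈ s, f a y) = ∑ a ∈ s, f a := by funext y; simp
  rw [this, map_sum]

lemma lf_RA (ℓ : (Y → PS) →ₗ[PS] PS) (K : ℕ) (g : Y → (ι × ℕ) → PS) (x : ι × ℕ) :
    ℓ (fun y => RA D K (g y) x) = RA D K (fun u => ℓ (fun y => g y u)) x := by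
  simp only [RA_apply]
  rw [lf_sum]
  apply Finset.sum_congr rfl; intro i _
  split_ifs
  · rw [lf_smul, lf_sum]
    congr 1
    apply Finset.sum_congr rfl; intro c _
    rw [lf_smul]
  · rw [lf_zero]

lemma lf_RBS (ℓ : (Y → PS) →ₗ[PS] PS) (K : ℕ) (f : Y → (ι × ℕ) → (ι × ℕ) → PS) :
    ℓ (fun y => RBS D K (f y)) = RBS D K (fun u v => ℓ (fun y => f y u v)) := by
  show ℓ (fun y => ∑ i ∈ range (K - 1), ∑ mn ∈ antidiagonal (K - 2 - i),
    PowerSeries.C ((-1) ^ (mn.1 + 1)) *
    ∑ a, ∑ c, PowerSeries.C (br K i (-D.b a - mn.1) * (D.η⁻¹ * D.R ^ i) a c) *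
      f y (a, mn.1) (c, mn.2)) = ∑ i ∈ range (K - 1), ∑ mn ∈ antidiagonal (K - 2 - i),
    PowerSeries.C ((-1) ^ (mn.1 + 1)) *
    ∑ a, ∑ c, PowerSeries.C (br K i (-D.b a - mn.1) * (D.η⁻¹ * D.R ^ i) a c) *
      ℓ (fun y => f y (a, mn.1) (c, mn.2))
  rw [lf_sum]
  apply Finset.sum_congr rfl; intro i _
  rw [lf_sum]
  apply Finset.sum_congr rfl; intro mn _
  rw [lf_smul, lf_sum]
  congr 1
  apply Finset.sum_congr rfl; intro a _
  rw [lf_sum]
  apply Finset.sum_congr rfl; intro c _
  rw [lf_smul]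

lemma op_RA (A : ((ι × ℕ) → PS) →ₗ[PS] ((ι × ℕ) → PS)) (K : ℕ)
    (g : (ι × ℕ) → (ι × ℕ) → PS) (x y : ι × ℕ) :
    A (fun w => RA D K (g w) x) y = RA D K (fun u => A (fun w => g w u) y) x :=
  lf_RA ((LinearMap.proj y).comp A) K g x

lemma op_RBS (A : ((ι × ℕ) → PS) →ₗ[PS] ((ι × ℕ) → PS)) (K : ℕ)
    (f : (ι × ℕ) → (ι × ℕ) → (ι × ℕ) → PS) (y : ι × ℕ) :
    A (fun w => RBS D K (f w)) y = RBS D K (fun u v => A (fun w => f w u v) y) :=
  lf_RBS ((LinearMap.proj y).comp A) K f

lemma A_congr {A : ((ι × ℕ) → PS) →ₗ[PS] ((ι × ℕ) → PS)} {f g : (ι × ℕ) → PS}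
    (h : ∀ y, f y = g y) (x : ι × ℕ) : A f x = A g x := by
  have : f = g := funext h
  rw [this]

end lin

/-! ### The vector field -/

lemma vc_congr (K : ℕ) (y : ι × ℕ) {E E' : (ι × ℕ) → List (ι × ℕ) → PS} (S : List (ι × ℕ))
    (h : ∀ x L, E x L = E' x L) : vc D G K y E S = vc D G K y E' S := by
  have : E = E' := by funext x L; exact h x L
  rw [this]

lemma vc_add (K : ℕ) (y : ι × ℕ) (E E' : (ι × ℕ) → List (ι × ℕ) → PS) (S : List (ι × ℕ)) :
    vc D G K y (fun x L => E x L + E' x L) S = vc D G K y E S + vc D G K y E' S := by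
  unfold vc
  have e1 : mark D.pr S (fun w L => ks D.pr y w * RA D K (fun u => E u L + E' u L) w) =
      mark D.pr S (fun w L => ks D.pr y w * RA D K (fun u => E u L) w) +
      mark D.pr S (fun w L => ks D.pr y w * RA D K (fun u => E' u L) w) := by
    rw [← mark_add]; apply mark_congr'; intro w L; rw [A_add]; ring
  have e2 : RBS D K (fun u v => shuf D.pr S (fun I J =>
      kl D.pr v I * (kl D.pr y I * (G (u :: I) * (E v J + E' v J))))) =
      RBS D K (fun u v => shuf D.pr S (fun I J =>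
      kl D.pr v I * (kl D.pr y I * (G (u :: I) * E v J)))) +
      RBS D K (fun u v => shuf D.pr S (fun I J =>
      kl D.pr v I * (kl D.pr y I * (G (u :: I) * E' v J)))) := by
    rw [← RBS_add]
    congr 1; funext u v
    rw [← shuf_add]; apply shuf_congr'; intro I J; ring
  rw [e1, e2, A_add]; ring

lemma vc_smul (K : ℕ) (y : ι × ℕ) (r : PS) (E : (ι × ℕ) → List (ι × ℕ) → PS)
    (S : List (ι × ℕ)) :
    vc D G K y (fun x L => r * E x L) S = r * vc D G K y E S := by
  unfold vc
  have e1 : mark D.pr S (fun w L => ks D.pr y w * RA D K (fun u => r * E u L) w) =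
      r * mark D.pr S (fun w L => ks D.pr y w * RA D K (fun u => E u L) w) := by
    rw [← mark_smul]; apply mark_congr'; intro w L; rw [A_smul]; ring
  have e2 : RBS D K (fun u v => shuf D.pr S (fun I J =>
      kl D.pr v I * (kl D.pr y I * (G (u :: I) * (r * E v J))))) =
      r * RBS D K (fun u v => shuf D.pr S (fun I J =>
      kl D.pr v I * (kl D.pr y I * (G (u :: I) * E v J)))) := by
    rw [← RBS_smul]
    congr 1; funext u v
    rw [← shuf_smul]; apply shuf_congr'; intro I J; ring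
  rw [e1, e2, A_smul]; ring

lemma vc_zero (K : ℕ) (y : ι × ℕ) (S : List (ι × ℕ)) :
    vc D G K y (fun _ _ => 0) S = 0 := by
  have := vc_smul (D := D) (G := G) K y 0 (fun _ _ => 0) S
  simpa using this

lemma vc_sum {α : Type} (K : ℕ) (y : ι × ℕ) (s : Finset α)
    (E : α → (ι × ℕ) → List (ι × ℕ) → PS) (S : List (ι × ℕ)) :
    vc D G K y (fun x L => ∑ a ∈ s, E a x L) S = ∑ a ∈ s, vc D G K y (E a) S := by
  classical
  induction s using Finset.induction_on with
  | empty => simp only [Finset.sum_empty]; exact vc_zero K y S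
  | insert a s ha ih =>
    simp only [Finset.sum_insert ha]
    rw [vc_add K y (E a) (fun x L => ∑ a ∈ s, E a x L), ih]

lemma vc_par (K : ℕ) {y y' : ι × ℕ} (h : D.pr y = D.pr y')
    (E : (ι × ℕ) → List (ι × ℕ) → PS) (S : List (ι × ℕ)) :
    vc D G K y E S = vc D G K y' E S := by
  unfold vc
  simp only [kl_congr h, ks_congr h]

/-- an even operator in the label -/
lemma vc_op {A : ((ι × ℕ) → PS) →ₗ[PS] ((ι × ℕ) → PS)} (hA : EvenOp D.pr A) (K : ℕ)
    (y : ι × ℕ) (E : (ι × ℕ) → (ι × ℕ) → List (ι × ℕ) → PS) (S : List (ι × ℕ)) :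
    A (fun w => vc D G K w (E w) S) y = vc D G K y (fun x L => A (fun w => E w x L) y) S := by
  unfold vc
  rw [A_add, A_sub, op_mark, op_RA, op_RBS]
  have e1 : mark D.pr S (fun v L => A (fun w => ks D.pr w v * RA D K (fun u => E w u L) v) y) =
      mark D.pr S (fun v L => ks D.pr y v * RA D K (fun u => A (fun w => E w u L) y) v) := by
    apply mark_congr'; intro v L
    rw [← op_RA, ks_comm y v, ← hA]
    apply A_congr; intro w; rw [ks_comm w v]
  have e2 : RBS D K (fun u v => A (fun w => shuf D.pr S (fun I J =>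
      kl D.pr v I * (kl D.pr w I * (G (u :: I) * E w v J)))) y) =
      RBS D K (fun u v => shuf D.pr S (fun I J =>
      kl D.pr v I * (kl D.pr y I * (G (u :: I) * A (fun w => E w v J) y)))) := by
    congr 1; funext u v
    rw [op_shuf]; apply shuf_congr'; intro I J
    rw [A_smul, hA.kl, A_smul]
  rw [e1, e2]

/-! ### Contractions -/

/-- the contraction with the functions `H c'` -/
def TH (D : Coh ι) (G : List (ι × ℕ) → PS) (x y : ι × ℕ) (H : ι → List (ι × ℕ) → PS)
    (S : List (ι × ℕ)) : PS :=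
  shuf D.pr S (fun I J => kl D.pr y I * RC D (fun c c' => kl D.pr (c', 0) I *
    (G (x :: (c, 0) :: I) * H c' J)))

/-- the contraction with the functions `H c'` and `MK` -/
def TM (D : Coh ι) (G : List (ι × ℕ) → PS) (K : ℕ) (y : ι × ℕ) (H : ι → List (ι × ℕ) → PS)
    (S : List (ι × ℕ)) : PS :=
  shuf D.pr S (fun I J => kl D.pr y I * RC D (fun c c' => kl D.pr (c', 0) I *
    (MK D G K (c, 0) I * H c' J)))

lemma TH_congr (x y : ι × ℕ) {H H' : ι → List (ι × ℕ) → PS} (S : List (ι × ℕ))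
    (h : ∀ c J, H c J = H' c J) : TH D G x y H S = TH D G x y H' S := by
  have : H = H' := by funext c J; exact h c J
  rw [this]

lemma TH_add (x y : ι × ℕ) (H H' : ι → List (ι × ℕ) → PS) (S : List (ι × ℕ)) :
    TH D G x y (fun c J => H c J + H' c J) S = TH D G x y H S + TH D G x y H' S := by
  unfold TH
  rw [← shuf_add]
  apply shuf_congr'; intro I J
  rw [← mul_add, ← RC_add]
  congr 1
  apply RC_congr'; intro c c'; ring

lemma TH_neg (x y : ι × ℕ) (H : ι → List (ι × ℕ) → PS) (S : List (ι × ℕ)) :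
    TH D G x y (fun c J => - H c J) S = - TH D G x y H S := by
  unfold TH
  have : ∀ a : PS, -a = (-1) * a := by intro a; ring
  rw [this (shuf _ _ _), ← shuf_smul]
  apply shuf_congr'; intro I J
  have e : RC D (fun c c' => kl D.pr (c', 0) I * (G (x :: (c, 0) :: I) * -H c' J)) =
      (-1) * RC D (fun c c' => kl D.pr (c', 0) I * (G (x :: (c, 0) :: I) * H c' J)) := by
    rw [← RC_smul]; apply RC_congr'; intro c c'; ring
  rw [e]; ring

lemma op_TH (A : ((ι × ℕ) → PS) →ₗ[PS] ((ι × ℕ) → PS)) (x y z : ι × ℕ)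
    (H : (ι × ℕ) → ι → List (ι × ℕ) → PS) (S : List (ι × ℕ)) :
    A (fun w => TH D G x y (H w) S) z = TH D G x y (fun c J => A (fun w => H w c J) z) S := by
  unfold TH
  rw [op_shuf]
  apply shuf_congr'; intro I J
  rw [A_smul]
  congr 1
  unfold RC
  rw [A_sum]
  apply Finset.sum_congr rfl; intro c _
  rw [A_sum]
  apply Finset.sum_congr rfl; intro c' _
  rw [A_smul, A_smul, A_smul]

/-- the topological recursion relation with the last two insertions of the list in the
contraction -/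
lemma RG.trr1 (h : RG D G) (x y z : ι × ℕ) (S : List (ι × ℕ)) :
    G (up x :: y :: z :: S) = shuf D.pr S (fun I J => kl D.pr z I * (kl D.pr y I *
      RC D (fun c c' => kl D.pr (c', 0) I * (G (x :: (c, 0) :: I) *
        G ((c', 0) :: y :: z :: J))))) := by
  rw [h.trr]
  apply shuf_congr'; intro I J
  unfold Th; ring

/-- the derivatives of the topological recursion relation -/
lemma RG.DT (h : RG D G) {A : ((ι × ℕ) → PS) →ₗ[PS] ((ι × ℕ) → PS)} (hA : EvenOp D.pr A)
    (x y : ι × ℕ) (S : List (ι × ℕ)) :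
    der A S (fun s => G (up x :: y :: s)) =
      TH D G x y (fun c' J => der A J (fun s => G ((c', 0) :: y :: s))) S := by
  rw [der_mark hA S ((h.ss.cons (up x)).cons y)]
  have e1 : mark D.pr S (fun w L => A (fun u => G (up x :: y :: u :: L)) w) =
      mark D.pr S (fun w L => shuf D.pr L (fun I J => kl D.pr w I * (kl D.pr y I *
        RC D (fun c c' => kl D.pr (c', 0) I * (G (x :: (c, 0) :: I) *
          A (fun u => G ((c', 0) :: y :: u :: J)) w))))) := by
    apply mark_congr'; intro w L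
    rw [A_congr (fun u => h.trr1 x y u L), op_shuf]
    apply shuf_congr'; intro I J
    rw [hA.kl, A_smul]
    congr 2
    unfold RC
    rw [A_sum]
    apply Finset.sum_congr rfl; intro c _
    rw [A_sum]
    apply Finset.sum_congr rfl; intro c' _
    rw [A_smul, A_smul, A_smul]
  rw [e1, mark_shuf_right]
  unfold TH
  apply shuf_congr'; intro I J
  rw [mark_smul]
  congr 1
  unfold RC
  have e2 : ∀ (c c' : ι), der A J (fun s => G ((c', 0) :: y :: s)) =
      mark D.pr J (fun w L => A (fun u => G ((c', 0) :: y :: u :: L)) w) := by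
    intro c c'
    exact der_mark hA J ((h.ss.cons (c', 0)).cons y)
  have e3 : ∀ (s : Finset ι) (Φ : ι → (ι × ℕ) → List (ι × ℕ) → PS),
      mark D.pr J (fun w L => ∑ c ∈ s, Φ c w L) = ∑ c ∈ s, mark D.pr J (Φ c) := by
    intro s Φ
    classical
    induction s using Finset.induction_on with
    | empty =>
      simp only [Finset.sum_empty]
      have := mark_smul (par := D.pr) J 0 (fun _ _ => 0)
      simpa using this
    | insert a s ha ih => simp only [Finset.sum_insert ha]; rw [mark_add, ih]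
  rw [e3]
  apply Finset.sum_congr rfl; intro c _
  rw [e3]
  apply Finset.sum_congr rfl; intro c' _
  rw [mark_smul, mark_smul, mark_smul]
  simp only [e2 c c']

/-- the value of the topological recursion relation at the dilaton shift -/
lemma RG.OT (h : RG D G) {A : ((ι × ℕ) → PS) →ₗ[PS] ((ι × ℕ) → PS)} (hA : EvenOp D.pr A)
    {o : ι × ℕ} (ho : D.pr o = false) (x y : ι × ℕ) (S : List (ι × ℕ)) :
    A (fun u => G (up x :: y :: u :: S)) o =
      TH D G x y (fun c' J => A (fun u => G ((c', 0) :: y :: u :: J)) o) S := by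
  rw [A_congr (fun u => h.trr1 x y u S), op_shuf]
  unfold TH
  apply shuf_congr'; intro I J
  rw [hA.kl, A_smul, kl_even ho, one_mul]
  congr 1
  unfold RC
  rw [A_sum]
  apply Finset.sum_congr rfl; intro c _
  rw [A_sum]
  apply Finset.sum_congr rfl; intro c' _
  rw [A_smul, A_smul, A_smul]

/-- the two-point form, with an operator in the second slot -/
lemma RG.WT (h : RG D G) (hD : D.Good) {A : ((ι × ℕ) → PS) →ₗ[PS] ((ι × ℕ) → PS)}
    (hA : EvenOp D.pr A) (x y : ι × ℕ) (S : List (ι × ℕ)) :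
    A (fun u => G (up x :: u :: S)) y + A (fun u => G (x :: up u :: S)) y =
      TH D G x y (fun c' J => A (fun u => G ((c', 0) :: u :: J)) y) S := by
  rw [← A_add, A_congr (fun u => h.W hD x u S), op_shuf]
  unfold TH
  apply shuf_congr'; intro I J
  rw [hA.kl]
  congr 1
  unfold Th RC
  rw [A_sum]
  apply Finset.sum_congr rfl; intro c _
  rw [A_sum]
  apply Finset.sum_congr rfl; intro c' _
  rw [A_smul, A_smul, A_smul]

end

end Vale.Agent.P269.H598.R
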