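import Vale.Agent.P269.H598.RStep

/-!
The induction step for the genus zero Virasoro constraints, second part.
-/

set_option linter.unusedSectionVars false

namespace Vale.Agent.P269.H598.R

noncomputable section

open Finset Coh

variable {ι : Type} [Fintype ι] [DecidableEq ι] {D : Coh ι} {G : List (ι × ℕ) → PS}

lemma pairing_up (M : Matrix ι ι ℂ) (u : ι × ℕ) (S : List (ι × ℕ)) :
    pairing M (up u :: S) = 0 := by
  rcases S with _ | ⟨z, _ | ⟨w, S⟩⟩
  · rfl
  · simp [pairing, up]
  · rfl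

lemma pairing_snd_ne (M : Matrix ι ι ℂ) (u y : ι × ℕ) (S : List (ι × ℕ)) (h : y.2 ≠ 0) :
    pairing M (u :: y :: S) = 0 := by
  rcases S with _ | ⟨w, S⟩
  · simp [pairing, h]
  · rfl

lemma pairing_long (M : Matrix ι ι ℂ) (u y : ι × ℕ) (S : List (ι × ℕ)) (h : S ≠ []) :
    pairing M (u :: y :: S) = 0 := by
  rcases S with _ | ⟨w, S⟩
  · exact absurd rfl h
  · rfl

lemma pairing_two (M : Matrix ι ι ℂ) (a c : ι) : pairing M [(a, 0), (c, 0)] = M a c := by
  simp [pairing]

lemma Rη_par (hD : D.Good) (K : ℕ) {a c : ι} (h : (D.R ^ K * D.η) a c ≠ 0) :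
    D.par a = D.par c := by
  rw [Matrix.mul_apply] at h
  obtain ⟨e, _, he⟩ := Finset.exists_ne_zero_of_sum_ne_zero h
  exact (hD.Rpow_par K (left_ne_zero_of_mul he)).trans (hD.η_par (right_ne_zero_of_mul he))

lemma pair_rec (K : ℕ) (a : ι) (S : List (ι × ℕ)) :
    pairing (D.R ^ (K + 1) * D.η) ((a, 0) :: S) =
      ∑ c, D.R a c * pairing (D.R ^ K * D.η) ((c, 0) :: S) := by
  rcases S with _ | ⟨⟨z, m⟩, _ | ⟨w, S⟩⟩
  · simp [pairing]
  · by_cases hm : m = 0
    · subst hm
      simp only [pairing_two]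
      rw [pow_succ', Matrix.mul_assoc, Matrix.mul_apply]
    · simp [pairing, hm]
  · simp [pairing]

lemma MK_rec (hD : D.Good) (K : ℕ) (y : ι × ℕ) (S : List (ι × ℕ)) :
    MK D G (K + 1) y S = RA D 1 (fun u => MK D G K (up u) S) y +
      (if y.2 = 0 then ∑ c, PowerSeries.C (D.R y.1 c) * MK D G K (c, 0) S else 0) := by
  obtain ⟨a, m⟩ := y
  have e0 : (fun u => MK D G K (up u) S) = fun u => RA D K (fun w => G (w :: S)) (up u) := by
    funext u
    unfold MK; rw [pairing_up, map_zero, add_zero]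
  rw [e0]
  unfold MK
  rw [RA_rec_left hD, RA_one]
  simp only
  by_cases hm : m = 0
  · subst hm
    rw [if_pos rfl, if_pos rfl, add_zero, pair_rec, map_sum]
    have : ∑ c, PowerSeries.C (D.R a c) * (RA D K (fun w => G (w :: S)) (c, 0) +
        PowerSeries.C (pairing (D.R ^ K * D.η) ((c, 0) :: S))) =
        ∑ c, PowerSeries.C (D.R a c) * RA D K (fun w => G (w :: S)) (c, 0) +
        ∑ c, PowerSeries.C (D.R a c * pairing (D.R ^ K * D.η) ((c, 0) :: S)) := by
      rw [← Finset.sum_add_distrib]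
      apply Finset.sum_congr rfl; intro c _
      rw [map_mul]; ring
    rw [this]; ring
  · rw [if_neg hm, if_neg hm]
    obtain ⟨n, rfl⟩ := Nat.exists_eq_succ_of_ne_zero hm
    have : pairing (D.R ^ (K + 1) * D.η) ((a, n.succ) :: S) = 0 := pairing_up _ (a, n) S
    rw [this, map_zero]
    simp only [up, Nat.succ_eq_add_one, Nat.add_sub_cancel]

/-- the pairing term, contracted -/
lemma pair_inv (hD : D.Good) (K : ℕ) (w c' : ι) :
    ∑ c, D.η⁻¹ c c' * (H598.ks D.par c' w * (D.R ^ K * D.η) c w) = (D.R ^ K) w c' := by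
  have e1 : ∀ c, D.η⁻¹ c c' * (H598.ks D.par c' w * (D.R ^ K * D.η) c w) =
      D.η⁻¹ c' c * (D.R ^ K * D.η) c w := by
    intro c
    by_cases h : (D.R ^ K * D.η) c w = 0
    · rw [h]; ring
    · rw [hD.inv_symm c c', H598.ks_congr (Rη_par hD K h), H598.ks_comm w c']
      calc H598.ks D.par c' w * D.η⁻¹ c' c * (H598.ks D.par c' w * (D.R ^ K * D.η) c w)
          = (H598.ks D.par c' w * H598.ks D.par c' w) * (D.η⁻¹ c' c * (D.R ^ K * D.η) c w) := by ring
        _ = _ := by rw [H598.ks_mul_self, one_mul]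
  rw [Finset.sum_congr rfl (fun c _ => e1 c), ← Matrix.mul_apply, ← Matrix.mul_assoc, hD.B_η,
    Matrix.transpose_apply]

lemma pair_contract (hD : D.Good) (K : ℕ) (w : ι) (H : ι → PS) :
    RC D (fun c c' => ks D.par c' w * (PowerSeries.C ((D.R ^ K * D.η) c w) * H c')) =
      ∑ c', PowerSeries.C ((D.R ^ K) w c') * H c' := by
  unfold RC
  rw [Finset.sum_comm]
  apply Finset.sum_congr rfl; intro c' _
  rw [← pair_inv hD K w c', map_sum, Finset.sum_mul]
  apply Finset.sum_congr rfl; intro c _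
  rw [map_mul, map_mul, ks_C]; ring

/-- the pairing term in the contraction -/
lemma TH_pairing (hD : D.Good) (x y : ι × ℕ) (S : List (ι × ℕ)) :
    TH D G x y (fun c' J => PowerSeries.C (pairing (D.R ^ 1 * D.η) ((c', 0) :: y :: J))) S =
      if y.2 = 0 then ∑ c, PowerSeries.C (D.R y.1 c) * G (x :: (c, 0) :: S) else 0 := by
  unfold TH
  rw [shuf_right_nil]
  · obtain ⟨b, m⟩ := y
    by_cases hm : m = 0
    · subst hm
      rw [if_pos rfl, ← RC_smul]
      have e1 : RC D (fun c c' => kl D.pr (b, 0) S * (kl D.pr (c', 0) S * (G (x :: (c, 0) :: S) *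
          PowerSeries.C (pairing (D.R ^ 1 * D.η) [(c', 0), (b, 0)])))) =
          RC D (fun c c' => G (x :: (c, 0) :: S) * PowerSeries.C ((D.R ^ 1 * D.η) c' b)) := by
        apply RC_congr'; intro c c'
        rw [pairing_two]
        by_cases h : (D.R ^ 1 * D.η) c' b = 0
        · rw [h]; simp
        · have h2 : D.pr (c', 0) = D.pr (b, 0) := Rη_par hD 1 h
          rw [kl_congr h2]
          calc kl D.pr (b, 0) S * (kl D.pr (b, 0) S * (G (x :: (c, 0) :: S) *
                PowerSeries.C ((D.R ^ 1 * D.η) c' b)))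
              = (kl D.pr (b, 0) S * kl D.pr (b, 0) S) * (G (x :: (c, 0) :: S) *
                PowerSeries.C ((D.R ^ 1 * D.η) c' b)) := by ring
            _ = _ := by rw [kl_mul_self, one_mul]
      rw [e1]
      unfold RC
      apply Finset.sum_congr rfl; intro c _
      have e2 : D.R b c = ∑ c', D.η⁻¹ c c' * (D.R ^ 1 * D.η) c' b := by
        rw [← Matrix.mul_apply, ← Matrix.mul_assoc, hD.B_η, Matrix.transpose_apply, pow_one]
      simp only
      rw [e2, map_sum, Finset.sum_mul]
      apply Finset.sum_congr rfl; intro c' _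
      rw [map_mul]; ring
    · rw [if_neg hm]
      have e1 : RC D (fun c c' => kl D.pr (c', 0) S * (G (x :: (c, 0) :: S) *
          PowerSeries.C (pairing (D.R ^ 1 * D.η) [(c', 0), (b, m)]))) =
          RC D (fun _ _ => (0 : PS) * 0) := by
        apply RC_congr'; intro c c'
        rw [pairing_snd_ne _ _ _ _ hm]; simp
      rw [e1, RC_smul]; ring
  · intro I J hJ
    have e1 : RC D (fun c c' => kl D.pr (c', 0) I * (G (x :: (c, 0) :: I) *
        PowerSeries.C (pairing (D.R ^ 1 * D.η) ((c', 0) :: y :: J)))) =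
        RC D (fun _ _ => (0 : PS) * 0) := by
      apply RC_congr'; intro c c'
      rw [pairing_long _ _ _ _ hJ]; simp
    rw [e1, RC_smul]; ring

lemma RBS_one (f : (ι × ℕ) → (ι × ℕ) → PS) : RBS D 1 f = 0 := by
  ext e
  rw [RBS_coeff]
  unfold BS
  simp

/-- the second derivatives of `L_0` -/
lemma RG.E2 (h : RG D G) (hD : D.Good) (h1 : ∀ L, zR D G 1 L = 0) (a y : ι × ℕ)
    (S : List (ι × ℕ)) :
    RA D 1 (fun u => G (u :: y :: S)) a + RA D 1 (fun u => G (a :: u :: S)) y +
      (der (RA D 1) S (fun s => G (a :: y :: s)) -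
        RA D 1 (fun u => G (a :: y :: u :: S)) (D.one, 1)) +
      PowerSeries.C (pairing (D.R ^ 1 * D.η) (a :: y :: S)) = 0 := by
  have h2 := h1 (a :: y :: S)
  unfold zR at h2
  rw [RBS_one] at h2
  simp only [der] at h2
  have e1 : RA D 1 (fun w => G (w :: a :: y :: S)) (D.one, 1) =
      RA D 1 (fun u => G (a :: y :: u :: S)) (D.one, 1) := by
    have e2 : ∀ w, G (w :: a :: y :: S) = ks D.pr a w * (ks D.pr y w * G (a :: y :: w :: S)) := by
      intro w
      rw [h.swap12 w a, (h.ss.cons a).swap w y, ks_comm w a, ks_comm w y]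
    rw [A_congr e2, RA_even hD, RA_even hD, ks_even' (hD.pr_one 1), ks_even' (hD.pr_one 1),
      one_mul, one_mul]
  rw [e1] at h2
  linear_combination h2

/-- the derivatives of `L_0` and the topological recursion relations -/
lemma RG.Ix (h : RG D G) (hD : D.Good) (h1 : ∀ L, zR D G 1 L = 0) (x y : ι × ℕ)
    (S : List (ι × ℕ)) :
    RA D 1 (fun u => G (u :: y :: S)) (up x) =
      TH D G x y (fun c' J => RA D 1 (fun u => G (u :: y :: J)) (c', 0)) S +
      RA D 1 (fun u => G (x :: up u :: S)) y +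
      (if y.2 = 0 then ∑ c, PowerSeries.C (D.R y.1 c) * G (x :: (c, 0) :: S) else 0) := by
  have hA := RA_even hD 1
  have f1 := h.E2 hD h1 (up x) y S
  rw [pairing_up, map_zero, add_zero, h.DT hA, h.OT hA (hD.pr_one 1)] at f1
  have f2 := h.WT hD hA x y S
  have f3 : TH D G x y (fun c' J => RA D 1 (fun u => G (u :: y :: J)) (c', 0) +
      RA D 1 (fun u => G ((c', 0) :: u :: J)) y +
      (der (RA D 1) J (fun s => G ((c', 0) :: y :: s)) +
        - RA D 1 (fun u => G ((c', 0) :: y :: u :: J)) (D.one, 1)) +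
      PowerSeries.C (pairing (D.R ^ 1 * D.η) ((c', 0) :: y :: J))) S =
      TH D G x y (fun _ _ => 0) S := by
    apply TH_congr; intro c J
    have := h.E2 hD h1 (c, 0) y J
    rw [sub_eq_add_neg] at this
    exact this
  have f4 : TH D G x y (fun _ _ => 0) S = 0 := by
    have := TH_neg (D := D) (G := G) x y (fun _ _ => 0) S
    simp only [neg_zero] at this
    have h2 : (2 : PS) * TH D G x y (fun _ _ => 0) S = 0 := by linear_combination this
    rcases mul_eq_zero.mp h2 with h3 | h3
    · exfalso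
      have := congrArg (PowerSeries.coeff 0) h3
      rw [show (2 : PS) = PowerSeries.C 2 from (map_ofNat _ 2).symm, PowerSeries.coeff_zero_C] at this
      norm_num at this
    · exact h3
  rw [f4, TH_add, TH_add, TH_add, TH_add, TH_neg, TH_pairing hD] at f3
  linear_combination f1 - f2 - f3

end

end Vale.Agent.P269.H598.R
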