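import Vale.Agent.P269.H598.RStep2

/-!
The induction step for the genus zero Virasoro constraints, third part.
-/

set_option linter.unusedSectionVars false

namespace Vale.Agent.P269.H598.R

noncomputable section

open Finset Coh

variable {ι : Type} [Fintype ι] [DecidableEq ι] {D : Coh ι} {G : List (ι × ℕ) → PS}

lemma TM_pair (hD : D.Good) (K : ℕ) (y : ι × ℕ) (H : ι → List (ι × ℕ) → PS)
    (S : List (ι × ℕ)) :
    shuf D.pr S (fun I J => kl D.pr y I * RC D (fun c c' => kl D.pr (c', 0) I *
      (PowerSeries.C (pairing (D.R ^ K * D.η) ((c, 0) :: I)) * H c' J))) =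
    mark D.pr S (fun w L => ks D.pr y w * (if w.2 = 0 then
      ∑ c', PowerSeries.C ((D.R ^ K) w.1 c') * H c' L else 0)) := by
  have hz : RC D (fun _ _ => (0 : PS)) = 0 := by
    have := RC_smul (D := D) 0 (fun _ _ => 0)
    simpa using this
  rw [shuf_single]
  · apply mark_congr'; intro w L
    obtain ⟨b, m⟩ := w
    simp only [kl, mul_one]
    congr 1
    by_cases hm : m = 0
    · subst hm
      rw [if_pos rfl, ← pair_contract hD K b (fun c' => H c' L)]
      apply RC_congr'; intro c c'
      rw [pairing_two]; rfl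
    · rw [if_neg hm, ← hz]
      apply RC_congr'; intro c c'
      rw [pairing_snd_ne _ _ _ _ hm]; simp
  · intro I J hI
    have : RC D (fun c c' => kl D.pr (c', 0) I *
        (PowerSeries.C (pairing (D.R ^ K * D.η) ((c, 0) :: I)) * H c' J)) = 0 := by
      rw [← hz]
      apply RC_congr'; intro c c'
      have : pairing (D.R ^ K * D.η) ((c, 0) :: I) = 0 := by
        rcases I with _ | ⟨z, _ | ⟨w, S⟩⟩
        · rfl
        · exact absurd rfl hI
        · rfl
      rw [this]; simp
    rw [this, mul_zero]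

lemma TM_split (hD : D.Good) (K : ℕ) (y : ι × ℕ) (H : ι → List (ι × ℕ) → PS)
    (S : List (ι × ℕ)) : TM D G K y H S =
    shuf D.pr S (fun I J => kl D.pr y I * RC D (fun c c' => kl D.pr (c', 0) I *
      (RA D K (fun w => G (w :: I)) (c, 0) * H c' J))) +
    mark D.pr S (fun w L => ks D.pr y w * (if w.2 = 0 then
      ∑ c', PowerSeries.C ((D.R ^ K) w.1 c') * H c' L else 0)) := by
  rw [← TM_pair hD, ← shuf_add]
  unfold TM
  apply shuf_congr'; intro I J
  rw [← mul_add, ← RC_add]
  congr 1
  apply RC_congr'; intro c c'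
  unfold MK; ring

/-- recursion for the vector field: the second order part -/
lemma vc_recB (hD : D.Good) (K : ℕ) (y : ι × ℕ) (E : (ι × ℕ) → List (ι × ℕ) → PS)
    (S : List (ι × ℕ)) :
    RBS D (K + 1) (fun u v => shuf D.pr S (fun I J =>
      kl D.pr v I * (kl D.pr y I * (G (u :: I) * E v J)))) =
    RBS D K (fun u v => shuf D.pr S (fun I J =>
      kl D.pr v I * (kl D.pr y I * (G (u :: I) * RA D 1 (fun v' => E v' J) (up v))))) +
    shuf D.pr S (fun I J => kl D.pr y I * RC D (fun c c' => kl D.pr (c', 0) I *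
      (RA D K (fun w => G (w :: I)) (c, 0) * RA D 1 (fun u => E u J) (c', 0)))) := by
  have hA := RA_even hD 1
  have e0 : ∀ (u v : ι × ℕ), RA D 1 (fun v' => shuf D.pr S (fun I J =>
      kl D.pr v' I * (kl D.pr y I * (G (u :: I) * E v' J)))) v =
      shuf D.pr S (fun I J =>
      kl D.pr v I * (kl D.pr y I * (G (u :: I) * RA D 1 (fun v' => E v' J) v))) := by
    intro u v
    rw [op_shuf]; apply shuf_congr'; intro I J
    rw [hA.kl, A_smul, A_smul]
  rw [RBS_rec hD]
  simp only [e0, kl_up]
  congr 1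
  have e1 : ∀ c c', RA D K (fun u => shuf D.pr S (fun I J => kl D.pr (c', 0) I *
      (kl D.pr y I * (G (u :: I) * RA D 1 (fun v' => E v' J) (c', 0))))) (c, 0) =
      shuf D.pr S (fun I J => kl D.pr y I * (kl D.pr (c', 0) I *
      (RA D K (fun w => G (w :: I)) (c, 0) * RA D 1 (fun u => E u J) (c', 0)))) := by
    intro c c'
    rw [op_shuf]; apply shuf_congr'; intro I J
    have : (fun y_1 => kl D.pr (c', 0) I * (kl D.pr y I * (G (y_1 :: I) *
        RA D 1 (fun v' => E v' J) (c', 0)))) =
        fun y_1 => (kl D.pr (c', 0) I * (kl D.pr y I *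
        RA D 1 (fun v' => E v' J) (c', 0))) * G (y_1 :: I) := by
      funext y_1; ring
    rw [this, A_smul]; ring
  simp only [e1]
  rw [RC_shuf]
  apply shuf_congr'; intro I J
  rw [RC_smul]

/-- recursion for the vector field -/
lemma vc_rec (hD : D.Good) (K : ℕ) (y : ι × ℕ) (E : (ι × ℕ) → List (ι × ℕ) → PS)
    (S : List (ι × ℕ)) :
    vc D G (K + 1) y E S = vc D G K y (fun x L => RA D 1 (fun u => E u L) (up x)) S +
      TM D G K y (fun c' J => RA D 1 (fun u => E u J) (c', 0)) S := by
  rw [TM_split hD]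
  unfold vc
  rw [vc_recB hD]
  have e1 : mark D.pr S (fun w L => ks D.pr y w * RA D (K + 1) (fun u => E u L) w) =
      mark D.pr S (fun w L => ks D.pr y w * RA D K (fun x => RA D 1 (fun u => E u L) (up x)) w) +
      mark D.pr S (fun w L => ks D.pr y w * (if w.2 = 0 then
        ∑ c', PowerSeries.C ((D.R ^ K) w.1 c') * RA D 1 (fun u => E u L) (c', 0) else 0)) := by
    rw [← mark_add]; apply mark_congr'; intro w L
    rw [RA_rec_right hD]; ring
  have e2 : RA D (K + 1) (fun u => E u S) (D.one, 1) =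
      RA D K (fun x => RA D 1 (fun u => E u S) (up x)) (D.one, 1) := by
    rw [RA_rec_right hD, if_neg (by simp), add_zero]
  rw [e1, e2]; ring

lemma vc_RC (K : ℕ) (y : ι × ℕ) (E : ι → ι → (ι × ℕ) → List (ι × ℕ) → PS)
    (S : List (ι × ℕ)) :
    vc D G K y (fun x L => RC D (fun c c' => E c c' x L)) S =
      RC D (fun c c' => vc D G K y (E c c') S) := by
  unfold RC
  rw [vc_sum]
  apply Finset.sum_congr rfl; intro c _
  rw [vc_sum]
  apply Finset.sum_congr rfl; intro c' _
  rw [vc_smul]

/-- the mark part of `vc_TH1` -/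
lemma vc_TH1_mark (K : ℕ) (y c c' : ι × ℕ) (hc : D.pr c = D.pr c')
    (H : List (ι × ℕ) → PS) (S : List (ι × ℕ)) :
    mark D.pr S (fun w L => ks D.pr y w * RA D K (fun u => shuf D.pr L (fun I J =>
      kl D.pr y I * (kl D.pr c' I * (G (u :: c :: I) * H J)))) w) =
    shuf D.pr S (fun I J => kl D.pr y I * (kl D.pr c' I *
      (mark D.pr I (fun w L => ks D.pr c w * RA D K (fun u => G (u :: c :: L)) w) * H J))) := by
  have e1 : mark D.pr S (fun w L => ks D.pr y w * RA D K (fun u => shuf D.pr L (fun I J =>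
      kl D.pr y I * (kl D.pr c' I * (G (u :: c :: I) * H J)))) w) =
      mark D.pr S (fun w L => shuf D.pr L (fun I J => ks D.pr y w * kl D.pr y I *
        (kl D.pr c' I * (RA D K (fun u => G (u :: c :: I)) w * H J)))) := by
    apply mark_congr'; intro w L
    rw [op_shuf, ← shuf_smul]
    apply shuf_congr'; intro I J
    have : (fun u => kl D.pr y I * (kl D.pr c' I * (G (u :: c :: I) * H J))) =
        fun u => (kl D.pr y I * (kl D.pr c' I * H J)) * G (u :: c :: I) := by
      funext u; ring
    rw [this, A_smul]; ring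
  rw [e1, mark_shuf]
  apply shuf_congr'; intro I J
  rw [mark_kl]
  have e2 : mark D.pr I (fun w L => kl D.pr c' L * (RA D K (fun u => G (u :: c :: L)) w * H J)) =
      mark D.pr I (fun w L => ks D.pr c' w * kl D.pr c' L *
        ((ks D.pr c w * RA D K (fun u => G (u :: c :: L)) w) * H J)) := by
    apply mark_congr'; intro w L
    rw [ks_congr hc]
    calc kl D.pr c' L * (RA D K (fun u => G (u :: c :: L)) w * H J)
        = (ks D.pr c' w * ks D.pr c' w) * (kl D.pr c' L *
          (RA D K (fun u => G (u :: c :: L)) w * H J)) := by rw [ks_mul_self, one_mul]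
      _ = _ := by ring
  rw [e2, mark_kl]
  have e3 : mark D.pr I (fun w L => (ks D.pr c w * RA D K (fun u => G (u :: c :: L)) w) * H J) =
      H J * mark D.pr I (fun w L => ks D.pr c w * RA D K (fun u => G (u :: c :: L)) w) := by
    rw [← mark_smul]; apply mark_congr'; intro w L; ring
  rw [e3]; ring

/-- the second order part of `vc_TH1` -/
lemma vc_TH1_quad (K : ℕ) (y c c' : ι × ℕ) (hc : D.pr c = D.pr c')
    (H : List (ι × ℕ) → PS) (S : List (ι × ℕ)) :
    RBS D K (fun u v => shuf D.pr S (fun I J => kl D.pr v I * (kl D.pr y I *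
      (G (u :: I) * shuf D.pr J (fun I J =>
      kl D.pr y I * (kl D.pr c' I * (G (v :: c :: I) * H J))))))) =
    shuf D.pr S (fun I J => kl D.pr y I * (kl D.pr c' I *
      (RBS D K (fun u v => shuf D.pr I (fun I J =>
      kl D.pr v I * (kl D.pr c I * (G (u :: I) * G (v :: c :: J))))) * H J))) := by
  have e1 : ∀ u v, shuf D.pr S (fun I J => kl D.pr v I * (kl D.pr y I *
      (G (u :: I) * shuf D.pr J (fun I J =>
      kl D.pr y I * (kl D.pr c' I * (G (v :: c :: I) * H J)))))) =
      shuf D.pr S (fun I J => kl D.pr y I * (kl D.pr c' I * (H J * shuf D.pr I (fun I J =>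
      kl D.pr v I * (kl D.pr c I * (G (u :: I) * G (v :: c :: J))))))) := by
    intro u v
    have f1 : shuf D.pr S (fun I J => kl D.pr v I * (kl D.pr y I *
        (G (u :: I) * shuf D.pr J (fun I J =>
        kl D.pr y I * (kl D.pr c' I * (G (v :: c :: I) * H J)))))) =
        shuf D.pr S (fun I J => shuf D.pr J (fun J1 J2 => kl D.pr v I * (kl D.pr y I *
        (G (u :: I) * (kl D.pr y J1 * (kl D.pr c' J1 * (G (v :: c :: J1) * H J2))))))) := by
      apply shuf_congr'; intro I J
      rw [← shuf_smul, ← shuf_smul, ← shuf_smul]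
    rw [f1, shuf_assoc]
    apply shuf_congr'; intro I J
    have f2 : shuf D.pr I (fun I1 I2 => kl D.pr v I1 * (kl D.pr y I1 *
        (G (u :: I1) * (kl D.pr y I2 * (kl D.pr c' I2 * (G (v :: c :: I2) * H J)))))) =
        shuf D.pr I (fun I1 I2 => kl D.pr y I1 * kl D.pr y I2 * (kl D.pr c' I1 * kl D.pr c' I2 *
        (H J * (kl D.pr v I1 * (kl D.pr c I1 * (G (u :: I1) * G (v :: c :: I2))))))) := by
      apply shuf_congr'; intro I1 I2
      rw [kl_congr hc]
      calc kl D.pr v I1 * (kl D.pr y I1 *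
          (G (u :: I1) * (kl D.pr y I2 * (kl D.pr c' I2 * (G (v :: c :: I2) * H J)))))
          = (kl D.pr c' I1 * kl D.pr c' I1) * (kl D.pr v I1 * (kl D.pr y I1 *
          (G (u :: I1) * (kl D.pr y I2 * (kl D.pr c' I2 * (G (v :: c :: I2) * H J)))))) := by
            rw [kl_mul_self, one_mul]
        _ = _ := by ring
    rw [f2, shuf_kl, shuf_kl, shuf_smul]
  simp only [e1]
  rw [RBS_shuf]
  apply shuf_congr'; intro I J
  rw [RBS_smul, RBS_smul, RBS_smul]; ring

/-- the contraction of the vector field with a contraction -/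
lemma vc_TH1 (K : ℕ) (y c c' : ι × ℕ) (hc : D.pr c = D.pr c')
    (H : List (ι × ℕ) → PS) (S : List (ι × ℕ)) :
    vc D G K y (fun x L => shuf D.pr L (fun I J =>
      kl D.pr y I * (kl D.pr c' I * (G (x :: c :: I) * H J)))) S =
    shuf D.pr S (fun I J => kl D.pr y I * (kl D.pr c' I *
      (vc D G K c (fun u L => G (u :: c :: L)) I * H J))) := by
  have e0 : shuf D.pr S (fun I J => kl D.pr y I * (kl D.pr c' I *
      (vc D G K c (fun u L => G (u :: c :: L)) I * H J))) =
      shuf D.pr S (fun I J => kl D.pr y I * (kl D.pr c' I *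
      (mark D.pr I (fun w L => ks D.pr c w * RA D K (fun u => G (u :: c :: L)) w) * H J))) -
      shuf D.pr S (fun I J => kl D.pr y I * (kl D.pr c' I *
      (RA D K (fun u => G (u :: c :: I)) (D.one, 1) * H J))) +
      shuf D.pr S (fun I J => kl D.pr y I * (kl D.pr c' I *
      (RBS D K (fun u v => shuf D.pr I (fun I J =>
      kl D.pr v I * (kl D.pr c I * (G (u :: I) * G (v :: c :: J))))) * H J))) := by
    rw [← shuf_sub, ← shuf_add]
    apply shuf_congr'; intro I J
    unfold vc; ring
  rw [e0, ← vc_TH1_mark K y c c' hc, ← vc_TH1_quad K y c c' hc]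
  unfold vc
  congr 2
  rw [op_shuf]
  apply shuf_congr'; intro I J
  have : (fun u => kl D.pr y I * (kl D.pr c' I * (G (u :: c :: I) * H J))) =
      fun u => (kl D.pr y I * (kl D.pr c' I * H J)) * G (u :: c :: I) := by
    funext u; ring
  rw [this, A_smul]; ring

lemma TH_eq (x y : ι × ℕ) (H : ι → List (ι × ℕ) → PS) (S : List (ι × ℕ)) :
    TH D G x y H S = RC D (fun c c' => shuf D.pr S (fun I J =>
      kl D.pr y I * (kl D.pr (c', 0) I * (G (x :: (c, 0) :: I) * H c' J)))) := by
  unfold TH
  rw [RC_shuf]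
  apply shuf_congr'; intro I J
  rw [RC_smul]

lemma vc_TH (hD : D.Good) (K : ℕ) (h0 : ∀ y S, MK D G K y S +
    vc D G K y (fun u L => G (u :: y :: L)) S = 0) (y : ι × ℕ)
    (H : ι → List (ι × ℕ) → PS) (S : List (ι × ℕ)) :
    vc D G K y (fun x L => TH D G x y H L) S = - TM D G K y H S := by
  simp only [TH_eq]
  rw [vc_RC]
  have e1 : RC D (fun c c' => vc D G K y (fun x L => shuf D.pr L (fun I J =>
      kl D.pr y I * (kl D.pr (c', 0) I * (G (x :: (c, 0) :: I) * H c' J)))) S) =
      RC D (fun c c' => (-1) * shuf D.pr S (fun I J =>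
      kl D.pr y I * (kl D.pr (c', 0) I * (MK D G K (c, 0) I * H c' J)))) := by
    apply RC_congr hD
    intro c c' hc
    rw [vc_TH1 K y (c, 0) (c', 0) hc, ← shuf_smul]
    apply shuf_congr'; intro I J
    linear_combination (kl D.pr y I * (kl D.pr (c', 0) I * H c' J)) * h0 (c, 0) I
  rw [e1, RC_smul, RC_shuf]
  unfold TM
  have e2 : ∀ I J, RC D (fun c c' => kl D.pr y I * (kl D.pr (c', 0) I *
      (MK D G K (c, 0) I * H c' J))) = kl D.pr y I * RC D (fun c c' => kl D.pr (c', 0) I *
      (MK D G K (c, 0) I * H c' J)) := by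
    intro I J; rw [RC_smul]
  simp only [e2]
  ring

/-- the induction step, first derivatives -/
lemma RG.step_cons (h : RG D G) (hD : D.Good) (h1 : ∀ L, zR D G 1 L = 0) (K : ℕ)
    (hK : ∀ L, zR D G K L = 0) (y : ι × ℕ) (S : List (ι × ℕ)) :
    zR D G (K + 1) (y :: S) = 0 := by
  have h0 : ∀ y S, MK D G K y S + vc D G K y (fun u L => G (u :: y :: L)) S = 0 := by
    intro y S; rw [← h.z_cons hD]; exact hK _
  rw [h.z_cons hD, MK_rec hD, vc_rec hD]
  have e1 : vc D G K y (fun x L => RA D 1 (fun u => G (u :: y :: L)) (up x)) S =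
      vc D G K y (fun x L => TH D G x y (fun c' J => RA D 1 (fun u => G (u :: y :: J)) (c', 0)) L +
      RA D 1 (fun u => G (x :: up u :: L)) y +
      (if y.2 = 0 then ∑ c, PowerSeries.C (D.R y.1 c) * G (x :: (c, 0) :: L) else 0)) S := by
    apply vc_congr; intro x L; exact h.Ix hD h1 x y L
  rw [e1, vc_add, vc_add, vc_TH hD K h0]
  have e2 : vc D G K y (fun x L => RA D 1 (fun u => G (x :: up u :: L)) y) S =
      - RA D 1 (fun u => MK D G K (up u) S) y := by
    rw [← vc_op (RA_even hD 1)]
    have : ∀ w, vc D G K w (fun x L => G (x :: up w :: L)) S = (-1) * MK D G K (up w) S := by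
      intro w
      rw [vc_par K (pr_up w).symm]
      linear_combination h0 (up w) S
    rw [A_congr this, A_smul]; ring
  have e3 : vc D G K y (fun x L => if y.2 = 0 then
      ∑ c, PowerSeries.C (D.R y.1 c) * G (x :: (c, 0) :: L) else 0) S =
      - (if y.2 = 0 then ∑ c, PowerSeries.C (D.R y.1 c) * MK D G K (c, 0) S else 0) := by
    by_cases hy : y.2 = 0
    · simp only [if_pos hy]
      rw [vc_sum, ← Finset.sum_neg_distrib]
      apply Finset.sum_congr rfl; intro c _
      rw [vc_smul]
      by_cases hR : D.R y.1 c = 0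
      · rw [hR]; simp
      · have hp : D.pr y = D.pr (c, 0) := by
          have := hD.Rpow_par 1 (a := y.1) (c := c) (by simpa using hR)
          exact this
        rw [vc_par K hp]
        linear_combination PowerSeries.C (D.R y.1 c) * h0 (c, 0) S
    · simp only [if_neg hy]
      rw [vc_zero]; ring
  rw [e2, e3]; ring

/-- the value at the empty list, from the dilaton equation -/
lemma RG.z_nil (h : RG D G) (hD : D.Good) (K : ℕ) :
    zR D G K [(D.one, 1)] = -2 * zR D G K [] := by
  unfold zR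
  have d1 : ∀ w, G [w, (D.one, 1)] = (-1) * G [w] := by
    intro w
    rw [h.swap12, h.dil, ks_even' (hD.pr_one 1)]
    simp only [List.length_cons, List.length_nil]
    push_cast; ring
  have e1 : RA D K (fun w => G [w, (D.one, 1)]) (D.one, 1) =
      (-1) * RA D K (fun w => G [w]) (D.one, 1) := by
    rw [A_congr d1, A_smul]
  have e2 : RBS D K (fun u v => shuf D.pr [(D.one, 1)] (fun I J =>
      kl D.pr v I * (G (u :: I) * G (v :: J)))) =
      (-2) * RBS D K (fun u v => shuf D.pr [] (fun I J =>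
      kl D.pr v I * (G (u :: I) * G (v :: J)))) := by
    rw [← RBS_smul]
    congr 1; funext u v
    simp only [shuf, kl, d1, ks_even' (hD.pr_one 1)]
    ring
  have e3 : pairing (D.R ^ K * D.η) [(D.one, 1)] = 0 := rfl
  have e4 : pairing (D.R ^ K * D.η) ([] : List (ι × ℕ)) = 0 := rfl
  rw [e2, e3, e4]
  simp only [der]
  rw [e1]
  simp only [map_zero]
  ring

/-- the genus zero Virasoro constraints -/
theorem RG.main (h : RG D G) (hD : D.Good) (h0 : ∀ L, zR D G 0 L = 0)
    (h1 : ∀ L, zR D G 1 L = 0) (K : ℕ) : ∀ L, zR D G K L = 0 := by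
  induction K with
  | zero => exact h0
  | succ K ih =>
    intro L
    rcases L with _ | ⟨y, S⟩
    · have e1 := h.z_nil hD (K + 1)
      rw [h.step_cons hD h1 K ih] at e1
      have h2 : PowerSeries.C (-1 / 2 : ℂ) * (-2 : PS) = 1 := by
        rw [show (-2 : PS) = PowerSeries.C (-2) by
          rw [map_neg, map_ofNat], ← map_mul]
        norm_num
      have : zR D G (K + 1) [] = PowerSeries.C (-1 / 2 : ℂ) * (-2 * zR D G (K + 1) []) := by
        linear_combination - zR D G (K + 1) [] * h2
      rw [this, ← e1, mul_zero]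
    · exact h.step_cons hD h1 K ih y S

end

end Vale.Agent.P269.H598.R
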