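import Mathlib

/-!
The formalism of `Super` over the ring of power series in the Novikov variable.
-/

set_option linter.unusedSectionVars false

namespace Vale.Agent.P269.H598.R

noncomputable section

/-- power series in the Novikov variable -/
abbrev PS : Type := PowerSeries ℂ

variable {X : Type}

/-- Koszul sign of two insertions: `-1` if both are odd, `1` otherwise. -/
def ks (par : X → Bool) (x y : X) : PS := if par x && par y then -1 else 1

/-- Koszul sign of an insertion and a list of insertions. -/
def kl (par : X → Bool) (x : X) : List X → PS
  | [] => 1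
  | y :: l => ks par x y * kl par x l

/-- Supersymmetry of a function of a list of insertions. -/
def SS (par : X → Bool) (F : List X → PS) : Prop :=
  ∀ (l : List X) (x y : X) (l' : List X),
    F (l ++ x :: y :: l') = ks par x y * F (l ++ y :: x :: l')

/-- `shuf par l Φ`: the sum of `± Φ I J` over all ways to split the list `l` into two
complementary sublists `I`, `J`, where `±` is the Koszul sign of the permutation
which takes `l` to `I ++ J`. -/
def shuf (par : X → Bool) : List X → (List X → List X → PS) → PS
  | [], Φ => Φ [] []
  | x :: l, Φ => shuf par l (fun I J => Φ (x :: I) J) +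
      shuf par l (fun I J => kl par x I * Φ I (x :: J))

/-- `dr` for linear maps -/
def der (A : (X → PS) →ₗ[PS] (X → PS)) : List X → (List X → PS) → PS
  | [], _ => 0
  | x :: l, G => A (fun y => G (y :: l)) x + der A l (fun s => G (x :: s))

section basics

variable {par : X → Bool}

lemma ks_comm (x y : X) : ks par x y = ks par y x := by
  unfold ks; rw [Bool.and_comm]

lemma ks_mul_self (x y : X) : ks par x y * ks par x y = 1 := by
  unfold ks; split_ifs <;> norm_num

lemma ks_even {x : X} (h : par x = false) (y : X) : ks par x y = 1 := by
  simp [ks, h]

lemma ks_even' {y : X} (h : par y = false) (x : X) : ks par x y = 1 := by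
  simp [ks, h]

lemma ks_congr {x x' : X} (h : par x = par x') (y : X) : ks par x y = ks par x' y := by
  simp [ks, h]

lemma ks_congr' {y y' : X} (h : par y = par y') (x : X) : ks par x y = ks par x y' := by
  simp [ks, h]

lemma kl_even {x : X} (h : par x = false) (l : List X) : kl par x l = 1 := by
  induction l with
  | nil => rfl
  | cons y l ih => simp [kl, ih, ks_even h]

lemma kl_congr {x x' : X} (h : par x = par x') (l : List X) : kl par x l = kl par x' l := by
  induction l with
  | nil => rfl
  | cons y l ih => simp [kl, ih, ks_congr h]

lemma kl_mul_self (x : X) (l : List X) : kl par x l * kl par x l = 1 := by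
  induction l with
  | nil => simp [kl]
  | cons y l ih =>
    simp only [kl]
    calc ks par x y * kl par x l * (ks par x y * kl par x l)
        = (ks par x y * ks par x y) * (kl par x l * kl par x l) := by ring
      _ = 1 := by rw [ih, ks_mul_self, mul_one]

lemma kl_append (x : X) (l l' : List X) :
    kl par x (l ++ l') = kl par x l * kl par x l' := by
  induction l with
  | nil => simp [kl]
  | cons y l ih => simp [kl, ih, mul_assoc]

lemma kl_swap (z x y : X) (l l' : List X) :
    kl par z (l ++ x :: y :: l') = kl par z (l ++ y :: x :: l') := by
  simp only [kl_append, kl]; ring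

lemma SS.cons {F : List X → PS} (h : SS par F) (x : X) : SS par (fun s => F (x :: s)) := by
  intro l a b l'
  exact h (x :: l) a b l'

lemma SS.swap {F : List X → PS} (h : SS par F) (x y : X) (l : List X) :
    F (x :: y :: l) = ks par x y * F (y :: x :: l) := h [] x y l

lemma SS.front {F : List X → PS} (h : SS par F) (l : List X) (x : X) (l' : List X) :
    F (l ++ x :: l') = kl par x l * F (x :: (l ++ l')) := by
  induction l generalizing F with
  | nil => simp [kl]
  | cons y l ih =>
    have h1 := ih (h.cons y)
    simp only [List.cons_append] at h1 ⊢
    rw [h1, h.swap y x, ks_comm y x]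
    simp only [kl]; ring

lemma SS.zero : SS par (fun _ => 0) := by intro l x y l'; simp

lemma SS.add {F G : List X → PS} (hF : SS par F) (hG : SS par G) :
    SS par (fun l => F l + G l) := by
  intro l x y l'; simp only [hF l x y l', hG l x y l']; ring

lemma SS.smul {F : List X → PS} (c : PS) (hF : SS par F) :
    SS par (fun l => c * F l) := by
  intro l x y l'; simp only [hF l x y l']; ring

lemma SS.sum {α : Type} (s : Finset α) {F : α → List X → PS} (h : ∀ a ∈ s, SS par (F a)) :
    SS par (fun l => ∑ a ∈ s, F a l) := by
  intro l x y l'
  rw [Finset.mul_sum]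
  exact Finset.sum_congr rfl fun a ha => h a ha l x y l'

lemma SS.sub {F G : List X → PS} (hF : SS par F) (hG : SS par G) :
    SS par (fun l => F l - G l) := by
  intro l x y l'; simp only [hF l x y l', hG l x y l']; ring

lemma SS.kl_mul {F : List X → PS} (hF : SS par F) (z : X) :
    SS par (fun l => kl par z l * F l) := by
  intro l x y l'; simp only [hF l x y l', kl_swap z x y l l']; ring

/-- An operator which preserves parity. -/
def EvenOp (par : X → Bool) (A : (X → PS) →ₗ[PS] (X → PS)) : Prop :=
  ∀ (z : X) (g : X → PS) (x : X), A (fun y => ks par z y * g y) x = ks par z x * A g x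

lemma EvenOp.kl {A : (X → PS) →ₗ[PS] (X → PS)} (hA : EvenOp par A) (g : X → PS) (x : X)
    (l : List X) : A (fun y => kl par y l * g y) x = kl par x l * A g x := by
  induction l generalizing g with
  | nil => simp [R.kl]
  | cons z l ih =>
    have : (fun y => R.kl par y (z :: l) * g y) =
        (fun y => R.kl par y l * (ks par z y * g y)) := by
      funext y; simp only [R.kl]; rw [ks_comm y z]; ring
    rw [this, ih, hA]; simp only [R.kl]; rw [ks_comm x z]; ring

end basics

section derlemmas

variable {par : X → Bool} (A : (X → PS) →ₗ[PS] (X → PS))

lemma A_add (g g' : X → PS) (x : X) : A (fun y => g y + g' y) x = A g x + A g' x := by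
  have : (fun y => g y + g' y) = g + g' := rfl
  rw [this, map_add]; rfl

lemma A_sub (g g' : X → PS) (x : X) : A (fun y => g y - g' y) x = A g x - A g' x := by
  have : (fun y => g y - g' y) = g - g' := rfl
  rw [this, map_sub]; rfl

lemma A_smul (c : PS) (g : X → PS) (x : X) : A (fun y => c * g y) x = c * A g x := by
  have : (fun y => c * g y) = c • g := rfl
  rw [this, map_smul]; rfl

lemma A_zero (x : X) : A (fun _ => 0) x = 0 := by
  have : (fun _ : X => (0 : PS)) = 0 := rfl
  rw [this, map_zero]; rfl

lemma A_sum {α : Type} (s : Finset α) (g : α → X → PS) (x : X) :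
    A (fun y => ∑ a ∈ s, g a y) x = ∑ a ∈ s, A (g a) x := by
  have : (fun y => ∑ a ∈ s, g a y) = ∑ a ∈ s, g a := by funext y; simp
  rw [this, map_sum]; simp

lemma der_add (l : List X) (F G : List X → PS) :
    der A l (fun s => F s + G s) = der A l F + der A l G := by
  induction l generalizing F G with
  | nil => simp [der]
  | cons x l ih => simp only [der, ih, A_add]; ring

lemma der_sub (l : List X) (F G : List X → PS) :
    der A l (fun s => F s - G s) = der A l F - der A l G := by
  induction l generalizing F G with
  | nil => simp [der]
  | cons x l ih => simp only [der, ih, A_sub]; ring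

lemma der_smul (l : List X) (c : PS) (F : List X → PS) :
    der A l (fun s => c * F s) = c * der A l F := by
  induction l generalizing F with
  | nil => simp [der]
  | cons x l ih => simp only [der, ih, A_smul]; ring

lemma der_zero (l : List X) : der A l (fun _ => 0) = 0 := by
  induction l with
  | nil => simp [der]
  | cons x l ih => simp only [der, ih, A_zero]; ring

lemma der_sum {α : Type} (l : List X) (s : Finset α) (F : α → List X → PS) :
    der A l (fun t => ∑ a ∈ s, F a t) = ∑ a ∈ s, der A l (F a) := by
  induction l generalizing F with
  | nil => simp [der]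
  | cons x l ih => simp only [der, ih, A_sum, Finset.sum_add_distrib]

lemma der_opadd (B : (X → PS) →ₗ[PS] (X → PS)) (l : List X) (F : List X → PS) :
    der (A + B) l F = der A l F + der B l F := by
  induction l generalizing F with
  | nil => simp [der]
  | cons x l ih => simp only [der, ih, LinearMap.add_apply, Pi.add_apply]; ring

lemma der_opsmul (c : PS) (l : List X) (F : List X → PS) :
    der (c • A) l F = c * der A l F := by
  induction l generalizing F with
  | nil => simp [der]
  | cons x l ih => simp only [der, ih, LinearMap.smul_apply, Pi.smul_apply, smul_eq_mul]; ring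

lemma der_opsub (B : (X → PS) →ₗ[PS] (X → PS)) (l : List X) (F : List X → PS) :
    der (A - B) l F = der A l F - der B l F := by
  induction l generalizing F with
  | nil => simp [der]
  | cons x l ih => simp only [der, ih, LinearMap.sub_apply, Pi.sub_apply]; ring

variable {A}

lemma SS.der (hA : EvenOp par A) {F : List X → PS} (hF : SS par F) :
    SS par (fun l => R.der A l F) := by
  intro l x y l'
  induction l generalizing F with
  | nil =>
    simp only [List.nil_append, R.der]
    have e1 : A (fun w => F (w :: y :: l')) x = ks par x y * A (fun w => F (y :: w :: l')) x := by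
      have : (fun w => F (w :: y :: l')) = fun w => ks par y w * F (y :: w :: l') := by
        funext w; rw [hF.swap w y, ks_comm w y]
      rw [this, hA, ks_comm y x]
    have e2 : A (fun w => F (x :: w :: l')) y = ks par x y * A (fun w => F (w :: x :: l')) y := by
      have : (fun w => F (x :: w :: l')) = fun w => ks par x w * F (w :: x :: l') := by
        funext w; rw [hF.swap x w]
      rw [this, hA]
    have e3 : R.der A l' (fun s => F (x :: y :: s)) =
        ks par x y * R.der A l' (fun s => F (y :: x :: s)) := by
      rw [← der_smul]
      congr 1; funext s; exact hF.swap x y s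
    rw [e1, e2, e3]; ring
  | cons z l ih =>
    simp only [List.cons_append, R.der]
    have ih' := ih (hF.cons z)
    simp only at ih'
    rw [ih']
    have : (fun w => F (w :: (l ++ x :: y :: l'))) =
        fun w => ks par x y * F (w :: (l ++ y :: x :: l')) := by
      funext w; exact hF (w :: l) x y l'
    rw [this, A_smul]; ring

lemma SS.op (z : X) {G : X → List X → PS} (h : ∀ y, SS par (G y)) :
    SS par (fun l => A (fun y => G y l) z) := by
  intro l x y l'
  have : (fun w => G w (l ++ x :: y :: l')) =
      fun w => ks par x y * G w (l ++ y :: x :: l') := by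
    funext w; exact h w l x y l'
  show A (fun w => G w (l ++ x :: y :: l')) z = _
  rw [this, A_smul]

lemma der_kl (hA : EvenOp par A) (x : X) (l : List X) (F : List X → PS) :
    der A l (fun s => kl par x s * F s) = kl par x l * der A l F := by
  induction l generalizing F with
  | nil => simp [der]
  | cons y l ih =>
    simp only [der, kl]
    have e1 : (fun w => ks par x w * kl par x l * F (w :: l)) =
        fun w => ks par x w * (kl par x l * F (w :: l)) := by funext w; ring
    have e2 : (fun s => ks par x y * kl par x s * F (y :: s)) =
        fun s => ks par x y * (kl par x s * F (y :: s)) := by funext w; ring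
    rw [e1, hA, A_smul, e2, der_smul, ih]; ring

end derlemmas

section shuflemmas

variable {par : X → Bool}

lemma shuf_add (l : List X) (Φ Ψ : List X → List X → PS) :
    shuf par l (fun I J => Φ I J + Ψ I J) = shuf par l Φ + shuf par l Ψ := by
  induction l generalizing Φ Ψ with
  | nil => simp [shuf]
  | cons x l ih =>
    simp only [shuf]
    rw [ih]
    have : (fun I J => kl par x I * (Φ I (x :: J) + Ψ I (x :: J))) =
        fun I J => kl par x I * Φ I (x :: J) + kl par x I * Ψ I (x :: J) := by
      funext I J; ring
    rw [this, ih]; ring

lemma shuf_smul (l : List X) (c : PS) (Φ : List X → List X → PS) :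
    shuf par l (fun I J => c * Φ I J) = c * shuf par l Φ := by
  induction l generalizing Φ with
  | nil => simp [shuf]
  | cons x l ih =>
    simp only [shuf]
    rw [ih]
    have : (fun I J => kl par x I * (c * Φ I (x :: J))) =
        fun I J => c * (kl par x I * Φ I (x :: J)) := by
      funext I J; ring
    rw [this, ih]; ring

lemma shuf_zero (l : List X) : shuf par l (fun _ _ => 0) = 0 := by
  induction l with
  | nil => simp [shuf]
  | cons x l ih => simp [shuf, ih]

lemma shuf_sum {α : Type} (l : List X) (s : Finset α) (Φ : α → List X → List X → PS) :
    shuf par l (fun I J => ∑ a ∈ s, Φ a I J) = ∑ a ∈ s, shuf par l (Φ a) := by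
  classical
  induction s using Finset.induction_on with
  | empty => simp [shuf_zero]
  | insert a s ha ih => simp only [Finset.sum_insert ha]; rw [shuf_add, ih]

lemma shuf_sub (l : List X) (Φ Ψ : List X → List X → PS) :
    shuf par l (fun I J => Φ I J - Ψ I J) = shuf par l Φ - shuf par l Ψ := by
  have : (fun I J => Φ I J - Ψ I J) = fun I J => Φ I J + (-1) * Ψ I J := by
    funext I J; ring
  rw [this, shuf_add, shuf_smul]; ring

lemma op_shuf (A : (X → PS) →ₗ[PS] (X → PS)) (x : X) (l : List X)
    (Φ : X → List X → List X → PS) :
    A (fun y => shuf par l (Φ y)) x = shuf par l (fun I J => A (fun y => Φ y I J) x) := by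
  induction l generalizing Φ with
  | nil => simp [shuf]
  | cons z l ih =>
    simp only [shuf]
    rw [A_add, ih, ih]
    congr 1
    congr 1; funext I J; rw [A_smul]

lemma shuf_SS {Φ : List X → List X → PS} (h1 : ∀ J, SS par (fun I => Φ I J))
    (h2 : ∀ I, SS par (fun J => Φ I J)) : SS par (fun l => shuf par l Φ) := by
  intro l x y l'
  induction l generalizing Φ with
  | nil =>
    simp only [List.nil_append, shuf]
    have e1 : shuf par l' (fun I J => Φ (x :: y :: I) J) =
        ks par x y * shuf par l' (fun I J => Φ (y :: x :: I) J) := by
      rw [← shuf_smul]; congr 1; funext I J; exact (h1 J).swap x y I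
    have e4 : shuf par l' (fun I J => kl par y I * (kl par x I * Φ I (x :: y :: J))) =
        ks par x y * shuf par l' (fun I J => kl par x I * (kl par y I * Φ I (y :: x :: J))) := by
      rw [← shuf_smul]; congr 1; funext I J; rw [(h2 I).swap x y J]; ring
    have e3 : shuf par l' (fun I J => kl par x (y :: I) * Φ (y :: I) (x :: J)) =
        ks par x y * shuf par l' (fun I J => kl par x I * Φ (y :: I) (x :: J)) := by
      rw [← shuf_smul]; congr 1; funext I J; simp only [kl]; ring
    have e2 : shuf par l' (fun I J => kl par y I * Φ (x :: I) (y :: J)) =
        ks par x y * shuf par l' (fun I J => kl par y (x :: I) * Φ (x :: I) (y :: J)) := by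
      rw [← shuf_smul]; congr 1; funext I J; simp only [kl]
      rw [ks_comm y x]
      calc kl par y I * Φ (x :: I) (y :: J)
          = (ks par x y * ks par x y) * (kl par y I * Φ (x :: I) (y :: J)) := by
            rw [ks_mul_self, one_mul]
        _ = _ := by ring
    rw [e1, e2, e3, e4]; ring
  | cons z l ih =>
    simp only [List.cons_append, shuf]
    have ih1 := ih (Φ := fun I J => Φ (z :: I) J) (fun J => (h1 J).cons z) (fun I => h2 (z :: I))
    have ih2 := ih (Φ := fun I J => kl par z I * Φ I (z :: J)) (fun J => (h1 (z :: J)).kl_mul z)
        (fun I => ((h2 I).cons z).smul _)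
    simp only at ih1 ih2
    rw [ih1, ih2]
    ring

lemma der_shuf {A : (X → PS) →ₗ[PS] (X → PS)} (hA : EvenOp par A) (l : List X)
    (Φ : List X → List X → PS) :
    der A l (fun s => shuf par s Φ) =
      shuf par l (fun I J => der A I (fun I' => Φ I' J) + der A J (fun J' => Φ I J')) := by
  induction l generalizing Φ with
  | nil => simp [der, shuf]
  | cons x l ih =>
    simp only [der, shuf]
    rw [A_add, op_shuf, op_shuf, der_add, ih, ih]
    have e1 : (fun I J => A (fun y => kl par y I * Φ I (y :: J)) x) =
        fun I J => kl par x I * A (fun y => Φ I (y :: J)) x := by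
      funext I J; exact hA.kl (fun y => Φ I (y :: J)) x I
    have e2 : (fun I J => der A I (fun I' => kl par x I' * Φ I' (x :: J)) +
          der A J (fun J' => kl par x I * Φ I (x :: J'))) =
        fun I J => kl par x I * (der A I (fun I' => Φ I' (x :: J)) +
          der A J (fun J' => Φ I (x :: J'))) := by
      funext I J; rw [der_kl hA, der_smul]; ring
    rw [e1, e2]
    rw [← shuf_add, ← shuf_add, ← shuf_add, ← shuf_add]
    congr 1; funext I J; ring

/-- Splitting a product of a symmetric weight and a supersymmetric function of the
concatenation. -/
lemma shuf_append {Ψ : List X → PS} (hΨ : SS par Ψ) (l : List X) (θ : List X → List X → PS) :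
    shuf par l (fun I J => θ I J * Ψ (I ++ J)) =
      shuf (fun _ => false) l θ * Ψ l := by
  induction l generalizing Ψ θ with
  | nil => simp [shuf]
  | cons x l ih =>
    simp only [shuf]
    have e1 : shuf par l (fun I J => θ (x :: I) J * Ψ (x :: I ++ J)) =
        shuf (fun _ => false) l (fun I J => θ (x :: I) J) * Ψ (x :: l) := by
      exact ih (hΨ.cons x) (fun I J => θ (x :: I) J)
    have e2 : shuf par l (fun I J => kl par x I * (θ I (x :: J) * Ψ (I ++ x :: J))) =
        shuf (fun _ => false) l (fun I J => θ I (x :: J)) * Ψ (x :: l) := by
      rw [← ih (hΨ.cons x) (fun I J => θ I (x :: J))]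
      congr 1; funext I J
      rw [hΨ.front I x J]
      calc kl par x I * (θ I (x :: J) * (kl par x I * Ψ (x :: (I ++ J))))
          = (kl par x I * kl par x I) * (θ I (x :: J) * Ψ (x :: (I ++ J))) := by ring
        _ = _ := by rw [kl_mul_self, one_mul]
    rw [e1, e2]
    have e3 : (fun I J => kl (fun _ => false) x I * θ I (x :: J)) =
        fun I J => θ I (x :: J) := by
      funext I J; rw [kl_even rfl, one_mul]
    rw [e3]; ring

end shuflemmas

end

end Vale.Agent.P269.H598.R
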