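import Vale.Agent.P269.H598.ROps

/-!
The genus zero Virasoro constraints from the topological recursion relations.
-/

set_option linter.unusedSectionVars false

namespace Vale.Agent.P269.H598.R

noncomputable section

open Finset Coh

variable {ι : Type} [Fintype ι] [DecidableEq ι] (D : Coh ι) (G : List (ι × ℕ) → PS)

/-- the contraction in the topological recursion relations -/
def Th (x : ι × ℕ) (I L : List (ι × ℕ)) : PS :=
  RC D (fun c c' => kl D.pr (c', 0) I * (G (x :: (c, 0) :: I) * G ((c', 0) :: L)))

/-- genus zero potential with the topological recursion relations -/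
structure RG : Prop where
  ss : SS D.pr G
  ev : ∀ L, tp D.pr L = true → G L = 0
  trr : ∀ x y z S, G (up x :: y :: z :: S) =
    shuf D.pr S (fun I J => kl D.pr y I * (kl D.pr z I * Th D G x I (y :: z :: J)))
  two : ∀ x y, G [up x, y] + G [x, up y] = Th D G x [] [y]
  dil : ∀ S, G ((D.one, 1) :: S) = ((S.length : PS) - 2) * G S

/-- the Virasoro expression -/
def zR (K : ℕ) (L : List (ι × ℕ)) : PS :=
  der (RA D K) L G - RA D K (fun w => G (w :: L)) (D.one, 1) +
    PowerSeries.C (1 / 2) * RBS D K (fun u v => shuf D.pr L (fun I J =>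
      kl D.pr v I * (G (u :: I) * G (v :: J)))) +
    PowerSeries.C (pairing (D.R ^ K * D.η) L)

/-- minus the negative part of the vector field -/
def MK (K : ℕ) (x : ι × ℕ) (S : List (ι × ℕ)) : PS :=
  RA D K (fun w => G (w :: S)) x + PowerSeries.C (pairing (D.R ^ K * D.η) (x :: S))

/-- contraction with the positive part of the vector field -/
def vc (K : ℕ) (y : ι × ℕ) (E : (ι × ℕ) → List (ι × ℕ) → PS) (S : List (ι × ℕ)) : PS :=
  mark D.pr S (fun w L => ks D.pr y w * RA D K (fun u => E u L) w) -
    RA D K (fun u => E u S) (D.one, 1) +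
    RBS D K (fun u v => shuf D.pr S (fun I J =>
      kl D.pr v I * (kl D.pr y I * (G (u :: I) * E v J))))

variable {D G}

lemma pr_up (x : ι × ℕ) : D.pr (up x) = D.pr x := rfl

lemma kl_up (x : ι × ℕ) (l : List (ι × ℕ)) : kl D.pr (up x) l = kl D.pr x l :=
  kl_congr (pr_up x) l

lemma ks_up (x y : ι × ℕ) : ks D.pr (up x) y = ks D.pr x y := rfl

lemma sign1 : ∀ (px py pz pc tI tJ : Bool), xor pc (xor py tJ) = false →
    xor px (xor pc (xor pz tI)) = false →
    xor (py && xor pz tI) (pc && xor pz tI) =
    xor (px && py) (xor (tI && tJ) (xor (px && tJ) (xor (pz && tJ) (xor (pc && pc)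
      (xor (pc && tJ) (xor (py && pc) (pc && px))))))) := by decide

lemma RG.swap12 (h : RG D G) (x y : ι × ℕ) (L : List (ι × ℕ)) :
    G (x :: y :: L) = ks D.pr x y * G (y :: x :: L) := h.ss.swap x y L

/-- the two-point form of the topological recursion relations -/
lemma RG.W (h : RG D G) (hD : D.Good) (x y : ι × ℕ) (S : List (ι × ℕ)) :
    G (up x :: y :: S) + G (x :: up y :: S) =
      shuf D.pr S (fun I J => kl D.pr y I * Th D G x I (y :: J)) := by
  rcases S with _ | ⟨z, S⟩
  · rw [h.two]; simp [shuf, kl]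
  · simp only [shuf]
    rw [add_comm]
    congr 1
    · rw [h.swap12 x (up y), h.trr y x z S, shuf_swap, ← shuf_smul]
      apply shuf_congr'; intro I J
      unfold Th
      rw [RC_swap hD (fun c c' => kl D.pr (c', 0) J * (G (y :: (c, 0) :: J) *
        G ((c', 0) :: x :: z :: I))), ← RC_smul, ← RC_smul, ← RC_smul, ← RC_smul, ← RC_smul]
      apply RC_congr hD
      intro c c' hcc
      have hcc' : D.pr (c, 0) = D.pr (c', 0) := hcc
      rw [h.swap12 y (c', 0) J, h.swap12 (c, 0) x (z :: I)]
      by_cases h1 : tp D.pr ((c', 0) :: y :: J) = true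
      · rw [h.ev _ h1]; ring
      · by_cases h2 : tp D.pr (x :: (c, 0) :: z :: I) = true
        · rw [h.ev _ h2]; ring
        · rw [Bool.not_eq_true] at h1 h2
          simp only [tp] at h1 h2
          rw [← hcc'] at h1
          have hs := congrArg sg (sign1 (D.pr x) (D.pr y) (D.pr z) (D.pr (c, 0)) (tp D.pr I)
            (tp D.pr J) h1 h2)
          simp only [← sg_mul] at hs
          rw [show ks D.par c c' = sg (D.pr (c, 0) && D.pr (c', 0)) from rfl]
          simp only [kl_eq, ks_eq, pr_up]
          rw [← hcc']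
          simp only [tp]
          linear_combination -(G (x :: (c, 0) :: z :: I) * G ((c', 0) :: y :: J)) * hs
    · rw [h.trr]
      apply shuf_congr'; intro I J; ring

lemma RG.A_comm12 (h : RG D G) {A : ((ι × ℕ) → PS) →ₗ[PS] ((ι × ℕ) → PS)}
    (hA : EvenOp D.pr A) (y w : ι × ℕ) (L : List (ι × ℕ)) :
    A (fun u => G (y :: u :: L)) w = ks D.pr y w * A (fun u => G (u :: y :: L)) w := by
  have : (fun u => G (y :: u :: L)) = fun u => ks D.pr y u * G (u :: y :: L) := by
    funext u; exact h.swap12 y u L
  rw [this, hA]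

lemma sign2 : ∀ (pu py tI tJ : Bool), xor pu (xor py tJ) = false → xor pu tI = false →
    xor (pu && pu) (xor (tI && tJ) (xor (pu && py) (pu && tJ))) =
    xor (py && tI) (pu && tI) := by decide

/-- the first derivatives of the second order part -/
lemma RG.quad_cons (h : RG D G) (hD : D.Good) (K : ℕ) (y : ι × ℕ) (S : List (ι × ℕ)) :
    RBS D K (fun u v => shuf D.pr (y :: S) (fun I J =>
      kl D.pr v I * (G (u :: I) * G (v :: J)))) =
      2 * RBS D K (fun u v => shuf D.pr S (fun I J =>
        kl D.pr v I * (kl D.pr y I * (G (u :: I) * G (v :: y :: J))))) := by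
  have f1 : RBS D K (fun u v => shuf D.pr S (fun I J =>
      kl D.pr v (y :: I) * (G (u :: y :: I) * G (v :: J)))) =
      RBS D K (fun u v => shuf D.pr S (fun I J =>
        kl D.pr v I * (kl D.pr y I * (G (u :: I) * G (v :: y :: J))))) := by
    rw [RBS_symm hD]
    apply RBS_congr hD
    intro u v huv
    rw [shuf_swap, ← shuf_smul]
    apply shuf_congr'; intro I J
    by_cases h1 : tp D.pr (v :: y :: J) = true
    · rw [h.ev _ h1]; ring
    · by_cases h2 : tp D.pr (u :: I) = true
      · rw [h.ev _ h2]; ring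
      · rw [Bool.not_eq_true] at h1 h2
        simp only [tp] at h1 h2
        rw [← huv] at h1
        have hs := congrArg sg (sign2 (D.pr u) (D.pr y) (tp D.pr I) (tp D.pr J) h1 h2)
        simp only [← sg_mul] at hs
        simp only [kl_eq, ks_eq, ← huv, tp]
        rw [show (D.pr u && xor (D.pr y) (tp D.pr J)) =
          xor (D.pr u && D.pr y) (D.pr u && tp D.pr J) by
            cases D.pr u <;> cases D.pr y <;> cases tp D.pr J <;> rfl, ← sg_mul]
        linear_combination (G (u :: I) * G (v :: y :: J)) * hs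
  have f2 : RBS D K (fun u v => shuf D.pr S (fun I J =>
      kl D.pr y I * (kl D.pr v I * (G (u :: I) * G (v :: y :: J))))) =
      RBS D K (fun u v => shuf D.pr S (fun I J =>
        kl D.pr v I * (kl D.pr y I * (G (u :: I) * G (v :: y :: J))))) := by
    apply RBS_congr hD
    intro u v _
    apply shuf_congr'; intro I J; ring
  have f3 : RBS D K (fun u v => shuf D.pr (y :: S) (fun I J =>
      kl D.pr v I * (G (u :: I) * G (v :: J)))) =
      RBS D K (fun u v => shuf D.pr S (fun I J =>
      kl D.pr v (y :: I) * (G (u :: y :: I) * G (v :: J)))) +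
      RBS D K (fun u v => shuf D.pr S (fun I J =>
      kl D.pr y I * (kl D.pr v I * (G (u :: I) * G (v :: y :: J))))) := by
    rw [← RBS_add]; rfl
  rw [f3, f1, f2, two_mul]

/-- the first derivatives of the Virasoro expression -/
lemma RG.z_cons (h : RG D G) (hD : D.Good) (K : ℕ) (y : ι × ℕ) (S : List (ι × ℕ)) :
    zR D G K (y :: S) = MK D G K y S + vc D G K y (fun u L => G (u :: y :: L)) S := by
  unfold zR MK vc
  have hA := RA_even hD K
  simp only [der]
  rw [der_mark hA S (h.ss.cons y)]
  have e1 : mark D.pr S (fun w L => RA D K (fun u => G (y :: u :: L)) w) =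
      mark D.pr S (fun w L => ks D.pr y w * RA D K (fun u => G (u :: y :: L)) w) := by
    apply mark_congr'; intro w L; exact h.A_comm12 hA y w L
  rw [e1]
  rw [h.quad_cons hD]
  have e3 : PowerSeries.C (1 / 2 : ℂ) * (2 : PS) = 1 := by
    rw [show (2 : PS) = PowerSeries.C 2 from (map_ofNat _ 2).symm, ← map_mul]; norm_num
  linear_combination (RBS D K (fun u v => shuf D.pr S (fun I J =>
        kl D.pr v I * (kl D.pr y I * (G (u :: I) * G (v :: y :: J)))))) * e3

end

end Vale.Agent.P269.H598.R
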