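import Vale.Agent.P269.H598.Exist
import Vale.Agent.P269.H598.TRRDef

/-!
The topological recursion relations for the system with vanishing invariants in positive degree.
-/

set_option linter.unusedSectionVars false

namespace Vale.Agent.P269.H598

open Finset Coh

/-- the trivial parity -/
abbrev ev0 : ℕ → Bool := fun _ => false

/-- the second order term of the numerical recursion relation -/
noncomputable def Tq (m a b : ℕ) (S : List ℕ) : ℂ :=
  shuf ev0 S (fun I J => psi0 (m :: 0 :: I) * psi0 (0 :: a :: b :: J))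

/-- the difference of the two sides of the numerical recursion relation -/
noncomputable def Dl (m a b : ℕ) (S : List ℕ) : ℂ :=
  psi0 ((m + 1) :: a :: b :: S) - Tq m a b S

lemma psi0_SS : SS ev0 psi0 := by
  intro l x y l'
  rw [ks_even rfl, one_mul]
  exact psi0_perm (swap_perm l x y l')

lemma Tq_SS (m a b : ℕ) : SS ev0 (Tq m a b) := by
  apply shuf_SS (Φ := fun I J => psi0 (m :: 0 :: I) * psi0 (0 :: a :: b :: J))
  · intro J l x y l'
    have h := ((psi0_SS.cons m).cons 0) l x y l'
    simp only at h ⊢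
    rw [h]; ring
  · intro I l x y l'
    have h := (((psi0_SS.cons 0).cons a).cons b) l x y l'
    simp only at h ⊢
    rw [h]; ring

lemma opn_even : EvenOp ev0 opn := by
  intro z g x
  simp only [ks_even (par := ev0) rfl, one_mul]

lemma psi0_front2 (x z : ℕ) (l : List ℕ) : psi0 (x :: z :: l) = psi0 (z :: x :: l) :=
  psi0_perm (List.Perm.swap z x l)

/-- recursion for the left hand side -/
lemma Tq_left (m a b : ℕ) (S : List ℕ) : psi0 ((m + 1) :: a :: b :: 0 :: S) =
    psi0 (m :: a :: b :: S) + opn (fun k => psi0 ((m + 1) :: k :: b :: S)) a +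
      opn (fun k => psi0 ((m + 1) :: a :: k :: S)) b +
      der opn S (fun s => psi0 ((m + 1) :: a :: b :: s)) := by
  have h1 : psi0 ((m + 1) :: a :: b :: 0 :: S) = psi0 (0 :: (m + 1) :: a :: b :: S) := by
    apply psi0_perm
    exact (List.perm_middle (l₁ := [m + 1, a, b]) (l₂ := S) (a := 0))
  rw [h1, psi0_string, if_neg (by simp), add_zero]
  simp only [der]
  rw [opn_apply, if_neg (by omega), Nat.add_sub_cancel]; ring

lemma Tq_right1 (m : ℕ) (I : List ℕ) : psi0 (m :: 0 :: 0 :: I) =
    opn (fun k => psi0 (k :: 0 :: I)) m + der opn I (fun s => psi0 (m :: 0 :: s)) +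
      (if m = 0 ∧ I = [] then 1 else 0) := by
  rw [psi0_front2, psi0_string]
  simp only [der]
  have h1 : opn (fun y => psi0 (m :: y :: I)) 0 = 0 := by rw [opn_apply, if_pos rfl]
  have h2 : (m :: 0 :: I = [0, 0]) = (m = 0 ∧ I = []) := by simp
  rw [h1]; simp only [h2]; ring

lemma Tq_right2 (a b : ℕ) (J : List ℕ) : psi0 (0 :: a :: b :: 0 :: J) =
    opn (fun k => psi0 (0 :: k :: b :: J)) a + opn (fun k => psi0 (0 :: a :: k :: J)) b +
      der opn J (fun s => psi0 (0 :: a :: b :: s)) := by
  have h1 : psi0 (0 :: a :: b :: 0 :: J) = psi0 (0 :: 0 :: a :: b :: J) := by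
    apply psi0_perm
    exact (List.perm_middle (l₁ := [0, a, b]) (l₂ := J) (a := 0))
  rw [h1, psi0_string, if_neg (by simp), add_zero]
  simp only [der]
  have h2 : opn (fun y => psi0 (y :: a :: b :: J)) 0 = 0 := by rw [opn_apply, if_pos rfl]
  rw [h2]; ring

/-- recursion for the second order term -/
lemma Tq_zero (m a b : ℕ) (S : List ℕ) : Tq m a b (0 :: S) =
    opn (fun k => Tq k a b S) m + opn (fun k => Tq m k b S) a + opn (fun k => Tq m a k S) b +
      der opn S (Tq m a b) + (if m = 0 then psi0 (0 :: a :: b :: S) else 0) := by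
  have h0 : Tq m a b (0 :: S) = shuf ev0 S (fun I J =>
      psi0 (m :: 0 :: 0 :: I) * psi0 (0 :: a :: b :: J)) +
      shuf ev0 S (fun I J => psi0 (m :: 0 :: I) * psi0 (0 :: a :: b :: 0 :: J)) := by
    unfold Tq
    simp only [shuf]
    congr 1
    · congr 1; funext I J
      rw [kl_even rfl, one_mul]
  have h1 : der opn S (Tq m a b) = shuf ev0 S (fun I J =>
      der opn I (fun s => psi0 (m :: 0 :: s)) * psi0 (0 :: a :: b :: J) +
      psi0 (m :: 0 :: I) * der opn J (fun s => psi0 (0 :: a :: b :: s))) := by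
    have := der_shuf opn_even S (fun I J => psi0 (m :: 0 :: I) * psi0 (0 :: a :: b :: J))
    unfold Tq
    rw [this]
    congr 1; funext I J
    rw [der_smul]
    have e : (fun I' => psi0 (m :: 0 :: I') * psi0 (0 :: a :: b :: J)) =
        fun I' => psi0 (0 :: a :: b :: J) * psi0 (m :: 0 :: I') := by funext I'; ring
    rw [e, der_smul]; ring
  have h2 : opn (fun k => Tq k a b S) m = shuf ev0 S (fun I J =>
      opn (fun k => psi0 (k :: 0 :: I)) m * psi0 (0 :: a :: b :: J)) := by
    unfold Tq
    rw [op_shuf]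
    congr 1; funext I J
    have e : (fun k => psi0 (k :: 0 :: I) * psi0 (0 :: a :: b :: J)) =
        fun k => psi0 (0 :: a :: b :: J) * psi0 (k :: 0 :: I) := by funext k; ring
    rw [e, A_smul]; ring
  have h3 : opn (fun k => Tq m k b S) a = shuf ev0 S (fun I J =>
      psi0 (m :: 0 :: I) * opn (fun k => psi0 (0 :: k :: b :: J)) a) := by
    unfold Tq
    rw [op_shuf]
    congr 1; funext I J
    rw [A_smul]
  have h4 : opn (fun k => Tq m a k S) b = shuf ev0 S (fun I J =>
      psi0 (m :: 0 :: I) * opn (fun k => psi0 (0 :: a :: k :: J)) b) := by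
    unfold Tq
    rw [op_shuf]
    congr 1; funext I J
    rw [A_smul]
  have h5 : (if m = 0 then psi0 (0 :: a :: b :: S) else 0) = shuf ev0 S (fun I J =>
      (if m = 0 ∧ I = [] then 1 else 0) * psi0 (0 :: a :: b :: J)) := by
    rw [shuf_nil_left _ _ (fun x I J => by rw [if_neg (by simp), zero_mul])]
    split_ifs with h6 h7 h7
    · ring
    · exact absurd ⟨h6, rfl⟩ h7
    · exact absurd h7.1 h6
    · ring
  rw [h0, h1, h2, h3, h4, h5, ← shuf_add, ← shuf_add, ← shuf_add, ← shuf_add, ← shuf_add]
  congr 1; funext I J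
  rw [Tq_right1, Tq_right2]; ring

lemma Dl_zero (m a b : ℕ) (S : List ℕ) : Dl m a b (0 :: S) =
    opn (fun k => Dl k a b S) m + opn (fun k => Dl m k b S) a + opn (fun k => Dl m a k S) b +
      der opn S (Dl m a b) := by
  unfold Dl
  rw [Tq_left, Tq_zero, A_sub, A_sub, A_sub, der_sub]
  have h : opn (fun k => psi0 ((k + 1) :: a :: b :: S)) m =
      psi0 (m :: a :: b :: S) - (if m = 0 then psi0 (0 :: a :: b :: S) else 0) := by
    rw [opn_apply]
    rcases m with _ | m
    · simp
    · simp
  rw [h]; ring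

lemma Dl_SS (m a b : ℕ) : SS ev0 (Dl m a b) :=
  (((psi0_SS.cons (m + 1)).cons a).cons b).sub (Tq_SS m a b)

lemma Dl_front (m a b : ℕ) (L M : List ℕ) : Dl m a b (L ++ 0 :: M) = Dl m a b (0 :: (L ++ M)) := by
  rw [(Dl_SS m a b).front, kl_even rfl, one_mul]

lemma Dl_of_dim (m a b : ℕ) (S : List ℕ) (h : m + 1 + a + b + S.sum ≠ S.length) :
    Dl m a b S = 0 := by
  unfold Dl
  have h1 : psi0 ((m + 1) :: a :: b :: S) = 0 := by
    by_contra h0
    have := psi0_type h0
    simp only [List.sum_cons, List.length_cons] at this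
    omega
  have h2 : Tq m a b S = 0 := by
    by_contra h0
    obtain ⟨I, J, h3, h4⟩ := shuf_ne_zero (fun k : ℕ => (k : ℤ) - 1) S _ h0
    have h5 := psi0_type (left_ne_zero_of_mul h3)
    have h6 := psi0_type (right_ne_zero_of_mul h3)
    simp only [List.sum_cons, List.length_cons] at h5 h6
    have hs : ∀ L : List ℕ, (L.map fun k : ℕ => (k : ℤ) - 1).sum = (L.sum : ℤ) - L.length := by
      intro L
      induction L with
      | nil => simp
      | cons x L ih =>
        simp only [List.map_cons, List.sum_cons, List.length_cons] at ih ⊢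
        rw [ih]; push_cast; ring
    rw [hs, hs, hs] at h4
    omega
  rw [h1, h2, sub_zero]

lemma zero_mem {S : List ℕ} (h : S.sum < S.length) : 0 ∈ S := by
  by_contra h0
  have : S.length ≤ S.sum := by
    clear h
    induction S with
    | nil => simp
    | cons x S ih =>
      rw [List.mem_cons, not_or] at h0
      have := ih h0.2
      rw [List.sum_cons, List.length_cons]
      have : x ≠ 0 := fun h => h0.1 h.symm
      omega
  omega

/-- the numerical recursion relation -/
theorem Dl_eq_zero (n : ℕ) : ∀ (m a b : ℕ) (S : List ℕ), S.length = n → Dl m a b S = 0 := by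
  induction n with
  | zero =>
    intro m a b S hS
    apply Dl_of_dim; omega
  | succ n ih =>
    intro m a b S hS
    by_cases h : m + 1 + a + b + S.sum = S.length
    · obtain ⟨L, M, rfl⟩ := List.append_of_mem (zero_mem (show S.sum < S.length by omega))
      have hl : (L ++ M).length = n := by
        rw [List.length_append, List.length_cons] at hS
        rw [List.length_append]; omega
      rw [Dl_front, Dl_zero]
      have e1 : ∀ k a b, Dl k a b (L ++ M) = 0 := fun k a b => ih k a b _ hl
      have e2 : der opn (L ++ M) (Dl m a b) = 0 :=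
        der_length n (fun s hs => ih m a b s hs) _ hl
      simp only [e1, e2, A_zero]
      ring
    · exact Dl_of_dim m a b S h

lemma psi0_trr (m a b : ℕ) (S : List ℕ) : psi0 ((m + 1) :: a :: b :: S) =
    shuf ev0 S (fun I J => psi0 (m :: 0 :: I) * psi0 (0 :: a :: b :: J)) := by
  have := Dl_eq_zero S.length m a b S rfl
  unfold Dl Tq at this
  exact sub_eq_zero.mp this

namespace Coh

variable {ι : Type} [Fintype ι] [DecidableEq ι] {D : Coh ι}

lemma kl_fst (c : ι) (n : ℕ) (I : List (ι × ℕ)) :
    kl D.pr (c, n) I = kl D.par c (I.map Prod.fst) := by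
  induction I with
  | nil => rfl
  | cons y I ih => simp only [kl, List.map_cons, ih]; rfl

lemma shuf_snd (S : List (ι × ℕ)) (Φ : List ℕ → List ℕ → ℂ) :
    shuf (fun _ => false) S (fun I J => Φ (I.map Prod.snd) (J.map Prod.snd)) =
      shuf ev0 (S.map Prod.snd) Φ := by
  induction S generalizing Φ with
  | nil => rfl
  | cons x l ih =>
    simp only [List.map_cons, shuf]
    rw [← ih, ← ih]
    congr 1; congr 1; funext I J
    rw [kl_even rfl, kl_even rfl]

/-- the splitting of the diagonal with the insertions in the order of the recursion relation -/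
lemma split_trr (hD : D.Good) (hI : D.IntGood) (a y z : ι) (I J : List ι) :
    ∑ c, ∑ c', D.η⁻¹ c c' * (kl D.par y I * kl D.par z I * kl D.par c' I *
      (D.int (a :: c :: I) * D.int (c' :: y :: z :: J))) = D.int (a :: y :: z :: (I ++ J)) := by
  have h1 : D.int (a :: (I ++ y :: z :: J)) =
      kl D.par y I * kl D.par z I * D.int (a :: y :: z :: (I ++ J)) := by
    have f1 := (hI.int_SS.cons a).front I y (z :: J)
    have f2 := ((hI.int_SS.cons a).cons y).front I z J
    rw [f1, f2]; ring
  have h2 : D.int (a :: y :: z :: (I ++ J)) =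
      kl D.par y I * kl D.par z I * D.int (a :: (I ++ y :: z :: J)) := by
    rw [h1]
    calc D.int (a :: y :: z :: (I ++ J))
        = (kl D.par y I * kl D.par y I) * (kl D.par z I * kl D.par z I) *
          D.int (a :: y :: z :: (I ++ J)) := by
          rw [kl_mul_self, kl_mul_self, one_mul, one_mul]
      _ = _ := by ring
  rw [h2, ← List.cons_append, ← hI.split (a :: I) (y :: z :: J), Finset.mul_sum]
  apply Finset.sum_congr rfl; intro c _
  rw [Finset.mul_sum]
  apply Finset.sum_congr rfl; intro c' _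
  by_cases h0 : D.η⁻¹ c c' = 0
  · rw [h0]; ring
  · have hp := hD.B_par 0 (a := c) (c := c') (by simpa using h0)
    simp only [kl]
    rw [hI.int_SS.swap a c, ks_comm a c, ks_congr hp]; ring

/-- the topological recursion relations for the system `sys` -/
theorem sys_trr (hD : D.Good) (hI : D.IntGood) (C : ℕ → ℂ) : D.TRR (D.sys C) := by
  intro e a m y z S
  by_cases he : e = 0
  · subst he
    rw [Finset.Nat.antidiagonal_zero, Finset.sum_singleton, sys_00]
    have e1 : (∑ c, ∑ c', D.η⁻¹ c c' * shuf D.pr S (fun I J =>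
        kl D.pr y I * kl D.pr z I * kl D.pr (c', 0) I *
          (FJ psi0 D.int ((a, m) :: (c, 0) :: I) * FJ psi0 D.int ((c', 0) :: y :: z :: J)))) =
        shuf D.pr S (fun I J => (psi0 (m :: 0 :: I.map Prod.snd) *
          psi0 (0 :: y.2 :: z.2 :: J.map Prod.snd)) *
          D.int (a :: y.1 :: z.1 :: (I ++ J).map Prod.fst)) := by
      have e2 : ∀ I J : List (ι × ℕ), (psi0 (m :: 0 :: I.map Prod.snd) *
          psi0 (0 :: y.2 :: z.2 :: J.map Prod.snd)) *
          D.int (a :: y.1 :: z.1 :: (I ++ J).map Prod.fst) = ∑ c, ∑ c', D.η⁻¹ c c' *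
        (kl D.pr y I * kl D.pr z I * kl D.pr (c', 0) I *
          (FJ psi0 D.int ((a, m) :: (c, 0) :: I) * FJ psi0 D.int ((c', 0) :: y :: z :: J))) := by
        intro I J
        rw [List.map_append, ← split_trr hD hI, Finset.mul_sum]
        apply Finset.sum_congr rfl; intro c _
        rw [Finset.mul_sum]
        apply Finset.sum_congr rfl; intro c' _
        rw [kl_fst, show y = (y.1, y.2) from rfl, kl_fst, show z = (z.1, z.2) from rfl, kl_fst]
        unfold FJ
        simp only [List.map_cons]
        ring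
      have e3 : (fun I J : List (ι × ℕ) => (psi0 (m :: 0 :: I.map Prod.snd) *
          psi0 (0 :: y.2 :: z.2 :: J.map Prod.snd)) *
          D.int (a :: y.1 :: z.1 :: (I ++ J).map Prod.fst)) = fun I J => ∑ c, ∑ c', D.η⁻¹ c c' *
        (kl D.pr y I * kl D.pr z I * kl D.pr (c', 0) I *
          (FJ psi0 D.int ((a, m) :: (c, 0) :: I) *
            FJ psi0 D.int ((c', 0) :: y :: z :: J))) := by
        funext I J; exact e2 I J
      rw [e3, shuf_sum]
      apply Finset.sum_congr rfl; intro c _
      rw [shuf_sum]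
      apply Finset.sum_congr rfl; intro c' _
      rw [shuf_smul]
    rw [e1]
    have hS : SS D.pr (fun L : List (ι × ℕ) => D.int (a :: y.1 :: z.1 :: L.map Prod.fst)) := by
      intro l u v l'
      simp only [List.map_append, List.map_cons]
      exact (((hI.int_SS.cons a).cons y.1).cons z.1) _ _ _ _
    rw [shuf_append hS S (fun I J => psi0 (m :: 0 :: I.map Prod.snd) *
          psi0 (0 :: y.2 :: z.2 :: J.map Prod.snd)),
      shuf_snd S (fun I J => psi0 (m :: 0 :: I) * psi0 (0 :: y.2 :: z.2 :: J)), ← psi0_trr]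
    rfl
  · rw [sys_pos C 0 he]
    symm
    apply Finset.sum_eq_zero; intro ee hee
    have h1 := Finset.HasAntidiagonal.mem_antidiagonal.mp hee
    apply Finset.sum_eq_zero; intro c _
    apply Finset.sum_eq_zero; intro c' _
    have h2 : (fun I J => kl D.pr y I * kl D.pr z I * kl D.pr (c', 0) I *
          (D.sys C 0 ee.1 ((a, m) :: (c, 0) :: I) * D.sys C 0 ee.2 ((c', 0) :: y :: z :: J))) =
          fun _ _ => 0 := by
      funext I J
      by_cases h3 : ee.1 = 0
      · rw [sys_pos C 0 (show ee.2 ≠ 0 by omega)]; ring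
      · rw [sys_pos C 0 h3]; ring
    rw [h2, shuf_zero, mul_zero]

end Coh

end Vale.Agent.P269.H598
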