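import Vale.Agent.P269.H598.Contract

/-!
The commutation relation for the full Virasoro expressions, and the constraint `L_{-1}`.
-/

set_option linter.unusedSectionVars false

namespace Vale.Agent.P269.H598

open Finset

lemma der_of_nil {X : Type} (A : (X → ℂ) →ₗ[ℂ] (X → ℂ)) (l : List X) (F : List X → ℂ)
    (h : ∀ x l, F (x :: l) = 0) : der A l F = 0 := by
  induction l generalizing F with
  | nil => rfl
  | cons x l ih =>
    simp only [der]
    have e1 : (fun y => F (y :: l)) = fun _ => 0 := by funext y; exact h y l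
    rw [e1, A_zero, ih _ (fun y l => h x (y :: l))]; ring

namespace Coh

variable {ι : Type} [Fintype ι] [DecidableEq ι] {D : Coh ι}

lemma Good.sign_par (a : ι) : (if D.par a && D.par a then (-1 : ℂ) else 1) =
    (-1) ^ (D.p a + D.q a) := by
  unfold par
  rcases Nat.even_or_odd (D.p a + D.q a) with h | h
  · have h1 : ¬ ((D.p a + D.q a) % 2 = 1) := by have := Nat.even_iff.mp h; omega
    rw [h.neg_one_pow]; simp [h1]
  · have h1 : (D.p a + D.q a) % 2 = 1 := Nat.odd_iff.mp h
    rw [h.neg_one_pow]; simp [h1]

lemma scal_aux (hD : D.Good) (K g e : ℕ) (S : List (ι × ℕ)) :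
    (if g = 1 ∧ e = 0 then 1 / 2 * D.BS (K + 1) (fun x y => pairing D.η (x :: y :: S)) else 0) =
      ((K : ℂ) + 1) * D.scal K g e S := by
  by_cases hge : g = 1 ∧ e = 0
  · rw [if_pos hge]
    obtain ⟨rfl, rfl⟩ := hge
    rcases S with _ | ⟨z, S⟩
    · rcases K with _ | _ | K
      · have : D.BS (0 + 1) (fun x y => pairing D.η [x, y]) = 0 := by
          unfold BS; simp
        rw [this]
        simp [scal]
      · simp only [scal, true_and, and_self, if_true]
        have h1 : D.BS (0 + 1 + 1) (fun x y => pairing D.η [x, y]) =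
            - ∑ a, (D.μ a ^ 2 - 1 / 4) * (-1) ^ (D.p a + D.q a) := by
          unfold BS
          simp only [show 0 + 1 + 1 - 1 = 1 by omega, Finset.sum_range_one,
            show 0 + 1 + 1 - 2 - 0 = 0 by omega, Finset.Nat.antidiagonal_zero,
            Finset.sum_singleton]
          simp only [zero_add, pow_one, neg_mul, one_mul]
          congr 1
          apply Finset.sum_congr rfl
          intro a _
          have h2 : ∀ c, br 2 0 (-D.b a - ((0 : ℕ) : ℂ)) * (D.η⁻¹ * D.R ^ 0) a c *
              pairing D.η [(a, 0), (c, 0)] =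
              (D.μ a ^ 2 - 1 / 4) * (-1) ^ (D.p a + D.q a) * (D.η⁻¹ a c * D.η c a) := by
            intro c
            rw [br_two_zero, pairing_two, if_pos ⟨rfl, rfl⟩, pow_zero, Matrix.mul_one]
            simp only
            by_cases h3 : D.η a c = 0
            · have h4 : D.η c a = 0 := by rw [hD.η_symm, h3, mul_zero]
              rw [h3, h4]; ring
            · have h4 : D.par a = D.par c := hD.η_par h3
              rw [hD.η_symm a c]
              have h5 : ks D.par a c = (-1) ^ (D.p a + D.q a) := by
                rw [← Good.sign_par (D := D) a]; unfold ks; rw [← h4]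
              rw [h5]
              have h6 : D.b a = D.μ a + 1 / 2 := rfl
              rw [h6]; push_cast; ring
          rw [Finset.sum_congr rfl (fun c _ => h2 c), ← Finset.mul_sum, ← Matrix.mul_apply,
            hD.inv_mul, Matrix.one_apply_eq, mul_one]
        rw [h1]
        unfold chi str
        have h7 : ∑ a, (D.μ a ^ 2 - 1 / 4) * (-1) ^ (D.p a + D.q a) =
            ∑ a, (-1) ^ (D.p a + D.q a) * D.μ a ^ 2 -
              1 / 4 * ∑ a, (-1) ^ (D.p a + D.q a) * 1 := by
          rw [Finset.mul_sum, ← Finset.sum_sub_distrib]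
          apply Finset.sum_congr rfl; intro a _; ring
        rw [h7]; push_cast; ring
      · have h1 : D.BS (K + 1 + 1 + 1) (fun x y => pairing D.η [x, y]) = 0 := by
          rw [← BS_zero (D := D) (K + 1 + 1 + 1)]
          apply hD.BS_congr
          intro i x y h1 _ h3
          rw [pairing_two]
          by_cases h4 : x.2 = 0 ∧ y.2 = 0
          · rw [if_pos h4]
            by_contra h5
            have := hD.η_type _ _ h5
            omega
          · rw [if_neg h4]
        rw [h1]
        simp [scal]
    · have h1 : D.BS (K + 1) (fun x y => pairing D.η (x :: y :: z :: S)) = 0 := by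
        rw [← BS_zero (D := D) (K + 1)]
        congr 1
      rw [h1]
      simp [scal]
  · rw [if_neg hge]
    unfold scal
    rw [if_neg (fun h => hge ⟨h.2.1, h.2.2.1⟩), mul_zero]

lemma Axioms.defect (hD : D.Good) {inv : ℕ → ℕ → List (ι × ℕ) → ℂ} (h : D.Axioms inv)
    (g e : ℕ) : D.defect (inv g e) = if g = 0 ∧ e = 0 then pairing D.η else fun _ => 0 := by
  funext S
  unfold Coh.defect
  rw [h.string' g e S]
  split_ifs <;> ring

lemma scal_defect (K g e : ℕ) (S : List (ι × ℕ)) : D.defect (D.scal K g e) S = 0 := by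
  unfold defect
  rw [der_of_nil _ _ _ (fun x l => by simp [scal])]
  simp [scal]

lemma shuf_defect_sum (hD : D.Good) {inv : ℕ → ℕ → List (ι × ℕ) → ℂ} (h : D.Axioms inv)
    (K g e : ℕ) (S : List (ι × ℕ)) :
    (∑ gg ∈ antidiagonal g, ∑ ee ∈ antidiagonal e,
      (1 / 2 * D.BS K (fun x y => shuf D.pr S
          (fun I J => kl D.pr y I * (D.defect (inv gg.1 ee.1) (x :: I) * inv gg.2 ee.2 (y :: J)))) +
        1 / 2 * D.BS K (fun x y => shuf D.pr S
          (fun I J => kl D.pr y I * (inv gg.1 ee.1 (x :: I) *
            D.defect (inv gg.2 ee.2) (y :: J)))))) = - der (D.opKr K) S (inv g e) := by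
  simp only [Finset.sum_add_distrib]
  have t1 : (∑ gg ∈ antidiagonal g, ∑ ee ∈ antidiagonal e,
      (1 / 2 * D.BS K (fun x y => shuf D.pr S
          (fun I J => kl D.pr y I * (D.defect (inv gg.1 ee.1) (x :: I) *
            inv gg.2 ee.2 (y :: J)))))) = 1 / 2 * (- der (D.opKr K) S (inv g e)) := by
    rw [Finset.sum_eq_single_of_mem (0, g)
      (by rw [Finset.HasAntidiagonal.mem_antidiagonal]; simp)]
    · rw [Finset.sum_eq_single_of_mem (0, e)
        (by rw [Finset.HasAntidiagonal.mem_antidiagonal]; simp)]
      · simp only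
        rw [h.defect hD, if_pos ⟨rfl, rfl⟩, contract1 hD K (h.symm g e) S]
      · intro ee hee hne
        have he : ee.1 ≠ 0 := by
          intro h0
          apply hne
          have := Finset.HasAntidiagonal.mem_antidiagonal.mp hee
          ext
          · exact h0
          · simp only; omega
        simp only
        rw [h.defect hD, if_neg (fun h' => he h'.2)]
        simp only [zero_mul, mul_zero, shuf_zero, BS_zero]
    · intro gg hgg hne
      apply Finset.sum_eq_zero
      intro ee _
      have he : gg.1 ≠ 0 := by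
        intro h0
        apply hne
        have := Finset.HasAntidiagonal.mem_antidiagonal.mp hgg
        ext
        · exact h0
        · simp only; omega
      rw [h.defect hD, if_neg (fun h' => he h'.1)]
      simp only [zero_mul, mul_zero, shuf_zero, BS_zero]
  have t2 : (∑ gg ∈ antidiagonal g, ∑ ee ∈ antidiagonal e,
      (1 / 2 * D.BS K (fun x y => shuf D.pr S
          (fun I J => kl D.pr y I * (inv gg.1 ee.1 (x :: I) *
            D.defect (inv gg.2 ee.2) (y :: J)))))) = 1 / 2 * (- der (D.opKr K) S (inv g e)) := by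
    rw [Finset.sum_eq_single_of_mem (g, 0)
      (by rw [Finset.HasAntidiagonal.mem_antidiagonal]; simp)]
    · rw [Finset.sum_eq_single_of_mem (e, 0)
        (by rw [Finset.HasAntidiagonal.mem_antidiagonal]; simp)]
      · simp only
        rw [h.defect hD, if_pos ⟨rfl, rfl⟩, contract2 hD K (h.symm g e) S]
      · intro ee hee hne
        have he : ee.2 ≠ 0 := by
          intro h0
          apply hne
          have := Finset.HasAntidiagonal.mem_antidiagonal.mp hee
          ext
          · simp only; omega
          · exact h0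
        simp only
        rw [h.defect hD, if_neg (fun h' => he h'.2)]
        simp only [mul_zero, shuf_zero, BS_zero]
    · intro gg hgg hne
      apply Finset.sum_eq_zero
      intro ee _
      have he : gg.2 ≠ 0 := by
        intro h0
        apply hne
        have := Finset.HasAntidiagonal.mem_antidiagonal.mp hgg
        ext
        · simp only; omega
        · exact h0
      rw [h.defect hD, if_neg (fun h' => he h'.1)]
      simp only [mul_zero, shuf_zero, BS_zero]
  rw [t1, t2]; ring

/-- The commutation relation `[L_{-1}, L_K] = -(K+1) L_{K-1}`. -/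
theorem vir_defect (hD : D.Good) {inv : ℕ → ℕ → List (ι × ℕ) → ℂ} (h : D.Axioms inv)
    (K g e : ℕ) (S : List (ι × ℕ)) :
    D.defect (D.vir inv (K + 1) g e) S = ((K : ℂ) + 1) * D.vir inv K g e S := by
  have e0 : D.vir inv (K + 1) g e = fun S =>
      D.lin (K + 1) (inv g e) S + (if g = 0 then 0 else D.quad1 (K + 1) (inv (g - 1) e) S) +
      (∑ gg ∈ antidiagonal g, ∑ ee ∈ antidiagonal e,
        D.quad2 (K + 1) (inv gg.1 ee.1) (inv gg.2 ee.2) S) +
      (if g = 0 ∧ e = 0 then pairing (D.R ^ (K + 1) * D.η) S else 0) + D.scal (K + 1) g e S := rfl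
  rw [e0, defect_add, defect_add, defect_add, defect_add, scal_defect, add_zero]
  have a1 := lin_defect hD K (h.symm g e) S
  have a2 : D.defect (fun S => if g = 0 then 0 else D.quad1 (K + 1) (inv (g - 1) e) S) S =
      ((K : ℂ) + 1) * (if g = 0 then 0 else D.quad1 K (inv (g - 1) e) S) +
        ((K : ℂ) + 1) * D.scal K g e S := by
    by_cases hg : g = 0
    · simp only [if_pos hg, defect_zero, mul_zero]
      unfold scal
      rw [if_neg (by omega)]; ring
    · simp only [if_neg hg]
      have e1 : D.defect (fun S => D.quad1 (K + 1) (inv (g - 1) e) S) S =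
          D.defect (D.quad1 (K + 1) (inv (g - 1) e)) S := rfl
      rw [e1, quad1_defect hD K (h.symm _ _) S, ← scal_aux hD K g e S, h.defect hD]
      congr 1
      by_cases h1 : g = 1 ∧ e = 0
      · rw [if_pos h1, if_pos ⟨by omega, h1.2⟩]
      · rw [if_neg h1, if_neg (by omega), BS_zero, mul_zero]
  have a3 : D.defect (fun S => ∑ gg ∈ antidiagonal g, ∑ ee ∈ antidiagonal e,
        D.quad2 (K + 1) (inv gg.1 ee.1) (inv gg.2 ee.2) S) S =
      ((K : ℂ) + 1) * (∑ gg ∈ antidiagonal g, ∑ ee ∈ antidiagonal e,
        D.quad2 K (inv gg.1 ee.1) (inv gg.2 ee.2) S) - der (D.opKr (K + 1)) S (inv g e) := by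
    rw [defect_sum]
    have e1 : ∀ gg ∈ antidiagonal g, D.defect (fun S => ∑ ee ∈ antidiagonal e,
        D.quad2 (K + 1) (inv gg.1 ee.1) (inv gg.2 ee.2) S) S =
        ∑ ee ∈ antidiagonal e, (((K : ℂ) + 1) * D.quad2 K (inv gg.1 ee.1) (inv gg.2 ee.2) S +
        (1 / 2 * D.BS (K + 1) (fun x y => shuf D.pr S
          (fun I J => kl D.pr y I * (D.defect (inv gg.1 ee.1) (x :: I) * inv gg.2 ee.2 (y :: J)))) +
        1 / 2 * D.BS (K + 1) (fun x y => shuf D.pr S
          (fun I J => kl D.pr y I * (inv gg.1 ee.1 (x :: I) *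
            D.defect (inv gg.2 ee.2) (y :: J)))))) := by
      intro gg _
      rw [defect_sum]
      apply Finset.sum_congr rfl
      intro ee _
      exact quad2_defect hD K (h.symm _ _) (h.symm _ _) S
    rw [Finset.sum_congr rfl e1]
    simp only [Finset.sum_add_distrib, ← Finset.mul_sum]
    have e2 := shuf_defect_sum hD h (K + 1) g e S
    simp only [Finset.sum_add_distrib, ← Finset.mul_sum] at e2
    rw [e2]; ring
  have a4 : D.defect (fun S => if g = 0 ∧ e = 0 then pairing (D.R ^ (K + 1) * D.η) S else 0) S +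
      D.lin (K + 1) (D.defect (inv g e)) S =
      ((K : ℂ) + 1) * (if g = 0 ∧ e = 0 then pairing (D.R ^ K * D.η) S else 0) := by
    rw [h.defect hD]
    by_cases hge : g = 0 ∧ e = 0
    · simp only [if_pos hge]
      exact quad0_defect hD K S
    · simp only [if_neg hge, defect_zero, mul_zero, zero_add]
      rw [lin_der, der_zero, A_zero]; ring
  have e5 : D.defect (fun S => D.lin (K + 1) (inv g e) S) S =
      D.defect (D.lin (K + 1) (inv g e)) S := rfl
  unfold vir
  rw [e5]
  linear_combination a1 + a2 + a3 + a4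

lemma opA_zero (g : (ι × ℕ) → ℂ) (x : ι × ℕ) : D.opA 0 g x = opT g x := by
  rw [opA_apply, opT_apply]
  obtain ⟨a, m⟩ := x
  rcases m with _ | m
  · simp
  · simp [br_zero, Matrix.one_apply]

/-- the constraint `L_{-1}` is the string equation -/
theorem vir_zero (hD : D.Good) {inv : ℕ → ℕ → List (ι × ℕ) → ℂ} (h : D.Axioms inv)
    (g e : ℕ) (S : List (ι × ℕ)) : D.vir inv 0 g e S = 0 := by
  have h0 : D.opA 0 = opT := by
    apply LinearMap.ext; intro g; funext x; exact opA_zero g x
  unfold vir
  have e1 : D.quad1 0 (inv (g - 1) e) S = 0 := by unfold quad1 BS; simp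
  have e2 : ∀ gg ee : ℕ × ℕ, D.quad2 0 (inv gg.1 ee.1) (inv gg.2 ee.2) S = 0 := by
    intro gg ee; unfold quad2 BS; simp
  have e3 : D.scal 0 g e S = 0 := by simp [scal]
  simp only [e1, e2, e3, Finset.sum_const_zero, ite_self, add_zero]
  rw [lin_der, h0, pow_zero, Matrix.one_mul]
  have e4 : opT (fun y => inv g e (y :: S)) (D.one, 1) = inv g e ((D.one, 0) :: S) := by
    rw [opT_apply]; simp
  rw [e4, h.string' g e S]; ring

end Coh

end Vale.Agent.P269.H598
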